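import Vale.Agent.P352.H846.PhiLoc
import Vale.Agent.P352.H755.ChE

/-!
# Locality of the action of the conformal charges
-/

set_option linter.all false

namespace Vale.Agent.P352.H846

open GF (Ix V Fn)
open SubConf

variable {D : Type*} [NormedAddCommGroup D] [InnerProductSpace ℂ D]
variable {Q : GF.Theory D} {t : Ix → Ix → GF.Fld D} {A : GF.Fld D} {X : Ix → V → ℝ}

/-- Locality of the action of the charges. -/
theorem phi_loc (ht : H755.IsT Q t) (hA : Q.fld A) (hX : IsKil X) {C : GF.Fld D} (hC : Q.fld C)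
    (h : Q.bose A ∨ Q.bose C) {f g : Fn} (hf : H755.CS f) (hg : H755.CS g) (hs : GF.Sep f g)
    (v : D) : H755.Phi t X A f (C g v) = C g (H755.Phi t X A f v) :=
  phi_loc0 ht hA hX (fun S hS => H755.exists_ok hS)
    (fun f S g g' v hf hS _ hg hg' => H755.com_eq ht hA hX hf hS hg hg' v) hC h hf hg hs v

end Vale.Agent.P352.H846
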