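import Vale.Agent.P352.H755.G1

/-!
# The cut off functions are test functions
-/

set_option linter.all false

noncomputable section

open MeasureTheory Filter Topology Set
open scoped ContDiff ComplexConjugate

namespace Vale.Agent.P352.H846

open GF (Ix V Fn bas eta)
open H755

lemma tst_mul {f g : V → ℝ} (hf : Tst f) (hg : ContDiff ℝ ∞ g) : Tst fun x => f x * g x :=
  ⟨hf.1.mul hg, hf.2.mul_right⟩

lemma tst_add {f g : V → ℝ} (hf : Tst f) (hg : Tst g) : Tst fun x => f x + g x :=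
  ⟨hf.1.add hg.1, hf.2.add hg.2⟩

lemma contDiff_mdot (a : V) : ContDiff ℝ ∞ fun z : V => GF.mdot a z := by
  have hml : (fun z : V => GF.mdot a z) = ml a := funext fun z => (ml_apply a z).symm
  rw [hml]
  exact (ml a).contDiff

/-- the argument of the cutoff -/
def cv (a b : V) (R : ℝ) (x : V) : V :=
  (GF.mdot b x / R ^ 2) • a + R⁻¹ • (x - GF.mdot a x • b - GF.mdot b x • a)

lemma cut_cv (a b : V) (κ : V → ℝ) (R : ℝ) (x : V) : cut a b κ R x = κ (cv a b R x) := rfl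

lemma contDiff_cv (a b : V) (R : ℝ) : ContDiff ℝ ∞ (cv a b R) := by
  have h1 := contDiff_mdot a
  have h2 := contDiff_mdot b
  have h3 : ContDiff ℝ ∞ fun x : V => x - GF.mdot a x • b - GF.mdot b x • a :=
    (contDiff_id.sub (h1.smul contDiff_const)).sub (h2.smul contDiff_const)
  have h4 : ContDiff ℝ ∞ fun x : V => (GF.mdot b x / R ^ 2) • a :=
    (h2.div_const _).smul contDiff_const
  have h5 : ContDiff ℝ ∞ fun x : V => R⁻¹ • (x - GF.mdot a x • b - GF.mdot b x • a) :=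
    h3.const_smul _
  exact h4.add h5

lemma mdot_cv {a b : V} (hbb : GF.mdot b b = 0) (hab : GF.mdot a b = 1) (R : ℝ) (x : V) :
    GF.mdot b (cv a b R x) = GF.mdot b x / R ^ 2 := by
  have hba : GF.mdot b a = 1 := by
    rw [← hab]
    simp only [GF.mdot]
    exact Finset.sum_congr rfl fun i _ => by ring
  unfold cv
  rw [← ml_apply, map_add, map_smul, map_smul, map_sub, map_sub, map_smul, map_smul, ml_apply,
    ml_apply, ml_apply, hba, hbb]
  simp

/-- cutoff functions -/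
theorem cut_tst {a b : V} (haa : GF.mdot a a = 0) (hbb : GF.mdot b b = 0) (hab : GF.mdot a b = 1)
    {κ : V → ℝ} (hκ : Tst κ) {φ : ℝ → ℝ} (hφ : Tst φ) {R : ℝ} (hR : 1 ≤ R) :
    Tst fun x => cut a b κ R x * φ (GF.mdot a x) := by
  have hR0 : 0 < R := by linarith
  refine ⟨(hκ.1.comp (contDiff_cv a b R)).mul (hφ.1.comp (contDiff_mdot a)), ?_⟩
  obtain ⟨R1, hR1⟩ := hκ.2.isCompact.isBounded.subset_closedBall (0 : V)
  obtain ⟨R2, hR2⟩ := hφ.2.isCompact.isBounded.subset_closedBall (0 : ℝ)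
  refine HasCompactSupport.intro (isCompact_closedBall (0:V)
    (R * (R1 + ‖ml b‖ * R1 * ‖a‖) + R2 * ‖b‖ + R ^ 2 * (‖ml b‖ * R1) * ‖a‖)) ?_
  intro x hx
  by_contra hne
  apply hx
  have h1 : κ (cv a b R x) ≠ 0 := fun h => hne (by rw [cut_cv, h, zero_mul])
  have h2 : φ (GF.mdot a x) ≠ 0 := fun h => hne (by rw [h, mul_zero])
  have h3 := hR1 (subset_tsupport _ (Function.mem_support.mpr h1))
  have h4 := hR2 (subset_tsupport _ (Function.mem_support.mpr h2))
  rw [mem_closedBall_zero_iff] at h3 h4 ⊢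
  have h5 : |GF.mdot b x / R ^ 2| ≤ ‖ml b‖ * R1 := by
    rw [← mdot_cv hbb hab, ← ml_apply, ← Real.norm_eq_abs]
    exact ((ml b).le_opNorm _).trans (mul_le_mul_of_nonneg_left h3 (norm_nonneg _))
  have h6 : |GF.mdot b x| ≤ R ^ 2 * (‖ml b‖ * R1) := by
    rw [abs_div, abs_of_pos (by positivity : (0:ℝ) < R ^ 2), div_le_iff₀ (by positivity)] at h5
    linarith
  have h7 : x = R • (cv a b R x - (GF.mdot b x / R ^ 2) • a) + GF.mdot a x • b +
      GF.mdot b x • a := by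
    unfold cv
    rw [add_sub_cancel_left, smul_smul, mul_inv_cancel₀ hR0.ne', one_smul]
    abel
  have h8 : ‖x‖ ≤ ‖R • (cv a b R x - (GF.mdot b x / R ^ 2) • a)‖ + ‖GF.mdot a x • b‖ +
      ‖GF.mdot b x • a‖ := by
    conv_lhs => rw [h7]
    exact (norm_add_le _ _).trans (add_le_add (norm_add_le _ _) le_rfl)
  have h9 : ‖R • (cv a b R x - (GF.mdot b x / R ^ 2) • a)‖ ≤ R * (R1 + ‖ml b‖ * R1 * ‖a‖) := by
    rw [norm_smul, Real.norm_eq_abs, abs_of_pos hR0]
    refine mul_le_mul_of_nonneg_left ?_ hR0.le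
    refine (norm_sub_le _ _).trans (add_le_add h3 ?_)
    rw [norm_smul, Real.norm_eq_abs]
    exact mul_le_mul_of_nonneg_right h5 (norm_nonneg _)
  have h10 : ‖GF.mdot a x • b‖ ≤ R2 * ‖b‖ := by
    rw [norm_smul]
    exact mul_le_mul_of_nonneg_right h4 (norm_nonneg _)
  have h11 : ‖GF.mdot b x • a‖ ≤ R ^ 2 * (‖ml b‖ * R1) * ‖a‖ := by
    rw [norm_smul, Real.norm_eq_abs]
    exact mul_le_mul_of_nonneg_right h6 (norm_nonneg _)
  linarith

/-- the cutoff is one on any ball for large `R` -/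
theorem cut_one (a b : V) {κ : V → ℝ} (hκ1 : ∀ᶠ x in 𝓝 (0 : V), κ x = 1) (ρ : ℝ) :
    ∀ᶠ R in atTop, ∀ x ∈ Metric.ball (0 : V) ρ, cut a b κ R x = 1 := by
  obtain ⟨ε, hε, hκε⟩ := Metric.eventually_nhds_iff_ball.1 hκ1
  have hc : Continuous fun x : V => ‖GF.mdot b x • a‖ + ‖x - GF.mdot a x • b - GF.mdot b x • a‖ := by
    have h1 := (contDiff_mdot a).continuous
    have h2 := (contDiff_mdot b).continuous
    fun_prop
  obtain ⟨N, hN⟩ := (isCompact_closedBall (0 : V) ρ).exists_bound_of_continuousOn hc.continuousOn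
  filter_upwards [eventually_ge_atTop (1:ℝ), eventually_gt_atTop (N / ε)] with R hR hRN x hx
  have hR0 : 0 < R := by linarith
  rw [cut_cv]
  apply hκε
  rw [mem_ball_zero_iff]
  have h1 : cv a b R x = R⁻¹ • (R⁻¹ • (GF.mdot b x • a) +
      (x - GF.mdot a x • b - GF.mdot b x • a)) := by
    unfold cv
    rw [smul_add, smul_smul, smul_smul]
    congr 2
    field_simp
  have h2 := hN x (Metric.ball_subset_closedBall hx)
  rw [Real.norm_eq_abs, abs_of_nonneg (by positivity)] at h2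
  have h3 : ‖cv a b R x‖ ≤ R⁻¹ * N := by
    rw [h1, norm_smul, Real.norm_eq_abs, abs_of_pos (inv_pos.2 hR0)]
    refine mul_le_mul_of_nonneg_left ?_ (inv_pos.2 hR0).le
    refine (norm_add_le _ _).trans ?_
    have h4 : ‖R⁻¹ • (GF.mdot b x • a)‖ ≤ ‖GF.mdot b x • a‖ := by
      rw [norm_smul, Real.norm_eq_abs, abs_of_pos (inv_pos.2 hR0)]
      have h5 : R⁻¹ ≤ 1 := inv_le_one_of_one_le₀ hR
      calc R⁻¹ * ‖GF.mdot b x • a‖ ≤ 1 * ‖GF.mdot b x • a‖ :=
            mul_le_mul_of_nonneg_right h5 (norm_nonneg _)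
        _ = _ := one_mul _
    linarith
  refine h3.trans_lt ?_
  rw [inv_mul_lt_iff₀ hR0]
  rwa [div_lt_iff₀ hε] at hRN

end Vale.Agent.P352.H846

end
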