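import Vale.Agent.P352.H15.BkDefs
import Vale.Agent.P352.H846.CutTst
import Vale.Agent.P352.H755.Pf
import Mathlib.Analysis.Distribution.AEEqOfIntegralContDiff
import Mathlib.Geometry.Manifold.PartitionOfUnity

/-!
# Geometry and test functions for the commutator of `P` with the bracket
-/

set_option linter.all false

noncomputable section

open MeasureTheory Filter Topology Set
open scoped ContDiff ComplexConjugate

namespace Vale.Agent.P352.H846

open GF (Ix V Fn bas eta o)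
open H755 H496 H15

lemma mdx (x y : V) : GF.mdot x y = x 0 * y 0 - x 1 * y 1 - x 2 * y 2 - x 3 * y 3 := by
  have h0 : eta 0 = 1 := by unfold GF.eta; exact if_pos rfl
  have h1 : eta 1 = -1 := by unfold GF.eta; exact if_neg (by decide)
  have h2 : eta 2 = -1 := by unfold GF.eta; exact if_neg (by decide)
  have h3 : eta 3 = -1 := by unfold GF.eta; exact if_neg (by decide)
  simp only [GF.mdot, Fin.sum_univ_four, h0, h1, h2, h3]
  ring

/-- a vector that is not spacelike and has positive product with a future null vector is in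
the forward cone -/
lemma fut {a p : V} (ha : IsNull a) (hp : 0 ≤ GF.mdot p p) (hap : 0 < GF.mdot a p) : 0 < p 0 := by
  by_contra h
  push Not at h
  have h1 := ha.1
  have h2 : 0 < a 0 := ha.2
  rw [mdx] at h1 hp hap
  have h3 : (a 1 * p 1 + a 2 * p 2 + a 3 * p 3) ^ 2 ≤
      (a 1 * a 1 + a 2 * a 2 + a 3 * a 3) * (p 1 * p 1 + p 2 * p 2 + p 3 * p 3) := by
    nlinarith [sq_nonneg (a 1 * p 2 - a 2 * p 1), sq_nonneg (a 1 * p 3 - a 3 * p 1),
      sq_nonneg (a 2 * p 3 - a 3 * p 2)]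
  have h4 : (a 1 * a 1 + a 2 * a 2 + a 3 * a 3) * (p 1 * p 1 + p 2 * p 2 + p 3 * p 3) ≤
      (a 0 * a 0) * (p 0 * p 0) := by
    have h5 : a 1 * a 1 + a 2 * a 2 + a 3 * a 3 = a 0 * a 0 := by linarith
    rw [h5]
    exact mul_le_mul_of_nonneg_left (by linarith) (mul_self_nonneg _)
  have h6 : |a 1 * p 1 + a 2 * p 2 + a 3 * p 3| ≤ a 0 * (-(p 0)) := by
    apply abs_le_of_sq_le_sq _ (mul_nonneg h2.le (by linarith))
    calc _ ≤ _ := h3.trans h4
      _ = _ := by ring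
  have h7 := (abs_le.1 h6).1
  nlinarith

/-- products in the forward cone are nonnegative -/
lemma fut2 {p q : V} (hp : 0 ≤ GF.mdot p p) (hp0 : 0 < p 0) (hq : 0 ≤ GF.mdot q q)
    (hq0 : 0 < q 0) : 0 ≤ GF.mdot p q := by
  rw [mdx] at hp hq ⊢
  have h3 : (p 1 * q 1 + p 2 * q 2 + p 3 * q 3) ^ 2 ≤
      (p 1 * p 1 + p 2 * p 2 + p 3 * p 3) * (q 1 * q 1 + q 2 * q 2 + q 3 * q 3) := by
    nlinarith [sq_nonneg (p 1 * q 2 - p 2 * q 1), sq_nonneg (p 1 * q 3 - p 3 * q 1),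
      sq_nonneg (p 2 * q 3 - p 3 * q 2)]
  have h4 : (p 1 * p 1 + p 2 * p 2 + p 3 * p 3) * (q 1 * q 1 + q 2 * q 2 + q 3 * q 3) ≤
      (p 0 * p 0) * (q 0 * q 0) := by
    apply mul_le_mul (by linarith) (by linarith)
    · nlinarith [mul_self_nonneg (q 1), mul_self_nonneg (q 2), mul_self_nonneg (q 3)]
    · exact mul_self_nonneg _
  have h6 : |p 1 * q 1 + p 2 * q 2 + p 3 * q 3| ≤ p 0 * q 0 := by
    apply abs_le_of_sq_le_sq _ (by positivity)
    calc _ ≤ _ := h3.trans h4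
      _ = _ := by ring
  have h7 := (abs_le.1 h6).2
  linarith

/-- a point between two points that are spacelike is spacelike to one of them -/
lemma geo {a x y z : V} (ha : IsNull a) (h1 : GF.mdot a x < GF.mdot a z)
    (h2 : GF.mdot a z < GF.mdot a y) (h3 : 0 ≤ GF.mdot (z - x) (z - x))
    (h4 : 0 ≤ GF.mdot (y - z) (y - z)) : 0 ≤ GF.mdot (x - y) (x - y) := by
  have ha1 : 0 < GF.mdot a (z - x) := by
    rw [mdx] at h1 h2 ⊢
    rw [mdx] at h1
    simp only [Pi.sub_apply]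
    linarith
  have ha2 : 0 < GF.mdot a (y - z) := by
    rw [mdx] at h1 h2 ⊢
    rw [mdx] at h2
    simp only [Pi.sub_apply]
    linarith
  have h5 := fut2 h3 (fut ha h3 ha1) h4 (fut ha h4 ha2)
  rw [mdx] at h3 h4 h5 ⊢
  simp only [Pi.sub_apply] at h3 h4 h5 ⊢
  linarith

/-- a dual null vector -/
lemma exists_dual {a : V} (ha : IsNull a) : ∃ b, IsNull b ∧ GF.mdot a b = 1 := by
  have h1 := ha.1
  have h2 : 0 < a 0 := ha.2
  rw [mdx] at h1
  have h3 : a 0 ≠ 0 := h2.ne'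
  refine ⟨![1 / (2 * a 0), -a 1 / (2 * (a 0) ^ 2), -a 2 / (2 * (a 0) ^ 2),
    -a 3 / (2 * (a 0) ^ 2)], ⟨?_, ?_⟩, ?_⟩
  · rw [mdx]
    simp only [Matrix.cons_val_zero, Matrix.cons_val_one, Matrix.cons_val]
    field_simp
    linarith
  · show 0 < (1 / (2 * a 0) : ℝ)
    positivity
  · rw [mdx]
    simp only [Matrix.cons_val_zero, Matrix.cons_val_one, Matrix.cons_val]
    field_simp
    linarith

/-- a cutoff function -/
lemma exists_cutf : ∃ κ : V → ℝ, Tst κ ∧ ∀ᶠ x in 𝓝 (0 : V), κ x = 1 := by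
  let g : ContDiffBump (0 : V) := ⟨1, 2, one_pos, one_lt_two⟩
  exact ⟨g, ⟨g.contDiff, g.hasCompactSupport⟩, g.eventuallyEq_one⟩

lemma continuous_mdd (x : V) : Continuous fun z : V => GF.mdot (x - z) (x - z) := by
  simp only [mdx]
  fun_prop

lemma isOpen_cc {K : Set V} (hK : IsCompact K) : IsOpen (cc K) := by
  have h1 : cc K = (Prod.snd '' {p : V × V | p.1 ∈ K ∧ 0 ≤ GF.mdot (p.1 - p.2) (p.1 - p.2)})ᶜ := by
    ext z
    simp only [cc, mem_setOf_eq, mem_compl_iff, mem_image, Prod.exists, exists_eq_right, not_exists,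
      not_and, not_le]
  rw [h1, isOpen_compl_iff]
  rw [← isSeqClosed_iff_isClosed]
  intro u z hu huz
  simp only [mem_image, mem_setOf_eq, Prod.exists, exists_eq_right] at hu
  choose x hx hx2 using hu
  obtain ⟨y, hy, φ, hφ, hlim⟩ := hK.tendsto_subseq hx
  refine ⟨(y, z), ⟨hy, ?_⟩, rfl⟩
  have h2 : Continuous fun p : V × V => GF.mdot (p.1 - p.2) (p.1 - p.2) := by
    simp only [mdx]
    fun_prop
  have h3 : Tendsto (fun n => (x (φ n), u (φ n))) atTop (𝓝 (y, z)) :=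
    hlim.prodMk_nhds (huz.comp hφ.tendsto_atTop)
  exact ge_of_tendsto' ((h2.tendsto _).comp h3) fun n => hx2 (φ n)

/-- splitting a test function along two open sets -/
lemma exists_split_real {f : V → ℝ} (hf : Tst f) {U1 U2 : Set V} (h1 : IsOpen U1)
    (h2 : IsOpen U2) (hfU : tsupport f ⊆ U1 ∪ U2) : ∃ f1 f2 : V → ℝ, Tst f1 ∧ Tst f2 ∧
      tsupport f1 ⊆ U1 ∧ tsupport f2 ⊆ U2 ∧ ∀ x, f x = f1 x + f2 x := by
  have hK : IsCompact (tsupport f \ U2) := hf.2.isCompact.diff h2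
  have hKU : tsupport f \ U2 ⊆ U1 := fun x hx => (hfU hx.1).resolve_right hx.2
  obtain ⟨L, hL, hKL, hLU⟩ := exists_compact_between hK h1 hKU
  obtain ⟨ρ, hρ1, hρ0, _⟩ := exists_contMDiffMap_one_nhds_of_subset_interior
    (n := (⊤ : ℕ∞)) (modelWithCornersSelf ℝ V) hK.isClosed hKL
  have hρs : ContDiff ℝ ((⊤ : ℕ∞) : WithTop ℕ∞) (ρ : V → ℝ) := ρ.contMDiff.contDiff
  have hFc : HasCompactSupport fun x => ρ x * f x := hf.2.mul_left
  have hFt : tsupport (fun x => ρ x * f x) ⊆ L := by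
    apply closure_minimal _ hL.isClosed
    intro x hx
    by_contra hxL
    apply hx
    simp [hρ0 x hxL]
  have hs : tsupport (fun x => f x - ρ x * f x) ⊆ tsupport f := by
    apply closure_mono
    intro x hx hfx
    apply hx
    simp [hfx]
  refine ⟨fun x => ρ x * f x, fun x => f x - ρ x * f x, ⟨hρs.mul hf.1, hFc⟩,
    ⟨hf.1.sub (hρs.mul hf.1), ?_⟩, hFt.trans hLU, ?_, fun x => by ring⟩
  · exact hf.2.of_isClosed_subset (isClosed_tsupport _) hs
  · intro x hx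
    by_contra hx2
    have hxf : x ∈ tsupport f := hs hx
    have h3 : ∀ᶠ y in 𝓝 x, ρ y = 1 :=
      (Filter.eventually_iff.1 hρ1 |> mem_nhdsSet_iff_forall.1) x ⟨hxf, hx2⟩
    have h4 : (fun x => f x - ρ x * f x) =ᶠ[𝓝 x] 0 := by
      filter_upwards [h3] with y hy
      rw [hy]
      simp
    exact notMem_tsupport_iff_eventuallyEq.2 h4 hx

/-- a quadratic polynomial that vanishes on an interval in the sense of distributions -/
lemma poly_zero {c0 c1 c2 : ℂ} {α β : ℝ} (hαβ : α < β)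
    (hψ : ∀ ψ : ℝ → ℝ, Tst ψ → tsupport ψ ⊆ Ioo α β →
      ∫ u : ℝ, (ψ u : ℂ) * (c0 + u * c1 + u ^ 2 * c2) = 0) : c0 = 0 := by
  have hc : Continuous fun u : ℝ => c0 + u * c1 + (u : ℂ) ^ 2 * c2 := by fun_prop
  have h1 : ∀ᵐ u ∂(volume : Measure ℝ), u ∈ Ioo α β → c0 + u * c1 + (u : ℂ) ^ 2 * c2 = 0 := by
    refine isOpen_Ioo.ae_eq_zero_of_integral_contDiff_smul_eq_zero
      (hc.locallyIntegrable.locallyIntegrableOn _) fun g hg hgc hgW => ?_
    have h2 := hψ g ⟨hg, hgc⟩ hgW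
    simpa only [Complex.real_smul] using h2
  have h2 : (fun u : ℝ => c0 + u * c1 + (u : ℂ) ^ 2 * c2) =ᵐ[volume.restrict (Ioo α β)]
      fun _ => 0 := by
    rw [Filter.EventuallyEq, ae_restrict_iff' isOpen_Ioo.measurableSet]
    exact h1
  have h3 := Measure.eqOn_open_of_ae_eq h2 isOpen_Ioo hc.continuousOn continuousOn_const
  set m : ℝ := (α + β) / 2 with hm
  set d : ℝ := (β - α) / 4 with hd
  have hd0 : 0 < d := by rw [hd]; linarith
  have e1 := h3 (show m - d ∈ Ioo α β from ⟨by rw [hm, hd]; linarith, by rw [hm, hd]; linarith⟩)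
  have e2 := h3 (show m ∈ Ioo α β from ⟨by rw [hm]; linarith, by rw [hm]; linarith⟩)
  have e3 := h3 (show m + d ∈ Ioo α β from ⟨by rw [hm, hd]; linarith, by rw [hm, hd]; linarith⟩)
  simp only at e1 e2 e3
  push_cast at e1 e2 e3
  have hdc : (d : ℂ) ≠ 0 := by exact_mod_cast hd0.ne'
  have hc2 : c2 = 0 := by
    have h4 : (2 : ℂ) * (d : ℂ) ^ 2 * c2 = 0 := by linear_combination e1 + e3 - 2 * e2
    rcases mul_eq_zero.1 h4 with h5 | h5
    · exact absurd h5 (mul_ne_zero two_ne_zero (pow_ne_zero _ hdc))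
    · exact h5
  have hc1 : c1 = 0 := by
    have h4 : (d : ℂ) * c1 = 0 := by
      rw [hc2] at e2 e3
      linear_combination e3 - e2
    exact (mul_eq_zero.1 h4).resolve_left hdc
  rw [hc1, hc2] at e2
  simpa using e2

/-- the slab between the support of `f` and the region `O` -/
lemma exists_gap {a : V} (ha : IsNull a) {O : Set V} {f : Fn} (hf : H246.In (cc O) f)
    (hs : Sepa a f O) : ∃ α β : ℝ, α < β ∧ ∀ z, α < GF.mdot a z → GF.mdot a z < β →
      z ∈ cc (tsupport f) ∪ cc O := by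
  have hcm : Continuous fun z : V => GF.mdot a z := (contDiff_mdot a).continuous
  have hK : IsCompact (tsupport f) := hf.2.1.isCompact
  obtain ⟨u, h | h⟩ := hs
  · obtain ⟨α, hα, hα2⟩ : ∃ α < u, ∀ x ∈ tsupport f, GF.mdot a x ≤ α := by
      by_cases he : (tsupport f).Nonempty
      · obtain ⟨x, hx, hmax⟩ := hK.exists_isMaxOn he hcm.continuousOn
        exact ⟨GF.mdot a x, h.1 x hx, fun y hy => hmax hy⟩
      · exact ⟨u - 1, by linarith, fun x hx => absurd ⟨x, hx⟩ he⟩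
    refine ⟨α, u, hα, fun z hz1 hz2 => ?_⟩
    by_contra hz
    simp only [mem_union, not_or] at hz
    obtain ⟨hz3, hz4⟩ := hz
    simp only [cc, mem_setOf_eq, not_forall, not_lt] at hz3 hz4
    obtain ⟨x, hx, hx2⟩ := hz3
    obtain ⟨y, hy, hy2⟩ := hz4
    have h5 : 0 ≤ GF.mdot (z - x) (z - x) := by
      rw [mdx] at hx2 ⊢
      simp only [Pi.sub_apply] at hx2 ⊢
      linarith
    have h6 := geo ha (lt_of_le_of_lt (hα2 x hx) hz1) (hz2.trans (h.2 y hy)) h5 hy2
    have h7 := hf.2.2 hx y hy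
    rw [mdx] at h6 h7
    simp only [Pi.sub_apply] at h6 h7
    linarith
  · obtain ⟨β, hβ, hβ2⟩ : ∃ β > u, ∀ x ∈ tsupport f, β ≤ GF.mdot a x := by
      by_cases he : (tsupport f).Nonempty
      · obtain ⟨x, hx, hmin⟩ := hK.exists_isMinOn he hcm.continuousOn
        exact ⟨GF.mdot a x, h.1 x hx, fun y hy => hmin hy⟩
      · exact ⟨u + 1, by linarith, fun x hx => absurd ⟨x, hx⟩ he⟩
    refine ⟨u, β, hβ, fun z hz1 hz2 => ?_⟩
    by_contra hz
    simp only [mem_union, not_or] at hz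
    obtain ⟨hz3, hz4⟩ := hz
    simp only [cc, mem_setOf_eq, not_forall, not_lt] at hz3 hz4
    obtain ⟨x, hx, hx2⟩ := hz3
    obtain ⟨y, hy, hy2⟩ := hz4
    have h5 : 0 ≤ GF.mdot (z - y) (z - y) := by
      rw [mdx] at hy2 ⊢
      simp only [Pi.sub_apply] at hy2 ⊢
      linarith
    have h6 := geo ha ((h.2 y hy).trans hz1) (lt_of_lt_of_le hz2 (hβ2 x hx)) h5 hx2
    have h7 := hf.2.2 hx y hy
    rw [mdx] at h6 h7
    simp only [Pi.sub_apply] at h6 h7
    linarith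

end Vale.Agent.P352.H846

end
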