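import Mathlib
import Vale.Agent.P352.H467.Tf

/-!
# From compactly supported profiles to plane waves

Row (N): if the integrals of a Schwartz function against the products `φ'' (x₀+x₁) σ' (x₀-x₁)`
vanish for all test functions `φ`, `σ`, then so do the integrals against the plane waves with both
frequencies non-zero.
-/

open MeasureTheory Set Filter Topology
open scoped ContDiff

namespace Vale.Agent.P352.H846

open H467

/-- A cut off plane wave. -/
noncomputable def cutW (ψ : ℝ → ℂ) (a om : ℝ) (u : ℝ) : ℂ :=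
  ψ (a * u) * Complex.exp (Complex.I * ((om * u : ℝ) : ℂ))

theorem norm_wave (om u : ℝ) : ‖Complex.exp (Complex.I * ((om * u : ℝ) : ℂ))‖ = 1 := by
  rw [mul_comm]
  exact Complex.norm_exp_ofReal_mul_I _

theorem norm_cutW (ψ : ℝ → ℂ) (a om : ℝ) (u : ℝ) : ‖cutW ψ a om u‖ = ‖ψ (a * u)‖ := by
  rw [cutW, norm_mul, norm_wave, mul_one]

theorem hasDerivAt_cutW {ψ : ℝ → ℂ} (hψ : ContDiff ℝ ∞ ψ) (a om u : ℝ) :
    HasDerivAt (cutW ψ a om)
      ((a : ℂ) * cutW (deriv ψ) a om u + Complex.I * om * cutW ψ a om u) u := by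
  have h1 : HasDerivAt (fun u : ℝ => ψ (a * u)) ((a : ℂ) * deriv ψ (a * u)) u := by
    have h2 : HasDerivAt ψ (deriv ψ (a * u)) (a * u) :=
      ((hψ.differentiable (by simp)).differentiableAt).hasDerivAt
    have h3 : HasDerivAt (fun u : ℝ => a * u) a u := by
      simpa using (hasDerivAt_id u).const_mul a
    have h4 := h2.scomp u h3
    simpa [Function.comp_def] using h4
  have h5 : HasDerivAt (fun u : ℝ => Complex.exp (Complex.I * ((om * u : ℝ) : ℂ)))
      (Complex.exp (Complex.I * ((om * u : ℝ) : ℂ)) * (Complex.I * om)) u := by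
    have h6 : HasDerivAt (fun u : ℝ => Complex.I * ((om * u : ℝ) : ℂ)) (Complex.I * om) u := by
      have h7 : HasDerivAt (fun u : ℝ => om * u) om u := by
        simpa using (hasDerivAt_id u).const_mul om
      exact (h7.ofReal_comp).const_mul _
    exact h6.cexp
  have h8 := h1.mul h5
  refine h8.congr_deriv ?_
  simp only [cutW]
  ring

theorem deriv_cutW {ψ : ℝ → ℂ} (hψ : ContDiff ℝ ∞ ψ) (a om : ℝ) :
    deriv (cutW ψ a om) =
      fun u => (a : ℂ) * cutW (deriv ψ) a om u + Complex.I * om * cutW ψ a om u := by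
  ext u
  exact (hasDerivAt_cutW hψ a om u).deriv

theorem contDiff_deriv' {ψ : ℝ → ℂ} (hψ : ContDiff ℝ ∞ ψ) : ContDiff ℝ ∞ (deriv ψ) := by
  have h := (contDiff_infty_iff_deriv (𝕜 := ℝ) (f := ψ)).mp hψ
  exact h.2

theorem deriv2_cutW {ψ : ℝ → ℂ} (hψ : ContDiff ℝ ∞ ψ) (a om : ℝ) :
    deriv (deriv (cutW ψ a om)) =
      fun u => (a : ℂ) * ((a : ℂ) * cutW (deriv (deriv ψ)) a om u +
          Complex.I * om * cutW (deriv ψ) a om u) +
        Complex.I * om * ((a : ℂ) * cutW (deriv ψ) a om u + Complex.I * om * cutW ψ a om u) := by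
  rw [deriv_cutW hψ]
  ext u
  exact (((hasDerivAt_cutW (contDiff_deriv' hψ) a om u).const_mul _).add
    ((hasDerivAt_cutW hψ a om u).const_mul _)).deriv

theorem contDiff_cutW {ψ : ℝ → ℂ} (hψ : ContDiff ℝ ∞ ψ) (a om : ℝ) :
    ContDiff ℝ ∞ (cutW ψ a om) := by
  unfold cutW
  have h1 : ContDiff ℝ ∞ (fun u : ℝ => ψ (a * u)) := hψ.comp (by fun_prop)
  have h2 : ContDiff ℝ ∞ (fun u : ℝ => ((om * u : ℝ) : ℂ)) :=
    Complex.ofRealCLM.contDiff.comp (contDiff_const.mul contDiff_id)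
  have h3 : ContDiff ℝ ∞ (fun u : ℝ => Complex.exp (Complex.I * ((om * u : ℝ) : ℂ))) :=
    (contDiff_const.mul h2).cexp
  exact h1.mul h3

theorem cs_cutW {ψ : ℝ → ℂ} (hψ : HasCompactSupport ψ) {a : ℝ} (ha : a ≠ 0) (om : ℝ) :
    HasCompactSupport (cutW ψ a om) := by
  have h1 : HasCompactSupport (fun u : ℝ => ψ (a * u)) :=
    hψ.comp_homeomorph (Homeomorph.mulLeft₀ a ha)
  exact h1.mul_right

theorem tendsto_cutW {ψ : ℝ → ℂ} (hψ : Continuous ψ) (om u : ℝ) {a : ℕ → ℝ}
    (ha : Tendsto a atTop (𝓝 0)) :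
    Tendsto (fun n => cutW ψ (a n) om u) atTop
      (𝓝 (ψ 0 * Complex.exp (Complex.I * ((om * u : ℝ) : ℂ)))) := by
  unfold cutW
  refine Tendsto.mul_const _ ?_
  have h1 : Tendsto (fun n => a n * u) atTop (𝓝 0) := by
    simpa using ha.mul_const u
  exact (hψ.tendsto 0).comp h1

/-- **Row (N).** -/
theorem nonvan {g : SchwartzMap M4 ℂ}
    (h : ∀ φ σ : ℝ → ℂ, ContDiff ℝ ∞ φ → HasCompactSupport φ → ContDiff ℝ ∞ σ →
      HasCompactSupport σ →
      ∫ x : M4, deriv (deriv φ) (x 0 + x 1) * deriv σ (x 0 - x 1) * g x = 0)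
    (om ν : ℝ) (hom : om ≠ 0) (hν : ν ≠ 0) :
    ∫ x : M4, Complex.exp (Complex.I * ((om * (x 0 + x 1) + ν * (x 0 - x 1) : ℝ) : ℂ)) * g x
      = 0 := by
  -- the cut off
  obtain ⟨ψ, hψ, hψc, hψ0⟩ : ∃ ψ : ℝ → ℂ, ContDiff ℝ ∞ ψ ∧ HasCompactSupport ψ ∧ ψ 0 = 1 := by
    let f : ContDiffBump (0 : ℝ) := ⟨1, 2, one_pos, one_lt_two⟩
    refine ⟨fun u => (f u : ℂ), Complex.ofRealCLM.contDiff.comp f.contDiff, ?_, ?_⟩
    · exact f.hasCompactSupport.comp_left (g := fun x : ℝ => (x : ℂ)) (by simp)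
    · have h1 : f 0 = 1 := f.one_of_mem_closedBall (by simp [f.rIn_pos.le])
      simp [h1]
  have hψ1 := contDiff_deriv' hψ
  have hψ2 := contDiff_deriv' hψ1
  obtain ⟨C0, hC0⟩ := hψc.exists_bound_of_continuous hψ.continuous
  obtain ⟨C1, hC1⟩ := hψc.deriv.exists_bound_of_continuous hψ1.continuous
  obtain ⟨C2, hC2⟩ := hψc.deriv.deriv.exists_bound_of_continuous hψ2.continuous
  have hC0p : 0 ≤ C0 := (norm_nonneg _).trans (hC0 0)
  have hC1p : 0 ≤ C1 := (norm_nonneg _).trans (hC1 0)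
  have hC2p : 0 ≤ C2 := (norm_nonneg _).trans (hC2 0)
  set a : ℕ → ℝ := fun n => 1 / ((n : ℝ) + 1) with ha
  have ha0 : Tendsto a atTop (𝓝 0) := tendsto_one_div_add_atTop_nhds_zero_nat
  have hapos : ∀ n, 0 < a n := fun n => by positivity
  have hale : ∀ n, a n ≤ 1 := fun n => by
    rw [ha]
    simp only
    rw [div_le_one (by positivity)]
    have : (0:ℝ) ≤ n := Nat.cast_nonneg n
    linarith
  have hna : ∀ n, ‖((a n : ℝ) : ℂ)‖ ≤ 1 := fun n => by
    rw [Complex.norm_real, Real.norm_eq_abs, abs_of_pos (hapos n)]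
    exact hale n
  -- bounds
  have hb1 : ∀ n u, ‖deriv (cutW ψ (a n) ν) u‖ ≤ C1 + |ν| * C0 := by
    intro n u
    rw [deriv_cutW hψ]
    refine (norm_add_le _ _).trans ?_
    rw [norm_mul, norm_mul, norm_cutW, norm_cutW, norm_mul, Complex.norm_I, one_mul,
      Complex.norm_real, Complex.norm_real, Real.norm_eq_abs, Real.norm_eq_abs,
      abs_of_pos (hapos n)]
    have h1 : a n * ‖deriv ψ (a n * u)‖ ≤ 1 * C1 :=
      mul_le_mul (hale n) (hC1 _) (norm_nonneg _) zero_le_one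
    have h2 : |ν| * ‖ψ (a n * u)‖ ≤ |ν| * C0 :=
      mul_le_mul_of_nonneg_left (hC0 _) (abs_nonneg _)
    linarith
  have hb2 : ∀ n u, ‖deriv (deriv (cutW ψ (a n) om)) u‖ ≤
      (C2 + |om| * C1) + |om| * (C1 + |om| * C0) := by
    intro n u
    rw [deriv2_cutW hψ]
    refine (norm_add_le _ _).trans ?_
    have e1 : ‖(a n : ℂ) * cutW (deriv (deriv ψ)) (a n) om u +
        Complex.I * om * cutW (deriv ψ) (a n) om u‖ ≤ C2 + |om| * C1 := by
      refine (norm_add_le _ _).trans ?_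
      rw [norm_mul, norm_mul, norm_cutW, norm_cutW, norm_mul, Complex.norm_I, one_mul,
        Complex.norm_real, Complex.norm_real, Real.norm_eq_abs, Real.norm_eq_abs,
        abs_of_pos (hapos n)]
      have h1 : a n * ‖deriv (deriv ψ) (a n * u)‖ ≤ 1 * C2 :=
        mul_le_mul (hale n) (hC2 _) (norm_nonneg _) zero_le_one
      have h2 : |om| * ‖deriv ψ (a n * u)‖ ≤ |om| * C1 :=
        mul_le_mul_of_nonneg_left (hC1 _) (abs_nonneg _)
      linarith
    have e2 : ‖(a n : ℂ) * cutW (deriv ψ) (a n) om u +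
        Complex.I * om * cutW ψ (a n) om u‖ ≤ C1 + |om| * C0 := by
      refine (norm_add_le _ _).trans ?_
      rw [norm_mul, norm_mul, norm_cutW, norm_cutW, norm_mul, Complex.norm_I, one_mul,
        Complex.norm_real, Complex.norm_real, Real.norm_eq_abs, Real.norm_eq_abs,
        abs_of_pos (hapos n)]
      have h1 : a n * ‖deriv ψ (a n * u)‖ ≤ 1 * C1 :=
        mul_le_mul (hale n) (hC1 _) (norm_nonneg _) zero_le_one
      have h2 : |om| * ‖ψ (a n * u)‖ ≤ |om| * C0 :=
        mul_le_mul_of_nonneg_left (hC0 _) (abs_nonneg _)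
      linarith
    rw [norm_mul, norm_mul (Complex.I * (om : ℂ)), norm_mul Complex.I, Complex.norm_I, one_mul,
      Complex.norm_real, Complex.norm_real, Real.norm_eq_abs, Real.norm_eq_abs,
      abs_of_pos (hapos n)]
    have h3 : a n * ‖(a n : ℂ) * cutW (deriv (deriv ψ)) (a n) om u +
        Complex.I * om * cutW (deriv ψ) (a n) om u‖ ≤ 1 * (C2 + |om| * C1) :=
      mul_le_mul (hale n) e1 (norm_nonneg _) zero_le_one
    have h4 := mul_le_mul_of_nonneg_left e2 (abs_nonneg om)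
    linarith
  set K1 : ℝ := C1 + |ν| * C0 with hK1
  set K2 : ℝ := (C2 + |om| * C1) + |om| * (C1 + |om| * C0) with hK2
  have hK2p : 0 ≤ K2 := by positivity
  -- limits
  have hac : Tendsto (fun n => ((a n : ℝ) : ℂ)) atTop (𝓝 0) := by
    have h1 := (Complex.continuous_ofReal.tendsto 0).comp ha0
    simpa [Function.comp_def] using h1
  have hl1 : ∀ u : ℝ, Tendsto (fun n => deriv (cutW ψ (a n) ν) u) atTop
      (𝓝 (Complex.I * ν * Complex.exp (Complex.I * ((ν * u : ℝ) : ℂ)))) := by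
    intro u
    have h1 := (hac.mul (tendsto_cutW hψ1.continuous ν u ha0)).add
      ((tendsto_cutW hψ.continuous ν u ha0).const_mul (Complex.I * ν))
    rw [zero_mul, zero_add, hψ0, one_mul] at h1
    simp_rw [deriv_cutW hψ]
    exact h1
  have hl2 : ∀ u : ℝ, Tendsto (fun n => deriv (deriv (cutW ψ (a n) om)) u) atTop
      (𝓝 (Complex.I * om * (Complex.I * om * Complex.exp (Complex.I * ((om * u : ℝ) : ℂ))))) := by
    intro u
    have h1 := (hac.mul (tendsto_cutW hψ1.continuous om u ha0)).add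
      ((tendsto_cutW hψ.continuous om u ha0).const_mul (Complex.I * om))
    rw [zero_mul, zero_add, hψ0, one_mul] at h1
    have h2 := (hac.mul (tendsto_cutW hψ2.continuous om u ha0)).add
      ((tendsto_cutW hψ1.continuous om u ha0).const_mul (Complex.I * om))
    have h3 := (hac.mul h2).add (h1.const_mul (Complex.I * om))
    rw [zero_mul, zero_add] at h3
    simp_rw [deriv2_cutW hψ]
    exact h3
  -- dominated convergence
  have hg : Integrable (fun x : M4 => g x) := g.integrable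
  have hcont : ∀ n, Continuous fun x : M4 =>
      deriv (deriv (cutW ψ (a n) om)) (x 0 + x 1) * deriv (cutW ψ (a n) ν) (x 0 - x 1) * g x := by
    intro n
    have h1 := (contDiff_deriv' (contDiff_deriv' (contDiff_cutW hψ (a n) om))).continuous
    have h2 := (contDiff_deriv' (contDiff_cutW hψ (a n) ν)).continuous
    have h3 := g.continuous
    fun_prop
  have hlim := tendsto_integral_of_dominated_convergence (μ := (volume : Measure M4))
    (F := fun n (x : M4) =>
      deriv (deriv (cutW ψ (a n) om)) (x 0 + x 1) * deriv (cutW ψ (a n) ν) (x 0 - x 1) * g x)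
    (f := fun x : M4 => (Complex.I * om * (Complex.I * om *
      Complex.exp (Complex.I * ((om * (x 0 + x 1) : ℝ) : ℂ)))) *
      (Complex.I * ν * Complex.exp (Complex.I * ((ν * (x 0 - x 1) : ℝ) : ℂ))) * g x)
    (bound := fun x => K2 * K1 * ‖g x‖)
    (fun n => (hcont n).aestronglyMeasurable) (hg.norm.const_mul _)
    (fun n => Eventually.of_forall fun x => by
      rw [norm_mul, norm_mul]
      exact mul_le_mul_of_nonneg_right
        (mul_le_mul (hb2 n _) (hb1 n _) (norm_nonneg _) hK2p) (norm_nonneg _))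
    (Eventually.of_forall fun x => ((hl2 _).mul (hl1 _)).mul_const _)
  have hz : ∀ n, ∫ x : M4, deriv (deriv (cutW ψ (a n) om)) (x 0 + x 1) *
      deriv (cutW ψ (a n) ν) (x 0 - x 1) * g x = 0 := fun n =>
    h _ _ (contDiff_cutW hψ _ _) (cs_cutW hψc (hapos n).ne' _) (contDiff_cutW hψ _ _)
      (cs_cutW hψc (hapos n).ne' _)
  simp_rw [hz] at hlim
  have h0 := tendsto_nhds_unique hlim tendsto_const_nhds
  have h1 : ∀ x : M4, (Complex.I * om * (Complex.I * om *
      Complex.exp (Complex.I * ((om * (x 0 + x 1) : ℝ) : ℂ)))) *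
      (Complex.I * ν * Complex.exp (Complex.I * ((ν * (x 0 - x 1) : ℝ) : ℂ))) * g x =
      (Complex.I * om * (Complex.I * om) * (Complex.I * ν)) *
      (Complex.exp (Complex.I * ((om * (x 0 + x 1) + ν * (x 0 - x 1) : ℝ) : ℂ)) * g x) := by
    intro x
    have h2 : Complex.exp (Complex.I * ((om * (x 0 + x 1) + ν * (x 0 - x 1) : ℝ) : ℂ)) =
        Complex.exp (Complex.I * ((om * (x 0 + x 1) : ℝ) : ℂ)) *
          Complex.exp (Complex.I * ((ν * (x 0 - x 1) : ℝ) : ℂ)) := by
      rw [← Complex.exp_add, ← mul_add, ← Complex.ofReal_add]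
    rw [h2]
    ring
  simp_rw [h1] at h0
  rw [integral_const_mul] at h0
  have hom' : (om : ℂ) ≠ 0 := Complex.ofReal_ne_zero.mpr hom
  have hν' : (ν : ℂ) ≠ 0 := Complex.ofReal_ne_zero.mpr hν
  have hne : Complex.I * om * (Complex.I * om) * (Complex.I * ν) ≠ 0 := by
    refine mul_ne_zero (mul_ne_zero ?_ ?_) ?_ <;>
    exact mul_ne_zero Complex.I_ne_zero (by assumption)
  rcases mul_eq_zero.mp h0 with h2 | h2
  · exact absurd h2 hne
  · exact h2

end Vale.Agent.P352.H846
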