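import Mathlib
import Vale.Agent.P352.H467.Tf
import Vale.Agent.P352.H846.Nonvan

/-!
# From real compactly supported profiles to plane waves, derivatives of any order

If the integrals of a Schwartz function against the products
`φ^(k) (x₀+x₁) σ^(l) (x₀-x₁)` vanish for all real test functions `φ`, `σ`, then so do the
integrals against the plane waves with both frequencies non-zero.
-/

open MeasureTheory Set Filter Topology
open scoped ContDiff

namespace Vale.Agent.P352.H846

open H467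

/-- Iterated derivatives of cut off plane waves: uniform bound and pointwise limit. -/
theorem iter_cutW (om : ℝ) {a : ℕ → ℝ} (ha0 : Tendsto a atTop (𝓝 0))
    (ha1 : ∀ n, |a n| ≤ 1) (k : ℕ) :
    ∀ ψ : ℝ → ℂ, ContDiff ℝ ∞ ψ → HasCompactSupport ψ →
      (∃ C : ℝ, 0 ≤ C ∧ ∀ n u, ‖iteratedDeriv k (cutW ψ (a n) om) u‖ ≤ C) ∧
      ∀ u : ℝ, Tendsto (fun n => iteratedDeriv k (cutW ψ (a n) om) u) atTop
        (𝓝 ((Complex.I * om) ^ k * (ψ 0 * Complex.exp (Complex.I * ((om * u : ℝ) : ℂ))))) := by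
  induction k with
  | zero =>
    intro ψ hψ hψc
    obtain ⟨C, hC⟩ := hψc.exists_bound_of_continuous hψ.continuous
    refine ⟨⟨C, (norm_nonneg _).trans (hC 0), fun n u => ?_⟩, fun u => ?_⟩
    · rw [iteratedDeriv_zero, norm_cutW]
      exact hC _
    · simp only [iteratedDeriv_zero, pow_zero, one_mul]
      exact tendsto_cutW hψ.continuous om u ha0
  | succ k ih =>
    intro ψ hψ hψc
    obtain ⟨⟨C1, hC1p, hC1⟩, hl1⟩ := ih (deriv ψ) (contDiff_deriv' hψ) hψc.deriv
    obtain ⟨⟨C0, hC0p, hC0⟩, hl0⟩ := ih ψ hψ hψc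
    have hit : ∀ n u, iteratedDeriv (k + 1) (cutW ψ (a n) om) u =
        (a n : ℂ) * iteratedDeriv k (cutW (deriv ψ) (a n) om) u +
          Complex.I * om * iteratedDeriv k (cutW ψ (a n) om) u := by
      intro n u
      have hk : (k : WithTop ℕ∞) ≤ ∞ := by exact_mod_cast le_top
      have c1 : ContDiffAt ℝ k (cutW (deriv ψ) (a n) om) u :=
        ((contDiff_cutW (contDiff_deriv' hψ) (a n) om).of_le hk).contDiffAt
      have c0 : ContDiffAt ℝ k (cutW ψ (a n) om) u :=
        ((contDiff_cutW hψ (a n) om).of_le hk).contDiffAt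
      rw [iteratedDeriv_succ', deriv_cutW hψ]
      rw [show (fun u => (a n : ℂ) * cutW (deriv ψ) (a n) om u +
        Complex.I * om * cutW ψ (a n) om u) = (fun u => (a n : ℂ) * cutW (deriv ψ) (a n) om u) +
        fun u => Complex.I * om * cutW ψ (a n) om u from rfl]
      rw [iteratedDeriv_add (contDiffAt_const.mul c1) (contDiffAt_const.mul c0),
        iteratedDeriv_const_mul_field, iteratedDeriv_const_mul_field]
    refine ⟨⟨C1 + |om| * C0, by positivity, fun n u => ?_⟩, fun u => ?_⟩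
    · rw [hit]
      refine (norm_add_le _ _).trans ?_
      rw [norm_mul, norm_mul, norm_mul, Complex.norm_I, one_mul, Complex.norm_real,
        Complex.norm_real, Real.norm_eq_abs, Real.norm_eq_abs]
      have h1 : |a n| * ‖iteratedDeriv k (cutW (deriv ψ) (a n) om) u‖ ≤ 1 * C1 :=
        mul_le_mul (ha1 n) (hC1 _ _) (norm_nonneg _) zero_le_one
      have h2 : |om| * ‖iteratedDeriv k (cutW ψ (a n) om) u‖ ≤ |om| * C0 :=
        mul_le_mul_of_nonneg_left (hC0 _ _) (abs_nonneg _)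
      linarith
    · simp_rw [hit]
      have hac : Tendsto (fun n => ((a n : ℝ) : ℂ)) atTop (𝓝 0) := by
        have h1 := (Complex.continuous_ofReal.tendsto 0).comp ha0
        simpa [Function.comp_def] using h1
      have h1 := (hac.mul (hl1 u)).add ((hl0 u).const_mul (Complex.I * om))
      rw [zero_mul, zero_add] at h1
      have h2 : (Complex.I * om) ^ (k + 1) *
          (ψ 0 * Complex.exp (Complex.I * ((om * u : ℝ) : ℂ))) =
          Complex.I * om * ((Complex.I * om) ^ k *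
          (ψ 0 * Complex.exp (Complex.I * ((om * u : ℝ) : ℂ)))) := by ring
      rw [h2]
      exact h1

/-- **Row (N), derivatives of order `k` and `l`, complex profiles.** -/
theorem nonvan_c {g : SchwartzMap M4 ℂ} (k l : ℕ)
    (h : ∀ φ σ : ℝ → ℂ, ContDiff ℝ ∞ φ → HasCompactSupport φ → ContDiff ℝ ∞ σ →
      HasCompactSupport σ →
      ∫ x : M4, iteratedDeriv k φ (x 0 + x 1) * iteratedDeriv l σ (x 0 - x 1) * g x = 0)
    (om nu : ℝ) (hom : om ≠ 0) (hnu : nu ≠ 0) :
    ∫ x : M4, Complex.exp (Complex.I * ((om * (x 0 + x 1) + nu * (x 0 - x 1) : ℝ) : ℂ)) * g x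
      = 0 := by
  obtain ⟨ψ, hψ, hψc, hψ0⟩ : ∃ ψ : ℝ → ℂ, ContDiff ℝ ∞ ψ ∧ HasCompactSupport ψ ∧ ψ 0 = 1 := by
    let f : ContDiffBump (0 : ℝ) := ⟨1, 2, one_pos, one_lt_two⟩
    refine ⟨fun u => (f u : ℂ), Complex.ofRealCLM.contDiff.comp f.contDiff, ?_, ?_⟩
    · exact f.hasCompactSupport.comp_left (g := fun x : ℝ => (x : ℂ)) (by simp)
    · have h1 : f 0 = 1 := f.one_of_mem_closedBall (by simp [f.rIn_pos.le])
      simp [h1]
  set a : ℕ → ℝ := fun n => 1 / ((n : ℝ) + 1) with ha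
  have ha0 : Tendsto a atTop (𝓝 0) := tendsto_one_div_add_atTop_nhds_zero_nat
  have hapos : ∀ n, 0 < a n := fun n => by positivity
  have hale : ∀ n, |a n| ≤ 1 := fun n => by
    rw [abs_of_pos (hapos n), ha]
    simp only
    rw [div_le_one (by positivity)]
    have : (0:ℝ) ≤ n := Nat.cast_nonneg n
    linarith
  obtain ⟨⟨K2, hK2p, hb2⟩, hl2⟩ := iter_cutW om ha0 hale k ψ hψ hψc
  obtain ⟨⟨K1, hK1p, hb1⟩, hl1⟩ := iter_cutW nu ha0 hale l ψ hψ hψc
  have hg : Integrable (fun x : M4 => g x) := g.integrable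
  have hitc : ∀ (j : ℕ) (n : ℕ) (w : ℝ), Continuous (iteratedDeriv j (cutW ψ (a n) w)) := by
    intro j n w
    exact (contDiff_cutW hψ (a n) w).continuous_iteratedDeriv j (by exact_mod_cast le_top)
  have hcont : ∀ n, Continuous fun x : M4 =>
      iteratedDeriv k (cutW ψ (a n) om) (x 0 + x 1) *
        iteratedDeriv l (cutW ψ (a n) nu) (x 0 - x 1) * g x := by
    intro n
    have h1 := hitc k n om
    have h2 := hitc l n nu
    have h3 := g.continuous
    fun_prop
  have hlim := tendsto_integral_of_dominated_convergence (μ := (volume : Measure M4))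
    (F := fun n (x : M4) =>
      iteratedDeriv k (cutW ψ (a n) om) (x 0 + x 1) *
        iteratedDeriv l (cutW ψ (a n) nu) (x 0 - x 1) * g x)
    (f := fun x : M4 => ((Complex.I * om) ^ k *
      (ψ 0 * Complex.exp (Complex.I * ((om * (x 0 + x 1) : ℝ) : ℂ)))) *
      ((Complex.I * nu) ^ l * (ψ 0 * Complex.exp (Complex.I * ((nu * (x 0 - x 1) : ℝ) : ℂ)))) *
      g x)
    (bound := fun x => K2 * K1 * ‖g x‖)
    (fun n => (hcont n).aestronglyMeasurable) (hg.norm.const_mul _)
    (fun n => Eventually.of_forall fun x => by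
      rw [norm_mul, norm_mul]
      exact mul_le_mul_of_nonneg_right
        (mul_le_mul (hb2 n _) (hb1 n _) (norm_nonneg _) hK2p) (norm_nonneg _))
    (Eventually.of_forall fun x => ((hl2 _).mul (hl1 _)).mul_const _)
  have hz : ∀ n, ∫ x : M4, iteratedDeriv k (cutW ψ (a n) om) (x 0 + x 1) *
      iteratedDeriv l (cutW ψ (a n) nu) (x 0 - x 1) * g x = 0 := fun n =>
    h _ _ (contDiff_cutW hψ _ _) (cs_cutW hψc (hapos n).ne' _) (contDiff_cutW hψ _ _)
      (cs_cutW hψc (hapos n).ne' _)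
  simp_rw [hz] at hlim
  have h0 := tendsto_nhds_unique hlim tendsto_const_nhds
  have h1 : ∀ x : M4, ((Complex.I * om) ^ k *
      (ψ 0 * Complex.exp (Complex.I * ((om * (x 0 + x 1) : ℝ) : ℂ)))) *
      ((Complex.I * nu) ^ l * (ψ 0 * Complex.exp (Complex.I * ((nu * (x 0 - x 1) : ℝ) : ℂ)))) *
      g x = ((Complex.I * om) ^ k * (Complex.I * nu) ^ l) *
      (Complex.exp (Complex.I * ((om * (x 0 + x 1) + nu * (x 0 - x 1) : ℝ) : ℂ)) * g x) := by
    intro x
    have h2 : Complex.exp (Complex.I * ((om * (x 0 + x 1) + nu * (x 0 - x 1) : ℝ) : ℂ)) =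
        Complex.exp (Complex.I * ((om * (x 0 + x 1) : ℝ) : ℂ)) *
          Complex.exp (Complex.I * ((nu * (x 0 - x 1) : ℝ) : ℂ)) := by
      rw [← Complex.exp_add, ← mul_add, ← Complex.ofReal_add]
    rw [h2, hψ0]
    ring
  simp_rw [h1] at h0
  rw [integral_const_mul] at h0
  have hom' : (om : ℂ) ≠ 0 := Complex.ofReal_ne_zero.mpr hom
  have hnu' : (nu : ℂ) ≠ 0 := Complex.ofReal_ne_zero.mpr hnu
  have hne : (Complex.I * (om : ℂ)) ^ k * (Complex.I * (nu : ℂ)) ^ l ≠ 0 :=
    mul_ne_zero (pow_ne_zero _ (mul_ne_zero Complex.I_ne_zero hom'))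
      (pow_ne_zero _ (mul_ne_zero Complex.I_ne_zero hnu'))
  rcases mul_eq_zero.mp h0 with h2 | h2
  · exact absurd h2 hne
  · exact h2

/-- Iterated derivatives of a complex function of a real variable. -/
theorem iter_re_im (k : ℕ) : ∀ φ : ℝ → ℂ, ContDiff ℝ ∞ φ → ∀ u,
    iteratedDeriv k φ u = ((iteratedDeriv k (fun v => (φ v).re) u : ℝ) : ℂ) +
      Complex.I * ((iteratedDeriv k (fun v => (φ v).im) u : ℝ) : ℂ) := by
  induction k with
  | zero =>
    intro φ _ u
    simp only [iteratedDeriv_zero]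
    rw [mul_comm]
    exact (Complex.re_add_im (φ u)).symm
  | succ k ih =>
    intro φ hφ u
    rw [iteratedDeriv_succ', iteratedDeriv_succ', iteratedDeriv_succ', ih _ (contDiff_deriv' hφ)]
    have hd : Differentiable ℝ φ := hφ.differentiable (by simp)
    have h1 : (fun v => (deriv φ v).re) = deriv (fun v => (φ v).re) := by
      ext v
      have h2 := (Complex.reCLM.hasFDerivAt (x := φ v)).comp_hasDerivAt v (hd v).hasDerivAt
      simpa [Function.comp_def] using h2.deriv.symm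
    have h3 : (fun v => (deriv φ v).im) = deriv (fun v => (φ v).im) := by
      ext v
      have h2 := (Complex.imCLM.hasFDerivAt (x := φ v)).comp_hasDerivAt v (hd v).hasDerivAt
      simpa [Function.comp_def] using h2.deriv.symm
    rw [h1, h3]

theorem cs_iter (k : ℕ) {φ : ℝ → ℝ} (hφ : HasCompactSupport φ) :
    HasCompactSupport (iteratedDeriv k φ) := by
  induction k with
  | zero => simpa [iteratedDeriv_zero] using hφ
  | succ k ih =>
    rw [iteratedDeriv_succ]
    exact ih.deriv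

theorem int4 {F1 F2 F3 F4 : M4 → ℂ} (i1 : Integrable F1) (i2 : Integrable F2)
    (i3 : Integrable F3) (i4 : Integrable F4) :
    ∫ x, ((F1 x + Complex.I * F2 x) + (Complex.I * F3 x + (-1) * F4 x)) =
      ((∫ x, F1 x) + Complex.I * ∫ x, F2 x) + (Complex.I * (∫ x, F3 x) + (-1) * ∫ x, F4 x) := by
  have j2 : Integrable (fun x => Complex.I * F2 x) := i2.const_mul _
  have j3 : Integrable (fun x => Complex.I * F3 x) := i3.const_mul _
  have j4 : Integrable (fun x => (-1) * F4 x) := i4.const_mul _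
  have k1 : Integrable (fun x => F1 x + Complex.I * F2 x) := i1.add j2
  have k2 : Integrable (fun x => Complex.I * F3 x + (-1) * F4 x) := j3.add j4
  rw [integral_add k1 k2, integral_add i1 j2, integral_add j3 j4, integral_const_mul,
    integral_const_mul, integral_const_mul]

/-- **Row (N), derivatives of order `k` and `l`, real profiles.** -/
theorem nonvan_r {g : SchwartzMap M4 ℂ} (k l : ℕ)
    (h : ∀ φ σ : ℝ → ℝ, ContDiff ℝ ∞ φ → HasCompactSupport φ → ContDiff ℝ ∞ σ →
      HasCompactSupport σ →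
      ∫ x : M4, ((iteratedDeriv k φ (x 0 + x 1) : ℝ) : ℂ) *
        ((iteratedDeriv l σ (x 0 - x 1) : ℝ) : ℂ) * g x = 0)
    (om nu : ℝ) (hom : om ≠ 0) (hnu : nu ≠ 0) :
    ∫ x : M4, Complex.exp (Complex.I * ((om * (x 0 + x 1) + nu * (x 0 - x 1) : ℝ) : ℂ)) * g x
      = 0 := by
  refine nonvan_c k l ?_ om nu hom hnu
  intro φ σ hφ hφc hσ hσc
  have r1 : ContDiff ℝ ∞ (fun v => (φ v).re) := Complex.reCLM.contDiff.comp hφ
  have r2 : ContDiff ℝ ∞ (fun v => (φ v).im) := Complex.imCLM.contDiff.comp hφ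
  have r3 : ContDiff ℝ ∞ (fun v => (σ v).re) := Complex.reCLM.contDiff.comp hσ
  have r4 : ContDiff ℝ ∞ (fun v => (σ v).im) := Complex.imCLM.contDiff.comp hσ
  have s1 : HasCompactSupport (fun v => (φ v).re) := hφc.comp_left (g := Complex.re) rfl
  have s2 : HasCompactSupport (fun v => (φ v).im) := hφc.comp_left (g := Complex.im) rfl
  have s3 : HasCompactSupport (fun v => (σ v).re) := hσc.comp_left (g := Complex.re) rfl
  have s4 : HasCompactSupport (fun v => (σ v).im) := hσc.comp_left (g := Complex.im) rfl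
  have hint : ∀ φ σ : ℝ → ℝ, ContDiff ℝ ∞ φ → HasCompactSupport φ → ContDiff ℝ ∞ σ →
      HasCompactSupport σ → Integrable (fun x : M4 => ((iteratedDeriv k φ (x 0 + x 1) : ℝ) : ℂ) *
        ((iteratedDeriv l σ (x 0 - x 1) : ℝ) : ℂ) * g x) := by
    intro φ σ hφ hφc hσ hσc
    have c1 : Continuous (iteratedDeriv k φ) :=
      hφ.continuous_iteratedDeriv k (by exact_mod_cast le_top)
    have c2 : Continuous (iteratedDeriv l σ) :=
      hσ.continuous_iteratedDeriv l (by exact_mod_cast le_top)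
    obtain ⟨A, hA⟩ := (cs_iter k hφc).exists_bound_of_continuous c1
    obtain ⟨B, hB⟩ := (cs_iter l hσc).exists_bound_of_continuous c2
    refine (g.integrable (μ := (volume : Measure M4))).bdd_mul (c := A * B)
      (Continuous.aestronglyMeasurable (by fun_prop)) (Eventually.of_forall fun x => ?_)
    rw [norm_mul, Complex.norm_real, Complex.norm_real]
    exact mul_le_mul (hA _) (hB _) (norm_nonneg _) ((norm_nonneg _).trans (hA 0))
  have h1 : ∀ x : M4, iteratedDeriv k φ (x 0 + x 1) * iteratedDeriv l σ (x 0 - x 1) * g x =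
      (((iteratedDeriv k (fun v => (φ v).re) (x 0 + x 1) : ℝ) : ℂ) *
        ((iteratedDeriv l (fun v => (σ v).re) (x 0 - x 1) : ℝ) : ℂ) * g x +
      Complex.I * (((iteratedDeriv k (fun v => (φ v).re) (x 0 + x 1) : ℝ) : ℂ) *
        ((iteratedDeriv l (fun v => (σ v).im) (x 0 - x 1) : ℝ) : ℂ) * g x)) +
      (Complex.I * (((iteratedDeriv k (fun v => (φ v).im) (x 0 + x 1) : ℝ) : ℂ) *
        ((iteratedDeriv l (fun v => (σ v).re) (x 0 - x 1) : ℝ) : ℂ) * g x) +
      (-1) * (((iteratedDeriv k (fun v => (φ v).im) (x 0 + x 1) : ℝ) : ℂ) *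
        ((iteratedDeriv l (fun v => (σ v).im) (x 0 - x 1) : ℝ) : ℂ) * g x)) := by
    intro x
    rw [iter_re_im k φ hφ, iter_re_im l σ hσ]
    linear_combination (((iteratedDeriv k (fun v => (φ v).im) (x 0 + x 1) : ℝ) : ℂ) *
        ((iteratedDeriv l (fun v => (σ v).im) (x 0 - x 1) : ℝ) : ℂ) * g x) * Complex.I_mul_I
  have i1 := hint _ _ r1 s1 r3 s3
  have i2 := hint _ _ r1 s1 r4 s4
  have i3 := hint _ _ r2 s2 r3 s3
  have i4 := hint _ _ r2 s2 r4 s4
  simp_rw [h1]
  rw [int4 i1 i2 i3 i4, h _ _ r1 s1 r3 s3, h _ _ r1 s1 r4 s4, h _ _ r2 s2 r3 s3,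
    h _ _ r2 s2 r4 s4]
  simp

/-- **Row (N)**, the form used: third derivative of `Φ`, second derivative of `Σ`, real
compactly supported profiles. -/
theorem nonvan32 {g : SchwartzMap M4 ℂ}
    (h : ∀ Phi Sig : ℝ → ℝ, ContDiff ℝ ∞ Phi → HasCompactSupport Phi → ContDiff ℝ ∞ Sig →
      HasCompactSupport Sig →
      ∫ x : M4, ((deriv (deriv (deriv Phi)) (x 0 + x 1) : ℝ) : ℂ) *
        ((deriv (deriv Sig) (x 0 - x 1) : ℝ) : ℂ) * g x = 0)
    (om nu : ℝ) (hom : om ≠ 0) (hnu : nu ≠ 0) :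
    ∫ x : M4, Complex.exp (Complex.I * ((om * (x 0 + x 1) + nu * (x 0 - x 1) : ℝ) : ℂ)) * g x
      = 0 := by
  refine nonvan_r 3 2 ?_ om nu hom hnu
  intro φ σ hφ hφc hσ hσc
  have h1 := h φ σ hφ hφc hσ hσc
  have e3 : iteratedDeriv 3 φ = deriv (deriv (deriv φ)) := by
    rw [iteratedDeriv_succ', iteratedDeriv_succ', iteratedDeriv_one]
  have e2 : iteratedDeriv 2 σ = deriv (deriv σ) := by
    rw [iteratedDeriv_succ', iteratedDeriv_one]
  rw [e3, e2]
  exact h1

end Vale.Agent.P352.H846
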