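import Vale.Agent.P352.H846.YbT

/-!
# An operator that annihilates covariant families annihilates tensor fields
-/

set_option linter.all false

noncomputable section

open MeasureTheory SchwartzMap Filter Topology
open scoped SchwartzMap ComplexConjugate

namespace Vale.Agent.P352.H846

open GF (Ix V Fn Sch ev pd bar sim bas o IsLor eta)
open H246 H496 H755 H746 H15

variable {D : Type*} [NormedAddCommGroup D] [InnerProductSpace ℂ D]
variable {Q : GF.Theory D} {k : ℕ} {C : D → D}

section

variable (hsym : ∀ v w, inner ℂ (C v) w = inner ℂ v (C w))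
include hsym

lemma sy_add (v w : D) : C (v + w) = C v + C w := by
  refine ext_inner_left ℂ fun z => ?_
  rw [← hsym, inner_add_right, inner_add_right, hsym, hsym]

lemma sy_smul (c : ℂ) (v : D) : C (c • v) = c • C v := by
  refine ext_inner_left ℂ fun z => ?_
  rw [← hsym, inner_smul_right, inner_smul_right, hsym]

lemma sy_zero : C 0 = 0 := by
  have := sy_smul hsym 0 0
  simpa using this

lemma sy_sq {v : D} (h : C (C v) = 0) : C v = 0 := by
  have h1 : inner ℂ (C v) (C v) = (0 : ℂ) := by rw [hsym, h, inner_zero_right]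
  exact inner_self_eq_zero.1 h1

end

/-- the hybrid of `v` and `L⁻¹ v` -/
lemma hybrid (hsym : ∀ v w, inner ℂ (C v) w = inner ℂ v (C w)) {a : V} (ha : GF.mdot a a = 0)
    {Φ : (Fin k → Ix) → GF.Fld D} {n : ℕ}
    (ih : ∀ (δ : Fin k → ℕ) (v : Fin k → V), (∀ i, Fl a (δ i) (v i)) → ∑ i, δ i < n →
      ∀ F : 𝓢(Mink, ℂ), C (Con Φ v (fl F) Q.vac) = 0)
    {L : Ix → V} (hL : IsLor L) {r : ℝ} (hr : 0 < r) (h : Scr a L r) (δ : Fin k → ℕ)
    (v : Fin k → V) (hv : ∀ i, Fl a (δ i) (v i)) (hn : ∑ i, δ i < n + 1) (F : 𝓢(Mink, ℂ))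
    (s : Finset (Fin k)) :
    C (Con Φ (fun i => if i ∈ s then li L (v i) else v i) (fl F) Q.vac) =
      ((∏ i ∈ s, r ^ ((δ i : ℝ) - 1) : ℝ) : ℂ) • C (Con Φ v (fl F) Q.vac) := by
  classical
  induction s using Finset.induction_on with
  | empty => simp
  | insert j s hj IH =>
    set g : Fin k → V := fun i => if i ∈ s then li L (v i) else v i with hg
    have hgF : ∀ i, Fl a (δ i) (g i) := by
      intro i
      simp only [hg]
      split_ifs
      · exact fl_li ha hL hr h _ (hv i)
      · exact hv i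
    have e1 : (fun i => if i ∈ insert j s then li L (v i) else v i) =
        Function.update g j (li L (v j)) := by
      funext i
      by_cases hi : i = j
      · subst hi
        simp
      · rw [Function.update_of_ne hi]
        simp [hg, hi]
    obtain ⟨l, h1, h2, h3⟩ := fl_step ha hL hr h (δ j) (hv j)
    have hgj : g j = v j := by simp [hg, hj]
    have e2 : Function.update g j (v j) = g := by
      rw [← hgj, Function.update_eq_self]
    have h0 : C (Con Φ (Function.update g j l) (fl F) Q.vac) = 0 := by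
      rcases Nat.eq_zero_or_pos (δ j) with hd | hd
      · rw [h2 hd, Con_zero, sy_zero hsym]
      · obtain ⟨m, hm⟩ : ∃ m, δ j = m + 1 := ⟨δ j - 1, by omega⟩
        refine ih (Function.update δ j m) _ (fun i => ?_) ?_ F
        · by_cases hi : i = j
          · subst hi
            rw [Function.update_self, Function.update_self]
            exact h3 m hm
          · rw [Function.update_of_ne hi, Function.update_of_ne hi]
            exact hgF i
        · have h4 : ∑ i, Function.update δ j m i < ∑ i, δ i := by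
            refine Finset.sum_lt_sum (fun i _ => ?_) ⟨j, Finset.mem_univ j, ?_⟩
            · by_cases hi : i = j
              · subst hi
                rw [Function.update_self]
                omega
              · rw [Function.update_of_ne hi]
            · rw [Function.update_self]
              omega
          omega
    rw [e1, h1, Con_lin, sy_add hsym, sy_smul hsym, e2, h0, add_zero, IH, smul_smul,
      Finset.prod_insert hj]
    push_cast
    rfl

lemma Con_addf {d : ℝ} {Φ : (Fin k → Ix) → GF.Fld D} (hΦ : IsTen Q k d Φ) (v : Fin k → V)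
    (F G : 𝓢(Mink, ℂ)) (u : D) :
    Con Φ v (fl (F + G)) u = Con Φ v (fl F) u + Con Φ v (fl G) u := by
  unfold Con
  rw [← Finset.sum_add_distrib]
  refine Finset.sum_congr rfl fun μ _ => ?_
  rw [fld_addf (Q.bose_fld _ (hΦ.1 μ)), smul_add]

lemma Con_smulf {d : ℝ} {Φ : (Fin k → Ix) → GF.Fld D} (hΦ : IsTen Q k d Φ) (v : Fin k → V)
    (c : ℂ) (F : 𝓢(Mink, ℂ)) (u : D) :
    Con Φ v (fl (c • F)) u = c • Con Φ v (fl F) u := by
  unfold Con
  rw [Finset.smul_sum]
  refine Finset.sum_congr rfl fun μ _ => ?_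
  rw [fld_smulf (Q.bose_fld _ (hΦ.1 μ)), smul_comm]

lemma Con_cont {d : ℝ} {Φ : (Fin k → Ix) → GF.Fld D} (hΦ : IsTen Q k d Φ) (v : Fin k → V)
    (u : D) : Continuous fun F : 𝓢(Mink, ℂ) => Con Φ v (fl F) u := by
  unfold Con
  exact continuous_finset_sum _ fun μ _ => (fld_cont (Q.bose_fld _ (hΦ.1 μ)) u).const_smul _

lemma fl_tau (x : Mink) (F : 𝓢(Mink, ℂ)) :
    (fun z => fl (tauS x F) (sim 1 GF.one x.ofLp z)) = fl F := by
  funext z
  show tauS x F (WithLp.toLp 2 (sim 1 GF.one x.ofLp z)) = F (WithLp.toLp 2 z)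
  rw [tauS_apply]
  congr 1
  ext n
  simp [sim, GF.one, bas]

lemma Con_tau {d : ℝ} {Φ : (Fin k → Ix) → GF.Fld D} (hΦ : IsTen Q k d Φ) (v : Fin k → V)
    (x : Mink) (F : 𝓢(Mink, ℂ)) :
    Con Φ v (fl (tauS x F)) Q.vac = U1 Q x (Con Φ v (fl F) Q.vac) := by
  have h1 := Con_cov hΦ one_pos isLor_one x.ofLp (isTest_fl (tauS x F)) v Q.vac
  rw [Q.U_vac 1 GF.one _ one_pos isLor_one, fl_tau] at h1
  have e : (fun i => li GF.one (v i)) = v := by
    funext i
    have h2 := li_sim isLor_one (v i)
    have h3 : sim 1 GF.one 0 (v i) = v i := by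
      funext n
      simp [sim, GF.one, bas]
    rwa [h3] at h2
  rw [e, Real.one_rpow, Complex.ofReal_one, one_smul] at h1
  exact h1

/-- **An operator that annihilates all covariant families annihilates the vectors created by
tensor fields from the vacuum.** -/
theorem con_zero {a : V} (ha : GF.mdot a a = 0)
    (hsym : ∀ v w, inner ℂ (C v) w = inner ℂ v (C w))
    (hcov : ∀ (s : ℝ) (L : Ix → V) (r : ℝ) (x : V) (v : D), 0 < s → 0 < r → IsLor L → sim 1 L 0 a = r • a →
      C (Q.U s L x v) = Q.U s L x (C v))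
    (key : ∀ p q Y, YB Q a p q Y → ∀ F, C (Y F) = 0) {d : ℝ}
    {Φ : (Fin k → Ix) → GF.Fld D} (hΦ : IsTen Q k d Φ) (n : ℕ) :
    ∀ (δ : Fin k → ℕ) (v : Fin k → V), (∀ i, Fl a (δ i) (v i)) → ∑ i, δ i < n →
      ∀ F : 𝓢(Mink, ℂ), C (Con Φ v (fl F) Q.vac) = 0 := by
  induction n with
  | zero => exact fun _ _ _ h => absurd h (by omega)
  | succ n ih =>
    intro δ v hv hn F
    refine sy_sq hsym (key (4 - d) (∑ i, ((δ i : ℝ) - 1))
      (fun F => C (Con Φ v (fl F) Q.vac)) ?_ F)
    refine ⟨fun F G => ?_, fun c F => ?_, fun w => ?_, fun x F => ?_,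
      fun s hs L hL r hr hscr F => ?_⟩
    · rw [Con_addf hΦ, sy_add hsym]
    · rw [Con_smulf hΦ, sy_smul hsym]
    · have e : (fun F : 𝓢(Mink, ℂ) => (inner ℂ w (C (Con Φ v (fl F) Q.vac)) : ℂ)) =
          fun F : 𝓢(Mink, ℂ) => inner ℂ (C w) (Con Φ v (fl F) Q.vac) := by
        funext F
        rw [hsym]
      rw [e]
      exact continuous_const.inner (Con_cont hΦ v Q.vac)
    · rw [Con_tau hΦ]
      exact hcov 1 GF.one 1 x.ofLp _ one_pos one_pos isLor_one (by
        rw [one_smul]
        funext m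
        simp [sim, GF.one, bas])
    · have h1 := Con_cov hΦ hs hL 0 (isTest_fl F) v Q.vac
      rw [Q.U_vac s L _ hs hL, fl_sim s hs hL] at h1
      have h2 := hybrid hsym ha ih hL hr hscr δ v hv hn (simS s hs hL 0 F) Finset.univ
      have e : (fun i => if i ∈ (Finset.univ : Finset (Fin k)) then li L (v i) else v i) =
          fun i => li L (v i) := by
        funext i
        simp
      rw [e] at h2
      rw [h1, sy_smul hsym, hcov s L r 0 _ hs hr hL hscr.1, h2, U_smul hs hL, smul_smul,
        Real.rpow_sum_of_pos hr]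
      push_cast
      rfl

/-- the components -/
theorem ten_zero {a : V} (ha : GF.mdot a a = 0)
    (hsym : ∀ v w, inner ℂ (C v) w = inner ℂ v (C w))
    (hcov : ∀ (s : ℝ) (L : Ix → V) (r : ℝ) (x : V) (v : D), 0 < s → 0 < r → IsLor L → sim 1 L 0 a = r • a →
      C (Q.U s L x v) = Q.U s L x (C v))
    (key : ∀ p q Y, YB Q a p q Y → ∀ F, C (Y F) = 0) {d : ℝ}
    {Φ : (Fin k → Ix) → GF.Fld D} (hΦ : IsTen Q k d Φ) (μ : Fin k → Ix) {f : Fn}
    (hf : GF.IsTest f) : C (Φ μ f Q.vac) = 0 := by
  obtain ⟨F, rfl⟩ := exists_fl hf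
  have h1 := con_zero ha hsym hcov key hΦ (∑ i : Fin k, 2 + 1) (fun _ => 2)
    (fun i => eta (μ i) • bas (μ i) 1) (fun i => trivial) (by omega) F
  rwa [Con_bas] at h1

end Vale.Agent.P352.H846

end
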