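import Vale.Agent.P352.H15.V4
import Vale.Agent.P352.H148.R4
import Vale.Agent.P352.H246.Sub
import Vale.Agent.P352.H246.CopLoc
import Vale.Agent.P352.H846.Tn2

/-!
# The generators are additive if the theory is conformally invariant
-/

set_option linter.all false

noncomputable section

open MeasureTheory Filter Topology Set
open scoped ContDiff ComplexConjugate

namespace Vale.Agent.P352.H846

open GF (Ix V Fn Fld Theory bas eta o improve bar)
open H755 H496 H15 H246

variable {D : Type*} [NormedAddCommGroup D] [InnerProductSpace ℂ D]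
variable {Q Q₂ : GF.Theory D} {T t : Ix → Ix → GF.Fld D} {J : Ix → GF.Fld D}
  {A : (V → V) → D → D} {K : V → D → D} {B : GF.Fld D}

lemma cK_cd (a : V) (n : Ix) : ContDiff ℝ ∞ fun x : V => eta n * cK a x n := by
  unfold cK GF.mdot
  simp only [Pi.sub_apply, Pi.smul_apply, smul_eq_mul]
  fun_prop

lemma cK_tst (a : V) (n : Ix) {g : V → ℝ} (hg : Tst g) : Tst fun x => eta n * cK a x n * g x :=
  ⟨(cK_cd a n).mul hg.1, hg.2.mul_left⟩

lemma cK_add {a b c d : V} (e : a + b = c + d) (x : V) (n : Ix) :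
    cK a x n + cK b x n = cK c x n + cK d x n := by
  have e' : ∀ m, a m = c m + d m - b m := fun m => by
    have := congrFun e m
    simp only [Pi.add_apply] at this
    linarith
  unfold cK GF.mdot
  simp only [Pi.sub_apply, Pi.smul_apply, smul_eq_mul, Fin.sum_univ_four, e']
  ring

/-- The commutators with the sums of the generators. -/
lemma chg4 (hE : ∀ A, Q.fld A → Q₂.fld A) (ht : ∀ m n, Q₂.fld (t m n))
    (hC : ∀ a, IsNull a → Chg Q₂ t (cK a) (K a)) {a b c d : V} (ha : IsNull a) (hb : IsNull b)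
    (hc : IsNull c) (hd : IsNull d) (e : a + b = c + d) (hB : Q.fld B) {f : Fn}
    (hf : GF.IsTest f) (hfc : HasCompactSupport f) (v : D) :
    K a (B f v) + K b (B f v) - K c (B f v) - K d (B f v) =
      B f (K a v) + B f (K b v) - B f (K c v) - B f (K d v) := by
  have h1 := hC a ha cutF B f isCutoff_cutF (hE B hB) hf hfc
  have h2 := hC b hb cutF B f isCutoff_cutF (hE B hB) hf hfc
  have h3 := hC c hc cutF B f isCutoff_cutF (hE B hB) hf hfc
  have h4 := hC d hd cutF B f isCutoff_cutF (hE B hB) hf hfc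
  obtain ⟨R, k1, k2, k3, k4, g, hg, hF⟩ := (h1.and (h2.and (h3.and (h4.and
    (ok_cutoff isCutoff_cutF hfc.isCompact))))).exists
  have key : ∀ w, (∑ n, t o n (fun x => ((eta n * cK a x n : ℝ) : ℂ) * cutF R x) w) +
      (∑ n, t o n (fun x => ((eta n * cK b x n : ℝ) : ℂ) * cutF R x) w) =
      (∑ n, t o n (fun x => ((eta n * cK c x n : ℝ) : ℂ) * cutF R x) w) +
      ∑ n, t o n (fun x => ((eta n * cK d x n : ℝ) : ℂ) * cutF R x) w := by
    intro w
    rw [← Finset.sum_add_distrib, ← Finset.sum_add_distrib]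
    refine Finset.sum_congr rfl fun n _ => ?_
    have e1 : ∀ c : V, (fun x => ((eta n * cK c x n : ℝ) : ℂ) * cutF R x) =
        fun x => ((eta n * cK c x n * g x : ℝ) : ℂ) := by
      intro c
      rw [hF]
      funext x
      push_cast
      ring
    rw [e1, e1, e1, e1, ← fld_add (ht o n) (cK_tst a n hg.1) (cK_tst b n hg.1),
      ← fld_add (ht o n) (cK_tst c n hg.1) (cK_tst d n hg.1)]
    have e2 : (fun x => ((eta n * cK a x n * g x + eta n * cK b x n * g x : ℝ) : ℂ)) =
        fun x => ((eta n * cK c x n * g x + eta n * cK d x n * g x : ℝ) : ℂ) := by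
      funext x
      have := cK_add e x n
      have e3 : eta n * cK a x n * g x + eta n * cK b x n * g x =
          eta n * cK c x n * g x + eta n * cK d x n * g x := by
        rw [← add_mul, ← add_mul, ← mul_add, ← mul_add, this]
      rw [e3]
    rw [e2]
  have hz : B f (∑ n, t o n (fun x => ((eta n * cK a x n : ℝ) : ℂ) * cutF R x) v) +
      B f (∑ n, t o n (fun x => ((eta n * cK b x n : ℝ) : ℂ) * cutF R x) v) =
      B f (∑ n, t o n (fun x => ((eta n * cK c x n : ℝ) : ℂ) * cutF R x) v) +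
      B f (∑ n, t o n (fun x => ((eta n * cK d x n : ℝ) : ℂ) * cutF R x) v) := by
    obtain ⟨F, rfl⟩ := exists_fl hf
    rw [← Vale.Agent.P352.fld_add hB, ← Vale.Agent.P352.fld_add hB, key v]
  have a1 := k1 v
  have a2 := k2 v
  have a3 := k3 v
  have a4 := k4 v
  have a5 := key (B f v)
  have b1 : K a (B f v) = (∑ n, t o n (fun x => ((eta n * cK a x n : ℝ) : ℂ) * cutF R x) (B f v)) -
      B f (∑ n, t o n (fun x => ((eta n * cK a x n : ℝ) : ℂ) * cutF R x) v) + B f (K a v) := by
    rw [a1]; abel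
  have b2 : K b (B f v) = (∑ n, t o n (fun x => ((eta n * cK b x n : ℝ) : ℂ) * cutF R x) (B f v)) -
      B f (∑ n, t o n (fun x => ((eta n * cK b x n : ℝ) : ℂ) * cutF R x) v) + B f (K b v) := by
    rw [a2]; abel
  have b3 : K c (B f v) = (∑ n, t o n (fun x => ((eta n * cK c x n : ℝ) : ℂ) * cutF R x) (B f v)) -
      B f (∑ n, t o n (fun x => ((eta n * cK c x n : ℝ) : ℂ) * cutF R x) v) + B f (K c v) := by
    rw [a3]; abel
  have b4 : K d (B f v) = (∑ n, t o n (fun x => ((eta n * cK d x n : ℝ) : ℂ) * cutF R x) (B f v)) -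
      B f (∑ n, t o n (fun x => ((eta n * cK d x n : ℝ) : ℂ) * cutF R x) v) + B f (K d v) := by
    rw [a4]; abel
  rw [b1, b2, b3, b4, ← sub_eq_zero]
  have c5 := sub_eq_zero.2 a5
  have c6 := sub_eq_zero.2 hz
  generalize (∑ n, t o n (fun x => ((eta n * cK a x n : ℝ) : ℂ) * cutF R x) (B f v)) = p1 at *
  generalize (∑ n, t o n (fun x => ((eta n * cK b x n : ℝ) : ℂ) * cutF R x) (B f v)) = p2 at *
  generalize (∑ n, t o n (fun x => ((eta n * cK c x n : ℝ) : ℂ) * cutF R x) (B f v)) = p3 at *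
  generalize (∑ n, t o n (fun x => ((eta n * cK d x n : ℝ) : ℂ) * cutF R x) (B f v)) = p4 at *
  generalize B f (∑ n, t o n (fun x => ((eta n * cK a x n : ℝ) : ℂ) * cutF R x) v) = q1 at *
  generalize B f (∑ n, t o n (fun x => ((eta n * cK b x n : ℝ) : ℂ) * cutF R x) v) = q2 at *
  generalize B f (∑ n, t o n (fun x => ((eta n * cK c x n : ℝ) : ℂ) * cutF R x) v) = q3 at *
  generalize B f (∑ n, t o n (fun x => ((eta n * cK d x n : ℝ) : ℂ) * cutF R x) v) = q4 at *
  have : p1 - q1 + B f (K a v) + (p2 - q2 + B f (K b v)) - (p3 - q3 + B f (K c v)) -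
      (p4 - q4 + B f (K d v)) - (B f (K a v) + B f (K b v) - B f (K c v) - B f (K d v)) =
      (p1 + p2 - (p3 + p4)) - (q1 + q2 - (q3 + q4)) := by abel
  rw [this, c5, c6, sub_zero]

/-- **The generators are additive.** -/
theorem addK_of_chg (sym : ∀ a v w, IsNull a → inner ℂ (K a v) w = inner ℂ v (K a w))
    (vac : ∀ a, IsNull a → K a Q.vac = 0) (hE : ∀ A, Q.fld A → Q₂.fld A)
    (ht : ∀ m n, Q₂.fld (t m n)) (hC : ∀ a, IsNull a → Chg Q₂ t (cK a) (K a)) {a b c d : V}
    (ha : IsNull a) (hb : IsNull b) (hc : IsNull c) (hd : IsNull d) (e : a + b = c + d) (v : D) :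
    K a v + K b v = K c v + K d v := by
  have add : ∀ {a : V}, IsNull a → ∀ v w, K a (v + w) = K a v + K a w :=
    fun ha => sy_add fun v w => sym _ v w ha
  have smul : ∀ {a : V}, IsNull a → ∀ (c : ℂ) v, K a (c • v) = c • K a v :=
    fun ha => sy_smul fun v w => sym _ v w ha
  obtain ⟨z, hz⟩ : ∃ z : D → D, ∀ v, z v = K a v + K b v - K c v - K d v := ⟨_, fun _ => rfl⟩
  have hcom : ∀ B f v, Q.fld B → GF.IsTest f → HasCompactSupport f → z (B f v) = B f (z v) := by
    intro B f v hB hf hfc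
    rw [hz, hz, chg4 hE ht hC ha hb hc hd e hB hf hfc v]
    obtain ⟨F, rfl⟩ := exists_fl hf
    have s : ∀ v w, B (fl F) (v - w) = B (fl F) v - B (fl F) w := by
      intro v w
      rw [sub_eq_add_neg, ← neg_one_smul ℂ w, Vale.Agent.P352.fld_add hB,
        Vale.Agent.P352.fld_smul hB, neg_one_smul, sub_eq_add_neg]
    rw [s, s, Vale.Agent.P352.fld_add hB]
  have hvac : z Q.vac = 0 := by
    rw [hz, vac a ha, vac b hb, vac c hc, vac d hd]
    simp
  have zadd : ∀ v w, z (v + w) = z v + z w := by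
    intro v w
    rw [hz, hz, hz, add ha, add hb, add hc, add hd]
    abel
  have zsmul : ∀ (k : ℂ) v, z (k • v) = k • z v := by
    intro k v
    rw [hz, hz, smul ha, smul hb, smul hc, smul hd]
    module
  have hX : ∀ X X', Al Q Set.univ X X' → z (X Q.vac) = 0 := by
    intro X X' hX
    induction hX with
    | one => exact hvac
    | add X X' Y Y' _ _ h1 h2 => rw [zadd, h1, h2, add_zero]
    | smul k X X' _ h1 => rw [zsmul, h1, smul_zero]
    | fld A' B' g X X' hA _ _ hg _ h1 =>
      rw [hcom A' g _ hA hg.1 hg.2.1, h1]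
      obtain ⟨F, rfl⟩ := exists_fl hg.1
      have := Vale.Agent.P352.fld_smul hA F 0 (0 : D)
      simpa using this
  have hsym : ∀ v w, inner ℂ (z v) w = inner ℂ v (z w) := by
    intro v w
    rw [hz, hz, inner_sub_left, inner_sub_left, inner_add_left, inner_sub_right, inner_sub_right,
      inner_add_right, sym a v w ha, sym b v w hb, sym c v w hc, sym d v w hd]
  have hzero : z v = 0 := by
    have hd' := dense_gen_univ Q
    refine hd'.eq_zero_of_inner_left (𝕜 := ℂ) fun w hw => ?_
    obtain ⟨X, X', hXX, rfl⟩ := hw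
    rw [hsym, hX X X' hXX, inner_zero_right]
  rw [hz] at hzero
  have : K a v + K b v - (K c v + K d v) = 0 := by
    rw [← hzero]
    abel
  exact sub_eq_zero.1 this

/-- given null-plane charges, it is enough to know the charges -/
theorem addK_of_nc (hT : Q.IsStress T) (h : NullCharges Q T J A K) (hE : ∀ A, Q.fld A → Q₂.fld A)
    (ht : ∀ m n, Q₂.fld (t m n)) (hC : ∀ a, IsNull a → Chg Q₂ t (cK a) (K a)) : ∀ a b c d v,
    IsNull a → IsNull b → IsNull c → IsNull d → a + b = c + d → K a v + K b v = K c v + K d v :=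
  fun a b c d v ha hb hc hd e => addK_of_chg (fun a v w ha => nc_symm hT h ha v w)
    (fun a ha => H246.K_vac hT h ha) hE ht hC ha hb hc hd e v

/-- **Given null-plane charges without flux at infinity, the special conformal generators are
additive.** -/
theorem addK_of_conf (hT : Q.IsStress T) (hJ : IsVirial Q T J) (h : NullCharges Q T J A K)
    (hc : ConfGen Q A K) (hF : NoFlux T J) : ∀ a b c d v, IsNull a → IsNull b → IsNull c →
    IsNull d → a + b = c + d → K a v + K b v = K c v + K d v := by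
  intro a b c d v ha hb hc' hd e
  obtain ⟨L, hL⟩ := main_v4 hT hJ hc (Or.inl h.mom)
  obtain ⟨Q₂, h1, h2, h3, h4, h5, h6⟩ := hL Q ⟨rfl, rfl, fun _ h => h, fun _ h => h⟩
  exact addK_of_nc hT h h1.fld (fun m n => Q₂.bose_fld _ (h3.bose m n)) (h6 h hF).2 a b c d v ha hb
    hc' hd e

end Vale.Agent.P352.H846

end
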