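import Vale.Agent.P352.H846.Sm

/-!
# The translation law of the second null moments in the transversal direction
-/

set_option linter.all false

noncomputable section

open MeasureTheory Filter Topology Set
open scoped ContDiff ComplexConjugate

namespace Vale.Agent.P352.H846

open GF (Ix V Fn Fld bas eta o bar)
open H755 H496 H15 H246

variable {D : Type*} [NormedAddCommGroup D] [InnerProductSpace ℂ D]
variable {Q : GF.Theory D} {T : Ix → Ix → GF.Fld D} {J : Ix → GF.Fld D}
  {A : (V → V) → D → D} {K : V → D → D}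

/-- the field of the boost with dilation -/
def Xw (a b : V) : V → V := fun z => z - (GF.mdot b z) • a + (GF.mdot a z) • b

lemma isSim_Xw (a b : V) : IsSim 1 (Xw a b) := by
  refine ⟨0, fun m n => (eta m * a m) * b n - (eta m * b m) * a n, ?_, ?_⟩
  · intro m n
    ring
  · intro z n
    unfold Xw
    simp only [Pi.zero_apply, Pi.add_apply, Pi.sub_apply, Pi.smul_apply, smul_eq_mul, zero_add,
      GF.mdot]
    rw [Finset.sum_mul, Finset.sum_mul, one_mul, sub_add_eq_add_sub, add_sub_assoc,
      ← Finset.sum_sub_distrib]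
    congr 1
    exact Finset.sum_congr rfl fun m _ => by ring

lemma hd_of {f : V → ℝ} (hf : Differentiable ℝ f) (m : Ix) (x : V) : H746.HD m f (dr m f x) x := by
  unfold H746.HD
  have h4 : (fun t : ℝ => f (x + bas m t)) = fun t : ℝ => f (x + t • bas m 1) := by
    funext t
    rw [bas_smul]
  have h5 : HasDerivAt (fun t : ℝ => f (x + bas m t)) (fderiv ℝ f x (bas m 1)) 0 := by
    rw [h4]
    exact (hf x).hasFDerivAt.hasLineDerivAt (bas m 1)
  rw [show dr m f x = fderiv ℝ f x (bas m 1) from h5.deriv]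
  exact h5

lemma contDiff_cut (a b : V) {κ : V → ℝ} (hκ : Tst κ) (R : ℝ) : ContDiff ℝ ∞ (cut a b κ R) :=
  hκ.1.comp (contDiff_cv a b R)

/-- derivative of the conformal Killing field -/
lemma hd_cK (a : V) (m n : Ix) (x : V) : H746.HD m (fun y => cK a y n)
    (2 * (eta m * a m) * x n + 2 * GF.mdot a x * bas m 1 n - 2 * (eta m * x m) * a n) x := by
  have h1 := H746.hd_mdot m a x
  have h2 := H746.hd_coord m n x
  have h3 : H746.HD m (fun y => GF.mdot y y) (2 * (eta m * x m)) x := by
    have h4 : ∀ y : V, GF.mdot y y = ∑ k, eta k * (y k * y k) := fun y => by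
      simp only [GF.mdot]
      exact Finset.sum_congr rfl fun k _ => by ring
    have h5 : (fun y : V => GF.mdot y y) = fun y => ∑ k, eta k * (y k * y k) := funext h4
    rw [h5]
    have h6 : ∀ k : Ix, H746.HD m (fun y => eta k * (y k * y k))
        (eta k * (bas m 1 k * x k + x k * bas m 1 k)) x := by
      intro k
      have h7 := (H746.HD.const (m := m) (eta k) x).mul
        ((H746.hd_coord m k x).mul (H746.hd_coord m k x))
      exact h7.congr_d (by ring)
    simp only [Fin.sum_univ_four]
    have h8 := (((h6 0).add (h6 1)).add (h6 2)).add (h6 3)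
    refine h8.congr_d ?_
    have h9 : 2 * (eta m * x m) = ∑ k, eta k * (bas m 1 k * x k + x k * bas m 1 k) := by
      simp only [bas]
      rw [Finset.sum_eq_single m]
      · simp
        ring
      · intro k _ hk
        simp [hk]
      · intro h
        exact absurd (Finset.mem_univ m) h
    rw [h9, Fin.sum_univ_four]
  have h4 := (((H746.HD.const (m := m) 2 x).mul h1).mul h2).sub
    (h3.mul (H746.HD.const (m := m) (a n) x))
  refine (h4.congr_d ?_ : H746.HD m (fun y => 2 * GF.mdot a y * y n - GF.mdot y y * a n)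
    (2 * (eta m * a m) * x n + 2 * GF.mdot a x * bas m 1 n - 2 * (eta m * x m) * a n) x)
  ring

lemma cK_dec {a b : V} (x : V) : cK a x = (2 * GF.mdot a x) • Xw a b x -
    (2 * GF.mdot a x ^ 2) • b + H15.sq a b x • a := by
  unfold cK Xw H15.sq
  module

lemma tst_pol {G : ℝ → ℝ} (hG : Tst G) {p : ℝ → ℝ} (hp : ContDiff ℝ ∞ p) :
    Tst fun u => p u * G u := ⟨hp.mul hG.1, hG.2.mul_left⟩

lemma ctf0 (a b : V) (κ : V → ℝ) (ψ : ℝ → ℝ) (R : ℝ) (x : V) :
    ctf a b κ 0 ψ R x = cut a b κ R x * ψ (GF.mdot a x) := by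
  unfold ctf
  rw [sub_zero]

/-- the Ward identity of the conformal current between null hyperplanes, for one cutoff -/
lemma ward_R (hT : Q.IsStress T) {a b : V} (haa : GF.mdot a a = 0) (hbb : GF.mdot b b = 0)
    (hab : GF.mdot a b = 1) {κ : V → ℝ} (hκ : Tst κ) {G : ℝ → ℝ} (hG : Tst G) {R : ℝ}
    (hR : 1 ≤ R) (v : D) :
    sm T (fun m n x => dr m (cut a b κ R) x * G (GF.mdot a x) * (eta n * cK a x n)) v +
      sm T (fun m n x => eta m * a m * (eta n * Xw a b x n) *
        ctf a b κ 0 (fun u => 2 * u * deriv G u) R x) v -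
      sm T (fun m n x => eta m * a m * (eta n * (fun _ : V => b) x n) *
        ctf a b κ 0 (fun u => 2 * u ^ 2 * deriv G u) R x) v +
      sm T (fun m n x => eta m * a m * (eta n * a n) * H15.sq a b x *
        ctf a b κ 0 (deriv G) R x) v +
      GF.tr T (fun x => (ctf a b κ 0 (fun u => 2 * u * G u) R x : ℂ)) v = 0 := by
  have hcut := contDiff_cut a b hκ R
  have hcutd := (contDiff_cut a b hκ R).differentiable (by simp)
  have hGt : Tst (deriv G) := H746.tder hG
  have hGd := H746.tdif hG
  have hcG : Tst fun x => cut a b κ R x * G (GF.mdot a x) := cut_tst haa hbb hab hκ hG hR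
  have hma : ContDiff ℝ ∞ fun x : V => GF.mdot a x := contDiff_mdot a
  -- the field
  have hf : ∀ n, Tst fun x => (cut a b κ R x * G (GF.mdot a x)) * (eta n * cK a x n) := fun n =>
    tst_mul hcG (contDiff_const.mul (contDiff_cK a n))
  have h0 := sm_cons hT hf v
  have hder : ∀ m n x, dr m (fun x => (cut a b κ R x * G (GF.mdot a x)) * (eta n * cK a x n)) x =
      dr m (cut a b κ R) x * G (GF.mdot a x) * (eta n * cK a x n) +
      (eta m * a m * (eta n * Xw a b x n) * ctf a b κ 0 (fun u => 2 * u * deriv G u) R x -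
      eta m * a m * (eta n * (fun _ : V => b) x n) *
        ctf a b κ 0 (fun u => 2 * u ^ 2 * deriv G u) R x +
      eta m * a m * (eta n * a n) * H15.sq a b x * ctf a b κ 0 (deriv G) R x) +
      ((2 * (eta m * a m) * (eta n * x n) - 2 * (eta m * x m) * (eta n * a n)) *
        (cut a b κ R x * G (GF.mdot a x)) +
      bas m (eta m) n * ctf a b κ 0 (fun u => 2 * u * G u) R x) := by
    intro m n x
    have h1 := ((hd_of hcutd m x).mul ((H746.hd_mdot m a x).comp hGd)).mul
      ((H746.HD.const (m := m) (eta n) x).mul (hd_cK a m n x))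
    rw [h1.dr]
    have h2 := congrFun (cK_dec (a := a) (b := b) x) n
    simp only [Pi.add_apply, Pi.sub_apply, Pi.smul_apply, smul_eq_mul] at h2
    simp only [ctf0]
    have h3 : eta n * bas m 1 n = bas m (eta m) n := by
      unfold bas
      split_ifs with h
      · rw [h, mul_one]
      · rw [mul_zero]
    have h4 : cut a b κ R x * (deriv G (GF.mdot a x) * (eta m * a m)) * (eta n * cK a x n) =
        cut a b κ R x * (deriv G (GF.mdot a x) * (eta m * a m)) * (eta n *
          (2 * GF.mdot a x * Xw a b x n - 2 * GF.mdot a x ^ 2 * b n + H15.sq a b x * a n)) := by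
      rw [h2]
    rw [← h3]
    linear_combination h4
  have hF1 : ∀ m n, Tst fun x => dr m (cut a b κ R) x * G (GF.mdot a x) * (eta n * cK a x n) := by
    intro m n
    have h1 : Tst fun x => dr m (fun x => cut a b κ R x * G (GF.mdot a x)) x := hcG.dr m
    have h2 : (fun x => dr m (cut a b κ R) x * G (GF.mdot a x)) = fun x =>
        dr m (fun x => cut a b κ R x * G (GF.mdot a x)) x +
          -(cut a b κ R x * deriv G (GF.mdot a x) * (eta m * a m)) := by
      funext x
      rw [((hd_of hcutd m x).mul ((H746.hd_mdot m a x).comp hGd)).dr]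
      ring
    have h3 : Tst fun x => dr m (cut a b κ R) x * G (GF.mdot a x) := by
      rw [h2]
      exact tst_add h1 (tst_neg' (tst_mul (cut_tst haa hbb hab hκ hGt hR) contDiff_const))
    exact tst_mul h3 (contDiff_const.mul (contDiff_cK a n))
  have hXc : ∀ n : Ix, ContDiff ℝ ∞ fun x : V => Xw a b x n := by
    intro n
    unfold Xw
    simp only [Pi.add_apply, Pi.sub_apply, Pi.smul_apply, smul_eq_mul]
    exact ((contDiff_apply ℝ ℝ n).sub ((contDiff_mdot b).mul contDiff_const)).add
      ((contDiff_mdot a).mul contDiff_const)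
  have hp1 : ContDiff ℝ ∞ fun u : ℝ => 2 * u := by fun_prop
  have hp2 : ContDiff ℝ ∞ fun u : ℝ => 2 * u ^ 2 := by fun_prop
  have hF2 : ∀ m n, Tst fun x => eta m * a m * (eta n * Xw a b x n) *
      ctf a b κ 0 (fun u => 2 * u * deriv G u) R x := fun m n =>
    ctf_tst haa hbb hab hκ (tst_pol hGt hp1) hR (contDiff_const.mul (contDiff_const.mul (hXc n)))
  have hF3 : ∀ m n, Tst fun x => eta m * a m * (eta n * (fun _ : V => b) x n) *
      ctf a b κ 0 (fun u => 2 * u ^ 2 * deriv G u) R x := fun m n =>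
    ctf_tst haa hbb hab hκ (tst_pol hGt hp2) hR contDiff_const
  have hF4 : ∀ m n, Tst fun x => eta m * a m * (eta n * a n) * H15.sq a b x *
      ctf a b κ 0 (deriv G) R x := fun m n =>
    ctf_tst haa hbb hab hκ hGt hR (contDiff_const.mul (contDiff_sq a b))
  have hF5 : ∀ m n : Ix, Tst fun x => (2 * (eta m * a m) * (eta n * x n) -
      2 * (eta m * x m) * (eta n * a n)) * (cut a b κ R x * G (GF.mdot a x)) := by
    intro m n
    have h1 : ContDiff ℝ ∞ fun x : V => 2 * (eta m * a m) * (eta n * x n) -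
      2 * (eta m * x m) * (eta n * a n) := by fun_prop
    have h2 := tst_mul hcG h1
    refine (congrArg Tst (funext fun x => ?_)).mp h2
    ring
  have hg6 : Tst fun x => ctf a b κ 0 (fun u => 2 * u * G u) R x := by
    have h1 := ctf_tst haa hbb hab hκ (tst_pol hG hp1) hR (g := fun _ => 1) contDiff_const
    simpa only [one_mul] using h1
  have hF6 : ∀ m n : Ix, Tst fun x => bas m (eta m) n *
      ctf a b κ 0 (fun u => 2 * u * G u) R x := fun m n =>
    (congrArg Tst (funext fun x => mul_comm _ _)).mp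
      (tst_mul (g := fun _ => bas m (eta m) n) hg6 contDiff_const)
  have h1 : sm T (fun m n x => dr m (fun x => (cut a b κ R x * G (GF.mdot a x)) *
      (eta n * cK a x n)) x) v = sm T (fun m n x =>
      dr m (cut a b κ R) x * G (GF.mdot a x) * (eta n * cK a x n) +
      (eta m * a m * (eta n * Xw a b x n) * ctf a b κ 0 (fun u => 2 * u * deriv G u) R x -
      eta m * a m * (eta n * (fun _ : V => b) x n) *
        ctf a b κ 0 (fun u => 2 * u ^ 2 * deriv G u) R x +
      eta m * a m * (eta n * a n) * H15.sq a b x * ctf a b κ 0 (deriv G) R x) +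
      ((2 * (eta m * a m) * (eta n * x n) - 2 * (eta m * x m) * (eta n * a n)) *
        (cut a b κ R x * G (GF.mdot a x)) +
      bas m (eta m) n * ctf a b κ 0 (fun u => 2 * u * G u) R x)) v := by
    congr 1
    funext m n x
    exact hder m n x
  have hsub : ∀ m n, Tst fun x => eta m * a m * (eta n * Xw a b x n) *
      ctf a b κ 0 (fun u => 2 * u * deriv G u) R x -
      eta m * a m * (eta n * (fun _ : V => b) x n) *
        ctf a b κ 0 (fun u => 2 * u ^ 2 * deriv G u) R x := fun m n => by
    refine (congrArg Tst (funext fun x => ?_)).mp (tst_add (hF2 m n) (tst_neg' (hF3 m n)))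
    ring
  rw [h1, sm_add hT (fun m n => tst_add (hF1 m n) (tst_add (hsub m n) (hF4 m n)))
      (fun m n => tst_add (hF5 m n) (hF6 m n)),
    sm_add hT hF1 (fun m n => tst_add (hsub m n) (hF4 m n)), sm_add hT hsub hF4,
    sm_sub hT hF2 hF3, sm_add hT hF5 hF6, sm_anti hT hF5 (fun m n x => by ring),
    sm_diag hT hg6] at h0
  rw [← h0]
  abel

/-- The translation law of `K a` in the direction of the dual null vector. -/
theorem tra_b (hT : Q.IsStress T) (h : NullCharges Q T J A K) (ho : OnShell Q T J) {a b : V}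
    (ha : IsNull a) (hb : IsNull b) (hab : GF.mdot a b = 1) (u : ℝ) (v : D) :
    Q.U 1 GF.one (u • b) (K a (Q.U 1 GF.one (-(u • b)) v)) = K a v -
      (2 * u : ℂ) • A (Xw a b) v + (2 * u ^ 2 : ℂ) • A (fun _ => b) v := by
  obtain ⟨κ, hκ, hκ1⟩ := exists_cutf
  refine ext_inner_left ℂ fun w => ?_
  set k : ℝ → ℂ := fun u => inner ℂ w (Q.U 1 GF.one (u • b) (K a (Q.U 1 GF.one (-(u • b)) v)))
    with hk
  have hkc : Continuous k := h.cont a b v w ha hb
  set α : ℂ := inner ℂ w (A (Xw a b) v) with hα
  set β : ℂ := inner ℂ w (A (fun _ => b) v) with hβ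
  have hp1 : ContDiff ℝ ∞ fun u : ℝ => 2 * u := by fun_prop
  have hp2 : ContDiff ℝ ∞ fun u : ℝ => 2 * u ^ 2 := by fun_prop
  have key : ∀ G : ℝ → ℝ, Tst G →
      ∫ u, ((deriv G u : ℝ) : ℂ) * (k u + 2 * u * α - 2 * u ^ 2 * β) = 0 := by
    intro G hG
    have hGt : Tst (deriv G) := H746.tder hG
    have t1 := h.flux a b κ G v w ⟨ha, hb, hab, hκ, hκ1, hG⟩
    have t2 := h.gen a b κ 0 (fun u => 2 * u * deriv G u) 1 (Xw a b) v w
      ⟨ha, hb, hab, hκ, hκ1, tst_pol hGt hp1⟩ (isSim_Xw a b)
    have t3 := h.gen a b κ 0 (fun u => 2 * u ^ 2 * deriv G u) 0 (fun _ => b) v w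
      ⟨ha, hb, hab, hκ, hκ1, tst_pol hGt hp2⟩ (isSim_const b)
    have t4 := h.mom a b κ 0 (deriv G) v w ⟨ha, hb, hab, hκ, hκ1, hGt⟩
    have t5 := ho.tr a b κ 0 (fun u => 2 * u * G u) v w
      ⟨ha, hb, hab, hκ, hκ1, tst_pol hG hp1⟩
    have t6 := ho.vir a b κ 0 (fun u => 2 * u * deriv G u) v w
      ⟨ha, hb, hab, hκ, hκ1, tst_pol hGt hp1⟩
    have t7 := ((((t1.add t2).add t6).sub t3).add t4).add t5
    have t8 : Tendsto (fun _ : ℝ => (0 : ℂ)) atTop (𝓝 0) := tendsto_const_nhds
    have t9 := tendsto_nhds_unique t7 (t8.congr' (by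
      filter_upwards [eventually_ge_atTop (1:ℝ)] with R hR
      have h1 := congrArg (fun z => inner ℂ w z) (ward_R hT ha.1 hb.1 hab hκ hG hR v)
      simp only [inner_add_right, inner_sub_right, inner_zero_right] at h1
      simp only [inner_sub_right, Complex.ofReal_one, one_smul, Complex.ofReal_zero, zero_smul,
        Finset.sum_const_zero, inner_zero_right, sub_zero]
      rw [← h1]
      ring))
    have i1 : Integrable fun u : ℝ => ((deriv G u : ℝ) : ℂ) * k u := by
      have hGc : HasCompactSupport fun u : ℝ => ((deriv G u : ℝ) : ℂ) :=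
        hGt.2.comp_left (g := fun r : ℝ => (r : ℂ)) (by simp)
      exact ((Complex.continuous_ofReal.comp hGt.1.continuous).mul
        hkc).integrable_of_hasCompactSupport hGc.mul_right
    have i2 : Integrable fun u : ℝ => ((2 * u * deriv G u : ℝ) : ℂ) * α := by
      have h1 := tst_pol hGt hp1
      have h2 : HasCompactSupport fun u : ℝ => ((2 * u * deriv G u : ℝ) : ℂ) :=
        h1.2.comp_left (g := fun r : ℝ => (r : ℂ)) (by simp)
      exact ((Complex.continuous_ofReal.comp h1.1.continuous).mul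
        continuous_const).integrable_of_hasCompactSupport h2.mul_right
    have i3 : Integrable fun u : ℝ => ((2 * u ^ 2 * deriv G u : ℝ) : ℂ) * β := by
      have h1 := tst_pol hGt hp2
      have h2 : HasCompactSupport fun u : ℝ => ((2 * u ^ 2 * deriv G u : ℝ) : ℂ) :=
        h1.2.comp_left (g := fun r : ℝ => (r : ℂ)) (by simp)
      exact ((Complex.continuous_ofReal.comp h1.1.continuous).mul
        continuous_const).integrable_of_hasCompactSupport h2.mul_right
    have e1 : (∫ u : ℝ, ((2 * u * deriv G u : ℝ) : ℂ)) * α =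
        ∫ u : ℝ, ((2 * u * deriv G u : ℝ) : ℂ) * α := (integral_mul_const _ _).symm
    have e2 : (∫ u : ℝ, ((2 * u ^ 2 * deriv G u : ℝ) : ℂ)) * β =
        ∫ u : ℝ, ((2 * u ^ 2 * deriv G u : ℝ) : ℂ) * β := (integral_mul_const _ _).symm
    rw [zero_add, add_zero, add_zero, e1, e2, ← integral_sub i2 i3] at t9
    have e3 := integral_add (i2.sub i3) i1
    rw [← t9]
    refine Eq.trans ?_ e3
    refine integral_congr_ae (Eventually.of_forall fun u => ?_)
    simp only [Pi.sub_apply]
    push_cast
    ring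
  have h1 := dbr (h := fun u : ℝ => k u + 2 * u * α - 2 * u ^ 2 * β) (by fun_prop) key u
  simp only [Complex.ofReal_zero, mul_zero, zero_mul, add_zero, sub_zero, ne_eq, OfNat.ofNat_ne_zero,
    not_false_eq_true, zero_pow] at h1
  have h2 : k 0 = inner ℂ w (K a v) := by
    simp only [hk, zero_smul, neg_zero, H755.U0]
  rw [h2] at h1
  rw [inner_add_right, inner_sub_right, inner_smul_right, inner_smul_right]
  show k u = _
  linear_combination h1

end Vale.Agent.P352.H846

end
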