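import Vale.Agent.P352.H15.NPDefs

open MeasureTheory Filter Topology
open scoped ComplexConjugate ContDiff

namespace Vale.Agent.P352.H846

open GF H496 H755 H15

noncomputable section

variable {D : Type*} [NormedAddCommGroup D] [InnerProductSpace ℂ D]

/-- The currents `X^n T_{mn}` (`X` a similitude or the conformal Killing field `cK a`) and the
current `J` have no flux through any part of the boundary at infinity between null hyperplanes
`a·x = const`: the parts of the boundary are selected by means of profiles `ν`. -/
structure NoFlux (T : Ix → Ix → Fld D) (J : Ix → Fld D) : Prop where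
  T : ∀ a b κ ν ψ r X v w, IsNull a → IsNull b → mdot a b = 1 → Tst κ → Tst ν →
    (∀ᶠ x in 𝓝 0, ν x = 0) → Tst ψ → (IsSim r X ∨ X = cK a) →
    Tendsto (fun R => inner ℂ w (sm T (fun m n x =>
      dr m (cut a b κ R) x * cut a b ν R x * ψ (mdot a x) * (eta n * X x n)) v)) atTop (𝓝 0)
  J : ∀ a b κ ν ψ v w, IsNull a → IsNull b → mdot a b = 1 → Tst κ → Tst ν →
    (∀ᶠ x in 𝓝 0, ν x = 0) → Tst ψ → Tendsto (fun R => inner ℂ w (∑ m, J m (fun x =>
      (dr m (cut a b κ R) x * cut a b ν R x * ψ (mdot a x) : ℝ)) v)) atTop (𝓝 0)

/-- The charge of the current `X^n t_{mn}` acts on the fields of `Q` like the operator `G`: for a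
test function `f` with compact support and large `R`, the commutator of the charge with the cutoff
`F R` and `B f` is the commutator of `G` and `B f`. -/
def Chg (Q : Theory D) (t : Ix → Ix → Fld D) (X : V → V) (G : D → D) : Prop :=
  ∀ F B f, IsCutoff F → Q.fld B → IsTest f → HasCompactSupport f → ∀ᶠ R in atTop, ∀ v,
    ∑ n, t o n (fun x => (eta n * X x n : ℝ) * F R x) (B f v) -
      B f (∑ n, t o n (fun x => (eta n * X x n : ℝ) * F R x) v) = G (B f v) - B f (G v)

end

end Vale.Agent.P352.H846
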