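import Vale.Agent.P352.H846.Sw5
import Vale.Agent.P352.H846.T2
import Vale.Agent.P352.H246.Pl
import Vale.Agent.P352.H993.Lf
import Vale.Agent.P352.H731.ChA
import Vale.Agent.P352.H755.R7
import Vale.Agent.P352.H496.LFam

/-!
# The conformal charges of the improved tensor are the generators
-/

set_option linter.all false

noncomputable section

open MeasureTheory Filter Topology Set
open scoped ContDiff ComplexConjugate

namespace Vale.Agent.P352.H846

open GF (Ix V Fn Fld bas eta o improve bar)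
open H755 H496 H15 H246
open H746 (Lf)
open SubConf (IsKil IsAdj)

variable {D : Type*} [NormedAddCommGroup D] [InnerProductSpace ℂ D]
variable {Q Q' : GF.Theory D} {T : Ix → Ix → GF.Fld D} {J : Ix → GF.Fld D}
  {A : (V → V) → D → D} {K : V → D → D} {L B : GF.Fld D}

/-- **The commutator with the charge.** -/
theorem com_lim (hT : Q.IsStress T) (hJ : IsVirial Q T J) (h : NullCharges Q T J A K)
    (ho : OnShell Q T J) (hn : NoFlux T J) (hL : Q'.bose L)
    (hLf : ∀ a b f v, NPr a b → GF.IsTest f → L f v = Lf J K a b f v)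
    (ht : IsT Q' (improve T L)) (hB : Q'.fld B) {a b : V} (ha : IsNull a) (hb : IsNull b)
    (hab : GF.mdot a b = 1) {X : V → V} {c0 k : V} {r s r' : ℝ} {w0 : Ix → V}
    (hw : ∀ m n, eta n * w0 m n = -(eta m * w0 n m))
    (hX : ∀ x n, X x n = c0 n + r * x n + ∑ m, x m * w0 m n + 2 * GF.mdot k x * x n -
      GF.mdot x x * k n) (hk : k = s • a) (hX' : IsSim r' X ∨ X = cK a) {G : D → D}
    (hG : ∀ κ ψ, Adm a b κ ψ → ∀ v w, Tendsto (fun R => inner ℂ w (sm T (fun m n x =>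
      eta m * a m * (eta n * X x n) * ctf a b κ 0 ψ R x) v)) atTop
      (𝓝 ((∫ u, (ψ u : ℂ)) * inner ℂ w (G v)))) {f : Fn} (hf : H755.CS f) {g : V → ℝ}
    (hg : Ok (tsupport f) g) (v : D) :
    com (improve T L) (fun n x => X x n) g B f v = G (B f v) - B f (G v) := by
  have hfld : Q'.fld L := Q'.bose_fld _ hL
  -- the cutoff function
  obtain ⟨κ, hκ, hκ1⟩ : ∃ κ : V → ℝ, Tst κ ∧ ∀ᶠ x in 𝓝 (0 : V), κ x = 1 := by
    let f : ContDiffBump (0 : V) := ⟨1, 2, one_pos, one_lt_two⟩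
    exact ⟨f, ⟨f.contDiff, f.hasCompactSupport⟩, f.eventuallyEq_one⟩
  obtain ⟨α, hα, hα1⟩ := exists_prof
  obtain ⟨M1, hM1, hM1'⟩ := supp_bd hα
  obtain ⟨M4, hM4⟩ := hf.2.isCompact.isBounded.subset_closedBall (0 : V)
  obtain ⟨M, hMd⟩ : ∃ M, M = M1 + |M4| := ⟨_, rfl⟩
  have hM40 := abs_nonneg M4
  have hM : 0 ≤ M := by rw [hMd]; positivity
  have hαM : ∀ u, α u ≠ 0 → |u| ≤ M := fun u hu => (hM1' u hu).trans (by linarith)
  have hfM : ∀ y ∈ tsupport f, ∀ i, |y i| ≤ M := by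
    intro y hy i
    have h3 := hM4 hy
    rw [mem_closedBall_zero_iff] at h3
    have h4 := norm_le_pi_norm y i
    have h5 := le_abs_self M4
    rw [Real.norm_eq_abs] at h4
    linarith
  obtain ⟨u0, l, ν, hν, hν0, -, -, hev⟩ := exists_swi ha hb hab hκ hκ1
    (c := 3 * M + 1 + 1) (by linarith)
  obtain ⟨B', hB', hBB⟩ := Q'.adj B hB
  have hadj : ∀ u w : D, inner ℂ w (B f u) = inner ℂ (B' (bar f) w) u := by
    intro u w
    rw [← inner_conj_symm, hBB f u w hf.1, inner_conj_symm]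
  refine ext_inner_left ℂ fun w => ?_
  -- the limits
  have hadm : Adm a b κ (deriv (Ps u0)) := ⟨ha, hb, hab, hκ, hκ1, dPs_tst u0⟩
  have hint : (∫ u, ((deriv (Ps u0) u : ℝ) : ℂ)) = -1 := by
    rw [integral_complex_ofReal, dPs_int]
    simp
  have l1 : ∀ v w : D, Tendsto (fun R => inner ℂ w (sm T (F1 a b κ X (deriv (Ps u0)) R) v)) atTop
      (𝓝 (-inner ℂ w (G v))) := by
    intro v w
    have := hG κ _ hadm v w
    rw [hint, neg_one_mul] at this
    exact this
  have l2 : ∀ v w : D, Tendsto (fun R => inner ℂ w (sm T (F2 a b κ ν X (pl u0 l) R) v)) atTop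
      (𝓝 0) := fun v w => hn.T a b κ ν (pl u0 l) r' X v w ha hb hab hκ hν hν0 (pl_tst u0 l) hX'
  have hcg : ConfGen Q A K := confGen hT hJ h ho
  have l3 : ∀ v w : D, Tendsto (fun R => inner ℂ w
      (L (fun x => (Nr a b κ ν r s u0 l R x : ℂ)) v)) atTop (𝓝 0) := by
    intro v w
    have tA := pmul_tst hν (H148.tst_Da hκ a)
    have tB := pmul_tst hν (H148.tst_Lap hκ a b)
    have m1 := H993.lf hT hJ hcg ho hn ha hb hab tA (pmul_near (H148.Da a κ) hν0)
      (psA_tst r s u0 l) v w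
    have m2 := H993.lf hT hJ hcg ho hn ha hb hab tB (pmul_near (H148.Lap a b κ) hν0)
      (psB_tst r s u0 l) v w
    have m3 := m1.add m2
    rw [add_zero] at m3
    refine m3.congr' ?_
    filter_upwards [eventually_ge_atTop (1 : ℝ)] with R hR
    have p1 := prof_tst ha.1 hb.1 hab tA (psA_tst r s u0 l) hR
    have p2 := prof_tst ha.1 hb.1 hab tB (psB_tst r s u0 l) hR
    rw [← hLf a b _ v ⟨ha, hb, hab⟩ (tstIs p1), ← hLf a b _ v ⟨ha, hb, hab⟩ (tstIs p2),
      ← inner_add_right, ← fld_add hfld p1 p2]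
    rfl
  have lim : Tendsto (fun R => -((inner ℂ w (sm T (F1 a b κ X (deriv (Ps u0)) R) (B f v)) -
      inner ℂ (B' (bar f) w) (sm T (F1 a b κ X (deriv (Ps u0)) R) v)) +
      (inner ℂ w (sm T (F2 a b κ ν X (pl u0 l) R) (B f v)) -
        inner ℂ (B' (bar f) w) (sm T (F2 a b κ ν X (pl u0 l) R) v)) +
      (3 : ℂ) * (inner ℂ w (L (fun x => (Nr a b κ ν r s u0 l R x : ℂ)) (B f v)) -
        inner ℂ (B' (bar f) w) (L (fun x => (Nr a b κ ν r s u0 l R x : ℂ)) v)))) atTop
      (𝓝 (-((-inner ℂ w (G (B f v)) - -inner ℂ (B' (bar f) w) (G v)) + (0 - 0) +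
        3 * (0 - 0)))) :=
    (((l1 _ _).sub (l1 _ _)).add ((l2 _ _).sub (l2 _ _)) |>.add
      (((l3 _ _).sub (l3 _ _)).const_mul 3)).neg
  have hconst : Tendsto (fun _ : ℝ => inner ℂ w (com (improve T L) (fun n x => X x n) g B f v)) atTop
      (𝓝 (-((-inner ℂ w (G (B f v)) - -inner ℂ (B' (bar f) w) (G v)) + (0 - 0) +
        3 * (0 - 0)))) := by
    refine lim.congr' ?_
    filter_upwards [hev, eventually_ge_atTop (1 : ℝ)] with R hR hR1
    rw [com_R hT hL ht hB ha hb hab hκ hν hw hX hk hf hM le_rfl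
      (by linarith : 3 * M + 1 < 3 * M + 1 + 1) hfM hα hα1 hαM hR1 hR hg v]
    rw [inner_neg_right, inner_add_right, inner_add_right, inner_smul_right, inner_sub_right,
      inner_sub_right, inner_sub_right, hadj, hadj, hadj]
  have := tendsto_nhds_unique tendsto_const_nhds hconst
  rw [this, inner_sub_right, hadj]
  ring

lemma chg_of (hT : Q.IsStress T) (hJ : IsVirial Q T J) (h : NullCharges Q T J A K)
    (ho : OnShell Q T J) (hn : NoFlux T J) (hL : Q'.bose L)
    (hLf : ∀ a b f v, NPr a b → GF.IsTest f → L f v = Lf J K a b f v)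
    (ht : IsT Q' (improve T L)) {a b : V} (ha : IsNull a) (hb : IsNull b)
    (hab : GF.mdot a b = 1) {X : V → V} {c0 k : V} {r s r' : ℝ} {w0 : Ix → V}
    (hw : ∀ m n, eta n * w0 m n = -(eta m * w0 n m))
    (hX : ∀ x n, X x n = c0 n + r * x n + ∑ m, x m * w0 m n + 2 * GF.mdot k x * x n -
      GF.mdot x x * k n) (hk : k = s • a) (hX' : IsSim r' X ∨ X = cK a) {G : D → D}
    (hG : ∀ κ ψ, Adm a b κ ψ → ∀ v w, Tendsto (fun R => inner ℂ w (sm T (fun m n x =>
      eta m * a m * (eta n * X x n) * ctf a b κ 0 ψ R x) v)) atTop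
      (𝓝 ((∫ u, (ψ u : ℂ)) * inner ℂ w (G v)))) : Chg Q' (improve T L) X G := by
  intro F B f hF hB hf hfc
  filter_upwards [ok_cutoff hF (S := tsupport f) hfc.isCompact] with R hR v
  obtain ⟨g, hg, hFg⟩ := hR
  have key := com_lim hT hJ h ho hn hL hLf ht hB ha hb hab hw hX hk hX' hG ⟨hf, hfc⟩ hg v
  rw [← key]
  have e : ∀ n, (fun x => ((eta n * X x n : ℝ) : ℂ) * F R x) =
      fun x => ((eta n * X x n * g x : ℝ) : ℂ) := by
    intro n
    rw [hFg]
    funext x
    push_cast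
    ring
  unfold com
  simp only [e]

/-- **The charges.** -/
theorem chg_all (hT : Q.IsStress T) (hJ : IsVirial Q T J) (h : NullCharges Q T J A K)
    (ho : OnShell Q T J) (hn : NoFlux T J) (hL : Q'.bose L)
    (hLf : ∀ a b f v, NPr a b → GF.IsTest f → L f v = Lf J K a b f v)
    (ht : IsT Q' (improve T L)) :
    (∀ r X, IsSim r X → Chg Q' (improve T L) X (A X)) ∧
      ∀ a, IsNull a → Chg Q' (improve T L) (cK a) (K a) := by
  refine ⟨fun r X hX => ?_, fun a ha => ?_⟩
  · obtain ⟨a, ha⟩ : ∃ a : V, IsNull a := by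
      refine ⟨fun n => if n = 0 ∨ n = 1 then 1 else 0, ?_, ?_⟩
      · simp [GF.mdot, eta, o, Fin.sum_univ_four]
      · simp [o]
    obtain ⟨b, hb, hab⟩ := exists_dual ha
    obtain ⟨c, w, hw, hXe⟩ := id hX
    refine chg_of hT hJ h ho hn hL hLf ht ha hb hab (X := X) (c0 := c) (k := 0) (r := r) (s := 0)
      (r' := r) (w0 := w) hw ?_ ?_ (Or.inl hX) ?_
    · intro x n
      rw [hXe x n]
      have h0 : GF.mdot (0 : V) x = 0 := by
        rw [mdx]
        simp
      rw [h0]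
      simp
    · simp
    · intro κ ψ hadm v w
      exact H246D.pl_sim h ho hadm hX v w
  · obtain ⟨b, hb, hab⟩ := exists_dual ha
    refine chg_of hT hJ h ho hn hL hLf ht ha hb hab (X := cK a) (c0 := 0) (k := a) (r := 0)
      (s := 1) (r' := 0) (w0 := 0) ?_ ?_ ?_ (Or.inr rfl) ?_
    · intro m n
      simp
    · intro x n
      unfold cK
      simp only [Pi.sub_apply, Pi.smul_apply, smul_eq_mul, Pi.zero_apply]
      simp
    · simp
    · intro κ ψ hadm v w
      exact H246D.pl_cK hT h ho hadm v w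

end Vale.Agent.P352.H846

end
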