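import Vale.Agent.P352.H846.Al0

/-!
# Geometry of the region `|x⃗| ≤ |x⁰| + c`
-/

set_option linter.all false

noncomputable section

open MeasureTheory Filter Topology Set
open scoped ContDiff ComplexConjugate

namespace Vale.Agent.P352.H846

open GF (Ix V Fn bas eta o)
open H755 H496 H15

/-- the region `|x⃗| ≤ |x⁰| + c` -/
def Gc (c : ℝ) : Set V := {x | x 1 ^ 2 + x 2 ^ 2 + x 3 ^ 2 ≤ (|x 0| + c) ^ 2}

lemma gc_nhds {c c' : ℝ} (hc : 0 ≤ c) (h : c < c') {x : V} (hx : x ∈ Gc c) : Gc c' ∈ 𝓝 x := by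
  have h1 : IsOpen {x : V | x 1 ^ 2 + x 2 ^ 2 + x 3 ^ 2 < (|x 0| + c') ^ 2} := by
    apply isOpen_lt
    · fun_prop
    · fun_prop
  refine mem_of_superset (h1.mem_nhds ?_) fun y hy => ?_
  · have h2 : x 1 ^ 2 + x 2 ^ 2 + x 3 ^ 2 ≤ (|x 0| + c) ^ 2 := hx
    show x 1 ^ 2 + x 2 ^ 2 + x 3 ^ 2 < (|x 0| + c') ^ 2
    refine lt_of_le_of_lt h2 ?_
    have := abs_nonneg (x 0)
    nlinarith
  · have h2 : y 1 ^ 2 + y 2 ^ 2 + y 3 ^ 2 < (|y 0| + c') ^ 2 := hy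
    exact (show y 1 ^ 2 + y 2 ^ 2 + y 3 ^ 2 ≤ (|y 0| + c') ^ 2 from h2.le)

lemma gc_mono {c c' : ℝ} (hc : 0 ≤ c) (h : c ≤ c') : Gc c ⊆ Gc c' := by
  intro x hx
  refine le_trans (show x 1 ^ 2 + x 2 ^ 2 + x 3 ^ 2 ≤ (|x 0| + c) ^ 2 from hx) ?_
  have := abs_nonneg (x 0)
  nlinarith

/-- functions that vanish on the region are supported spacelike to a bounded set -/
lemma gc_sep {M c : ℝ} (hM : 0 ≤ M) (hc : 3 * M + 1 ≤ c) {g : V → ℝ} (hg : ∀ x ∈ Gc c, g x = 0)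
    {x y : V} (hx : x ∈ tsupport g) (hy : ∀ i, |y i| ≤ M) :
    GF.mdot (fun m => x m - y m) (fun m => x m - y m) < 0 := by
  have hx2 : (|x 0| + c) ^ 2 ≤ x 1 ^ 2 + x 2 ^ 2 + x 3 ^ 2 := by
    have h1 : IsClosed {x : V | (|x 0| + c) ^ 2 ≤ x 1 ^ 2 + x 2 ^ 2 + x 3 ^ 2} := by
      apply isClosed_le
      · fun_prop
      · fun_prop
    refine closure_minimal ?_ h1 hx
    intro z hz
    by_contra h
    have h3 : z 1 ^ 2 + z 2 ^ 2 + z 3 ^ 2 ≤ (|z 0| + c) ^ 2 := by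
      simp only [mem_setOf_eq, not_le] at h
      exact h.le
    exact hz (hg z h3)
  set S : ℝ := Real.sqrt (x 1 ^ 2 + x 2 ^ 2 + x 3 ^ 2) with hS
  set s : ℝ := Real.sqrt (y 1 ^ 2 + y 2 ^ 2 + y 3 ^ 2) with hs
  have hS2 : S ^ 2 = x 1 ^ 2 + x 2 ^ 2 + x 3 ^ 2 := Real.sq_sqrt (by positivity)
  have hs2 : s ^ 2 = y 1 ^ 2 + y 2 ^ 2 + y 3 ^ 2 := Real.sq_sqrt (by positivity)
  have hS0 : 0 ≤ S := Real.sqrt_nonneg _
  have hs0 : 0 ≤ s := Real.sqrt_nonneg _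
  have ha0 := abs_nonneg (x 0)
  have hSc : |x 0| + c ≤ S := by
    refine Real.le_sqrt_of_sq_le hx2
  have hysq : ∀ i, y i ^ 2 ≤ M ^ 2 := fun i => by
    have := abs_le.1 (hy i)
    nlinarith [this.1, this.2]
  have hsM : s ≤ 2 * M := by
    apply Real.sqrt_le_iff.2
    refine ⟨by linarith, ?_⟩
    nlinarith [hysq 1, hysq 2, hysq 3]
  have hcs : x 1 * y 1 + x 2 * y 2 + x 3 * y 3 ≤ S * s := by
    have h1 : (x 1 * y 1 + x 2 * y 2 + x 3 * y 3) ^ 2 ≤ (S * s) ^ 2 := by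
      rw [mul_pow, hS2, hs2]
      nlinarith [sq_nonneg (x 1 * y 2 - x 2 * y 1), sq_nonneg (x 1 * y 3 - x 3 * y 1),
        sq_nonneg (x 2 * y 3 - x 3 * y 2)]
    exact (abs_le_of_sq_le_sq' h1 (by positivity)).2
  have hy0 := abs_le.1 (hy 0)
  have hx0 := abs_le.1 (le_refl |x 0|)
  have e : GF.mdot (fun m => x m - y m) (fun m => x m - y m) = (x 0 - y 0) * (x 0 - y 0) -
      (x 1 - y 1) * (x 1 - y 1) - (x 2 - y 2) * (x 2 - y 2) - (x 3 - y 3) * (x 3 - y 3) :=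
    mdx _ _
  rw [e]
  have h1 : (x 1 - y 1) * (x 1 - y 1) + (x 2 - y 2) * (x 2 - y 2) +
      (x 3 - y 3) * (x 3 - y 3) ≥ (S - s) ^ 2 := by nlinarith
  have h2 : (|x 0| + M + 1) ^ 2 ≤ (S - s) ^ 2 := by
    apply pow_le_pow_left₀ (by linarith)
    linarith
  have h3 : (x 0 - y 0) * (x 0 - y 0) ≤ (|x 0| + M) ^ 2 := by
    have h4 : |x 0 - y 0| ≤ |x 0| + M := (abs_sub _ _).trans (by linarith [hy 0])
    have h5 := abs_le.1 h4
    nlinarith [h5.1, h5.2]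
  nlinarith

lemma gc_lin {a : V} (ha : IsNull a) {c : ℝ} (hc : 0 ≤ c) {x : V} (hx : x ∈ Gc c) :
    |a 1 * x 1 + a 2 * x 2 + a 3 * x 3| ≤ a 0 * (|x 0| + c) := by
  have h0 : 0 < a 0 := ha.2
  have h1 := ha.1
  rw [mdx] at h1
  have hx' : x 1 ^ 2 + x 2 ^ 2 + x 3 ^ 2 ≤ (|x 0| + c) ^ 2 := hx
  have ha0 := abs_nonneg (x 0)
  apply abs_le_of_sq_le_sq _ (by positivity)
  have h2 : (a 1 * x 1 + a 2 * x 2 + a 3 * x 3) ^ 2 ≤
      (a 1 * a 1 + a 2 * a 2 + a 3 * a 3) * (x 1 ^ 2 + x 2 ^ 2 + x 3 ^ 2) := by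
    nlinarith [sq_nonneg (a 1 * x 2 - a 2 * x 1), sq_nonneg (a 1 * x 3 - a 3 * x 1),
      sq_nonneg (a 2 * x 3 - a 3 * x 2)]
  have h3 : a 1 * a 1 + a 2 * a 2 + a 3 * a 3 = a 0 * a 0 := by linarith
  rw [h3] at h2
  calc _ ≤ _ := h2
    _ ≤ a 0 * a 0 * (|x 0| + c) ^ 2 := mul_le_mul_of_nonneg_left hx' (mul_self_nonneg _)
    _ = _ := by ring

lemma gc_pos {a : V} (ha : IsNull a) {c : ℝ} (hc : 0 ≤ c) {x : V} (hx : x ∈ Gc c)
    (h0 : 0 ≤ x 0) : -(a 0 * c) ≤ GF.mdot a x := by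
  have h1 := (abs_le.1 (gc_lin ha hc hx)).2
  rw [abs_of_nonneg h0] at h1
  rw [mdx]
  linarith

lemma gc_neg {a : V} (ha : IsNull a) {c : ℝ} (hc : 0 ≤ c) {x : V} (hx : x ∈ Gc c)
    (h0 : x 0 ≤ 0) : GF.mdot a x ≤ a 0 * c := by
  have h1 := (abs_le.1 (gc_lin ha hc hx)).1
  rw [abs_of_nonpos h0] at h1
  rw [mdx]
  linarith

lemma gc_norm {c : ℝ} (hc : 0 ≤ c) {x : V} (hx : x ∈ Gc c) : ‖x‖ ≤ |x 0| + c := by
  have hx' : x 1 ^ 2 + x 2 ^ 2 + x 3 ^ 2 ≤ (|x 0| + c) ^ 2 := hx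
  have ha0 := abs_nonneg (x 0)
  rw [pi_norm_le_iff_of_nonneg (by positivity)]
  intro i
  rw [Real.norm_eq_abs]
  have key : ∀ q : ℝ, q ^ 2 ≤ (|x 0| + c) ^ 2 → |q| ≤ |x 0| + c := fun q hq =>
    abs_le_of_sq_le_sq hq (by positivity)
  fin_cases i
  · show |x 0| ≤ _
    linarith
  · exact key (x 1) (by linarith [sq_nonneg (x 2), sq_nonneg (x 3)])
  · exact key (x 2) (by linarith [sq_nonneg (x 1), sq_nonneg (x 3)])
  · exact key (x 3) (by linarith [sq_nonneg (x 1), sq_nonneg (x 2)])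

lemma cs3 (d1 d2 d3 w1 w2 w3 : ℝ) : (d1 * w1 + d2 * w2 + d3 * w3) ^ 2 ≤
    (d1 * d1 + d2 * d2 + d3 * d3) * (w1 * w1 + w2 * w2 + w3 * w3) := by
  nlinarith [sq_nonneg (d1 * w2 - d2 * w1), sq_nonneg (d1 * w3 - d3 * w1),
    sq_nonneg (d2 * w3 - d3 * w2)]

lemma norm_sq_le (w : V) {W : ℝ} (h0 : w 0 * w 0 ≤ W) (h1 : w 1 * w 1 ≤ W) (h2 : w 2 * w 2 ≤ W)
    (h3 : w 3 * w 3 ≤ W) : ‖w‖ ^ 2 ≤ W := by
  have hW0 : 0 ≤ W := (mul_self_nonneg _).trans h0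
  have h6 : ‖w‖ ≤ Real.sqrt W := by
    rw [pi_norm_le_iff_of_nonneg (Real.sqrt_nonneg _)]
    intro i
    rw [Real.norm_eq_abs]
    apply Real.abs_le_sqrt
    rw [pow_two]
    fin_cases i
    · exact h0
    · exact h1
    · exact h2
    · exact h3
  calc ‖w‖ ^ 2 ≤ Real.sqrt W ^ 2 := pow_le_pow_left₀ (norm_nonneg _) h6 2
    _ = W := Real.sq_sqrt hW0

/-- vectors orthogonal to two null vectors -/
lemma perp_norm {a b w : V} (ha : IsNull a) (hb : IsNull b) (hab : GF.mdot a b = 1)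
    (haw : GF.mdot a w = 0) (hbw : GF.mdot b w = 0) :
    ‖w‖ ^ 2 ≤ (a 0 + b 0) ^ 2 / 2 * (-GF.mdot w w) := by
  have ha0 : 0 < a 0 := ha.2
  have hb0 : 0 < b 0 := hb.2
  have haa := ha.1
  have hbb := hb.1
  rw [mdx] at haa hbb hab haw hbw ⊢
  have hs0 : 0 < a 0 + b 0 := by linarith
  have hd : (a 1 + b 1) * (a 1 + b 1) + (a 2 + b 2) * (a 2 + b 2) + (a 3 + b 3) * (a 3 + b 3) =
      (a 0 + b 0) ^ 2 - 2 := by
    linear_combination -haa - hbb - 2 * hab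
  have h1 : (a 0 + b 0) * w 0 = (a 1 + b 1) * w 1 + (a 2 + b 2) * w 2 + (a 3 + b 3) * w 3 := by
    linear_combination haw + hbw
  have h2 := cs3 (a 1 + b 1) (a 2 + b 2) (a 3 + b 3) (w 1) (w 2) (w 3)
  rw [hd, ← h1] at h2
  have n1 := mul_self_nonneg (w 1)
  have n2 := mul_self_nonneg (w 2)
  have n3 := mul_self_nonneg (w 3)
  generalize a 0 + b 0 = s at h2 hs0 ⊢
  generalize hW : w 1 * w 1 + w 2 * w 2 + w 3 * w 3 = W at h2
  have hW0 : 0 ≤ W := by rw [← hW]; linarith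
  have e1 : (s * w 0) ^ 2 = s ^ 2 * (w 0 * w 0) := by ring
  have e2 : (s ^ 2 - 2) * W = s ^ 2 * W - 2 * W := by ring
  rw [e1, e2] at h2
  have h3 : W ≤ s ^ 2 / 2 * (W - w 0 * w 0) := by
    have e3 : s ^ 2 / 2 * (W - w 0 * w 0) = (s ^ 2 * W - s ^ 2 * (w 0 * w 0)) / 2 := by ring
    rw [e3]
    linarith
  have h4 : w 0 * w 0 ≤ W := by
    have h5 : s ^ 2 * (w 0 * w 0) ≤ s ^ 2 * W := by linarith
    exact le_of_mul_le_mul_left h5 (by positivity)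
  have h6 : -(w 0 * w 0 - w 1 * w 1 - w 2 * w 2 - w 3 * w 3) = W - w 0 * w 0 := by
    rw [← hW]
    ring
  rw [h6]
  exact (norm_sq_le w h4 (by linarith) (by linarith) (by linarith)).trans h3

/-- the transversal component -/
def prj (a b x : V) : V := x - GF.mdot a x • b - GF.mdot b x • a

lemma mdot_sm (a x : V) (u w : ℝ) (b c : V) : GF.mdot a (x - u • b - w • c) =
    GF.mdot a x - u * GF.mdot a b - w * GF.mdot a c := by
  simp only [mdx, Pi.sub_apply, Pi.smul_apply, smul_eq_mul]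
  ring

lemma prj_a {a b : V} (haa : GF.mdot a a = 0) (hab : GF.mdot a b = 1) (x : V) :
    GF.mdot a (prj a b x) = 0 := by
  unfold prj
  rw [mdot_sm, haa, hab]
  ring

lemma mdot_symm (a b : V) : GF.mdot a b = GF.mdot b a := by
  rw [mdx, mdx]
  ring

lemma prj_b {a b : V} (hbb : GF.mdot b b = 0) (hab : GF.mdot a b = 1) (x : V) :
    GF.mdot b (prj a b x) = 0 := by
  unfold prj
  rw [mdot_sm, hbb, mdot_symm b a, hab]
  ring

lemma prj_sq {a b : V} (haa : GF.mdot a a = 0) (hbb : GF.mdot b b = 0) (hab : GF.mdot a b = 1)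
    (x : V) : GF.mdot (prj a b x) (prj a b x) =
      GF.mdot x x - 2 * GF.mdot a x * GF.mdot b x := by
  have h1 : GF.mdot (prj a b x) (prj a b x) = GF.mdot (prj a b x) x - GF.mdot a x *
      GF.mdot (prj a b x) b - GF.mdot b x * GF.mdot (prj a b x) a := by
    conv_lhs => rw [prj.eq_1 a b x]
    simp only [mdx, prj, Pi.sub_apply, Pi.smul_apply, smul_eq_mul]
    ring
  rw [h1, mdot_symm _ b, mdot_symm _ a, prj_a haa hab, prj_b hbb hab]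
  simp only [mdx, prj, Pi.sub_apply, Pi.smul_apply, smul_eq_mul]
  ring

lemma prj_add (a b x y : V) : prj a b (x + y) = prj a b x + prj a b y := by
  have h : ∀ a : V, GF.mdot a (x + y) = GF.mdot a x + GF.mdot a y := fun a => by
    simp only [mdx, Pi.add_apply]
    ring
  unfold prj
  rw [h, h]
  module

lemma cv_prj (a b : V) (R : ℝ) (x : V) : cv a b R x = (GF.mdot b x / R ^ 2) • a + R⁻¹ • prj a b x :=
  rfl

lemma mdot_e0 (b : V) (c : ℝ) : GF.mdot b (bas 0 c) = b 0 * c := by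
  rw [mdx]
  simp [bas]

lemma mdot_addr (a x y : V) : GF.mdot a (x + y) = GF.mdot a x + GF.mdot a y := by
  simp only [mdx, Pi.add_apply]
  ring

/-- the paraboloid estimate -/
lemma prj_bound {a b : V} (ha : IsNull a) (hb : IsNull b) (hab : GF.mdot a b = 1) {c : ℝ}
    (hc : 0 ≤ c) {x : V} (hx : x ∈ Gc c) (hx0 : 0 ≤ x 0) :
    ‖prj a b (x + bas 0 c)‖ ^ 2 ≤ (a 0 + b 0) ^ 2 / 2 *
      (2 * (GF.mdot a x + a 0 * c) * (GF.mdot b x + b 0 * c)) := by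
  have hpp : 0 ≤ GF.mdot (x + bas 0 c) (x + bas 0 c) := by
    have hx' : x 1 ^ 2 + x 2 ^ 2 + x 3 ^ 2 ≤ (|x 0| + c) ^ 2 := hx
    rw [abs_of_nonneg hx0] at hx'
    rw [mdx]
    simp only [Pi.add_apply, bas]
    simp
    linarith
  refine (perp_norm ha hb hab (prj_a ha.1 hab _) (prj_b hb.1 hab _)).trans ?_
  refine mul_le_mul_of_nonneg_left ?_ (by positivity)
  rw [prj_sq ha.1 hb.1 hab]
  have hap : GF.mdot a (x + bas 0 c) = GF.mdot a x + a 0 * c := by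
    rw [mdot_addr, mdot_e0]
  have hbp : GF.mdot b (x + bas 0 c) = GF.mdot b x + b 0 * c := by
    rw [mdot_addr, mdot_e0]
  rw [hap, hbp]
  linarith

/-- in the forward region the boundary is reached only at `b·x ~ R²` -/
lemma small_cv {a b : V} (ha : IsNull a) (hb : IsNull b) (hab : GF.mdot a b = 1) {c : ℝ}
    (hc : 0 ≤ c) {u1 : ℝ} (hu1 : 0 ≤ u1) {ε : ℝ} (hε : 0 < ε) : ∃ τ > 0, ∀ᶠ R : ℝ in atTop,
      b 0 * c / R ^ 2 ≤ τ / 4 ∧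
      ∀ x ∈ Gc c, 0 ≤ x 0 → GF.mdot a x ≤ u1 → GF.mdot b x / R ^ 2 ≤ τ → ‖cv a b R x‖ < ε := by
  have ha0 : 0 < a 0 := ha.2
  have hb0 : 0 < b 0 := hb.2
  obtain ⟨C0, hC0⟩ : ∃ C0, C0 = (a 0 + b 0) ^ 2 / 2 := ⟨_, rfl⟩
  have hC0p : 0 < C0 := by rw [hC0]; positivity
  obtain ⟨U, hU⟩ : ∃ U, U = u1 + a 0 * c := ⟨_, rfl⟩
  have hU0 : 0 ≤ U := by rw [hU]; positivity
  obtain ⟨C1, hC1⟩ : ∃ C1, C1 = 4 * C0 * U + 1 := ⟨_, rfl⟩
  have hC1p : 0 < C1 := by rw [hC1]; positivity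
  obtain ⟨τ, hτ0, hτ1, hτ2⟩ : ∃ τ > 0, τ * ‖a‖ ≤ ε / 4 ∧ C1 * τ ≤ (ε / 4) ^ 2 := by
    refine ⟨min (ε / (4 * (‖a‖ + 1))) ((ε / 4) ^ 2 / C1), lt_min (by positivity) (by positivity),
      ?_, ?_⟩
    · have h1 : min (ε / (4 * (‖a‖ + 1))) ((ε / 4) ^ 2 / C1) ≤ ε / (4 * (‖a‖ + 1)) :=
        min_le_left _ _
      refine (mul_le_mul_of_nonneg_right h1 (norm_nonneg a)).trans ?_
      rw [div_mul_eq_mul_div, div_le_div_iff₀ (by positivity) (by positivity)]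
      nlinarith [norm_nonneg a]
    · have h1 : min (ε / (4 * (‖a‖ + 1))) ((ε / 4) ^ 2 / C1) ≤ (ε / 4) ^ 2 / C1 :=
        min_le_right _ _
      refine (mul_le_mul_of_nonneg_left h1 hC1p.le).trans ?_
      rw [mul_div_cancel₀ _ hC1p.ne']
  have hlim1 : Tendsto (fun R : ℝ => b 0 * c / R ^ 2) atTop (𝓝 0) :=
    tendsto_const_nhds.div_atTop (tendsto_pow_atTop two_ne_zero)
  have hlim2 : Tendsto (fun R : ℝ => ‖prj a b (bas 0 c)‖ / R) atTop (𝓝 0) :=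
    tendsto_const_nhds.div_atTop tendsto_id
  refine ⟨τ, hτ0, ?_⟩
  filter_upwards [eventually_gt_atTop (0:ℝ),
    hlim1.eventually (ge_mem_nhds (by positivity : (0:ℝ) < τ / 4)),
    hlim2.eventually (gt_mem_nhds (by positivity : (0:ℝ) < ε / 4))] with R hR hR1 hR2
  refine ⟨hR1, fun x hx hx0 hxa hxb => ?_⟩
  have hxb' : -(b 0 * c) ≤ GF.mdot b x := gc_pos hb hc hx hx0
  have hxa' : -(a 0 * c) ≤ GF.mdot a x := gc_pos ha hc hx hx0
  have hR2' : (0:ℝ) < R ^ 2 := by positivity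
  have hxbR : GF.mdot b x ≤ τ * R ^ 2 := by
    rwa [div_le_iff₀ hR2'] at hxb
  have hcR : b 0 * c ≤ τ / 4 * R ^ 2 := by
    rwa [div_le_iff₀ hR2'] at hR1
  have hτR : 0 < τ * R ^ 2 := mul_pos hτ0 hR2'
  have hPp := prj_bound ha hb hab hc hx hx0
  rw [← hC0] at hPp
  have h1 : (GF.mdot a x + a 0 * c) * (GF.mdot b x + b 0 * c) ≤ U * (2 * (τ * R ^ 2)) := by
    apply mul_le_mul
    · rw [hU]; linarith
    · linarith
    · linarith
    · exact hU0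
  have h2 : C0 * (2 * (GF.mdot a x + a 0 * c) * (GF.mdot b x + b 0 * c)) ≤ C1 * (τ * R ^ 2) := by
    have h3 := mul_le_mul_of_nonneg_left h1 (by positivity : 0 ≤ 2 * C0)
    have h4 : C1 * (τ * R ^ 2) = 2 * C0 * (U * (2 * (τ * R ^ 2))) + τ * R ^ 2 := by
      rw [hC1]
      ring
    linarith
  have hPp2 : ‖prj a b (x + bas 0 c)‖ ≤ ε / 4 * R := by
    have h3 : ‖prj a b (x + bas 0 c)‖ ^ 2 ≤ (ε / 4 * R) ^ 2 := by
      have h4 := mul_le_mul_of_nonneg_right hτ2 hR2'.le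
      calc _ ≤ _ := hPp
        _ ≤ _ := h2
        _ = C1 * τ * R ^ 2 := by ring
        _ ≤ _ := h4
        _ = _ := by ring
    exact le_of_sq_le_sq h3 (by positivity)
  have hx1 : prj a b x = prj a b (x + bas 0 c) - prj a b (bas 0 c) := by
    rw [prj_add]
    abel
  have h3 : ‖(GF.mdot b x / R ^ 2) • a‖ ≤ ε / 4 := by
    rw [norm_smul, Real.norm_eq_abs]
    have h4 : |GF.mdot b x / R ^ 2| ≤ τ := by
      rw [abs_le]
      refine ⟨?_, hxb⟩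
      rw [le_div_iff₀ hR2']
      linarith
    exact (mul_le_mul_of_nonneg_right h4 (norm_nonneg a)).trans hτ1
  have h4 : ‖R⁻¹ • prj a b x‖ ≤ ε / 4 + ‖prj a b (bas 0 c)‖ / R := by
    rw [norm_smul, norm_inv, Real.norm_eq_abs, abs_of_pos hR, hx1]
    have h5 : ‖prj a b (x + bas 0 c) - prj a b (bas 0 c)‖ ≤ ε / 4 * R + ‖prj a b (bas 0 c)‖ :=
      (norm_sub_le _ _).trans (by linarith)
    rw [inv_mul_le_iff₀ hR, mul_add, mul_div_cancel₀ _ hR.ne']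
    linarith
  rw [cv_prj]
  have h5 := norm_add_le ((GF.mdot b x / R ^ 2) • a) (R⁻¹ • prj a b x)
  linarith

end Vale.Agent.P352.H846

end
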