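import Mathlib.Analysis.Distribution.SchwartzSpace.Fourier
import Mathlib.Analysis.SpecialFunctions.SmoothTransition

/-!
# A one dimensional lemma
-/

set_option linter.all false

noncomputable section

open MeasureTheory Filter Topology Set Real Complex
open scoped ContDiff ComplexConjugate SchwartzMap FourierTransform

namespace Vale.Agent.P352.H846

/-- an even cutoff function -/
def ph (p : ℝ) : ℝ := Real.smoothTransition (2 - p ^ 2)

lemma ph_cd : ContDiff ℝ ∞ ph := by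
  unfold ph
  exact Real.smoothTransition.contDiff.comp (by fun_prop)

lemma ph_neg (p : ℝ) : ph (-p) = ph p := by
  unfold ph
  congr 1
  ring

lemma ph_one {p : ℝ} (h : p ^ 2 ≤ 1) : ph p = 1 :=
  Real.smoothTransition.one_of_one_le (by linarith)

lemma ph_zero {p : ℝ} (h : 2 ≤ p ^ 2) : ph p = 0 :=
  Real.smoothTransition.zero_of_nonpos (by linarith)

lemma ph_cs : HasCompactSupport ph := by
  refine HasCompactSupport.intro (isCompact_Icc (a := (-2:ℝ)) (b := 2)) fun p hp => ?_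
  apply ph_zero
  by_contra h
  apply hp
  constructor <;> nlinarith

/-- the quotient -/
def gq (q : ℝ) : ℝ := if q ≤ 0 then 0 else (ph q - ph (4 * q)) / q

lemma gq_zero {q : ℝ} (h : q < 1 / 4) : gq q = 0 := by
  unfold gq
  split_ifs with h0
  · rfl
  · have h1 : 0 < q := not_le.1 h0
    rw [ph_one (by nlinarith), ph_one (by nlinarith), sub_self, zero_div]

lemma gq_zero' {q : ℝ} (h : 2 < q) : gq q = 0 := by
  unfold gq
  rw [if_neg (by linarith), ph_zero (by nlinarith), ph_zero (by nlinarith), sub_self, zero_div]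

lemma gq_mul (q : ℝ) (h : 0 < q) : q * gq q = ph q - ph (4 * q) := by
  unfold gq
  rw [if_neg (by linarith)]
  field_simp

lemma gq_cd : ContDiff ℝ ∞ gq := by
  rw [contDiff_iff_contDiffAt]
  intro q
  rcases lt_or_ge q (1 / 4) with h | h
  · have h1 : gq =ᶠ[𝓝 q] fun _ => (0 : ℝ) := by
      filter_upwards [gt_mem_nhds h] with s hs
      exact gq_zero hs
    exact contDiffAt_const.congr_of_eventuallyEq h1
  · have hq : 0 < q := by linarith
    have h1 : gq =ᶠ[𝓝 q] fun s => (ph s - ph (4 * s)) / s := by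
      filter_upwards [lt_mem_nhds hq] with s hs
      unfold gq
      rw [if_neg (by have : 0 < s := hs; linarith)]
    refine ContDiffAt.congr_of_eventuallyEq ?_ h1
    have h2 : ContDiff ℝ ∞ fun s : ℝ => ph s - ph (4 * s) :=
      ph_cd.sub (ph_cd.comp (by fun_prop))
    exact h2.contDiffAt.div contDiffAt_id hq.ne'

lemma gq_cs : HasCompactSupport gq := by
  refine HasCompactSupport.intro (isCompact_Icc (a := (1/4:ℝ)) (b := 2)) fun p hp => ?_
  by_contra h
  apply hp
  constructor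
  · by_contra h1
    exact h (gq_zero (not_le.1 h1))
  · by_contra h1
    exact h (gq_zero' (not_le.1 h1))

lemma gq_nonneg (q : ℝ) : 0 ≤ gq q := by
  unfold gq
  split_ifs with h0
  · rfl
  · have h1 : 0 < q := not_le.1 h0
    refine div_nonneg ?_ h1.le
    rw [sub_nonneg]
    apply Real.smoothTransition.monotone
    nlinarith

lemma gq_int_pos : 0 < ∫ q, gq q := by
  refine (gq_cd.continuous).integral_pos_of_hasCompactSupport_nonneg_nonzero gq_cs gq_nonneg
    (x := 1) ?_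
  unfold gq
  rw [if_neg (by norm_num), ph_one (by norm_num), ph_zero (by norm_num)]
  norm_num

/-- complex Schwartz functions -/
def cS (c : ℂ) (s : ℝ) {g : ℝ → ℝ} (hg : ContDiff ℝ ∞ g) (hs : HasCompactSupport g) (h0 : s ≠ 0) :
    𝓢(ℝ, ℂ) :=
  HasCompactSupport.toSchwartzMap (f := fun p : ℝ => c * (g (s * p) : ℂ))
    (by
      have h1 : HasCompactSupport fun p : ℝ => g (s * p) :=
        hs.comp_homeomorph (Homeomorph.mulLeft₀ s h0)
      have h2 : HasCompactSupport fun p : ℝ => (g (s * p) : ℂ) :=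
        h1.comp_left (g := fun r : ℝ => (r : ℂ)) (by simp)
      exact h2.mul_left)
    (by
      have h1 : ContDiff ℝ ∞ fun p : ℝ => g (s * p) := hg.comp (by fun_prop)
      exact contDiff_const.mul (Complex.ofRealCLM.contDiff.comp h1))

lemma cS_apply (c : ℂ) (s : ℝ) {g : ℝ → ℝ} (hg : ContDiff ℝ ∞ g) (hs : HasCompactSupport g)
    (h0 : s ≠ 0) (p : ℝ) : cS c s hg hs h0 p = c * (g (s * p) : ℂ) := rfl

/-- the twofold Fourier transform -/
lemma ff (A : 𝓢(ℝ, ℂ)) (p : ℝ) : 𝓕 (𝓕 A) p = A (-p) := by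
  have h1 : 𝓕⁻ (𝓕 A) = A := FourierTransform.fourierInv_fourier_eq A
  have h2 : (𝓕⁻ (𝓕 A) : 𝓢(ℝ, ℂ)) (-p) = A (-p) := by rw [h1]
  rw [← h2, SchwartzMap.fourierInv_coe, Real.fourierInv_eq_fourier_neg, neg_neg]
  rfl

/-- the value at the origin -/
lemma f0 (A : 𝓢(ℝ, ℂ)) : 𝓕 A 0 = ∫ p, A p := by
  rw [SchwartzMap.fourier_coe, Real.fourier_real_eq_integral_exp_smul]
  refine integral_congr_ae (Eventually.of_forall fun v => ?_)
  simp

/-- multiplication by the variable -/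
lemma exists_mulx (A : 𝓢(ℝ, ℂ)) (hA : HasCompactSupport (A : ℝ → ℂ)) :
    ∃ B : 𝓢(ℝ, ℂ), ∀ p, B p = (-2 * π * I * p) * A p := by
  have h1 : HasCompactSupport fun p : ℝ => (-2 * π * I * p : ℂ) * A p := hA.mul_left
  have h2 : ContDiff ℝ ∞ fun p : ℝ => (-2 * π * I * p : ℂ) * A p :=
    (contDiff_const.mul Complex.ofRealCLM.contDiff).mul (A.smooth ⊤)
  exact ⟨h1.toSchwartzMap h2, fun p => rfl⟩

/-- the derivative of the Fourier transform -/
lemma df (A B : 𝓢(ℝ, ℂ)) (hB : ∀ p, B p = (-2 * π * I * p) * A p) (u : ℝ) :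
    deriv (fun u => (𝓕 A : 𝓢(ℝ, ℂ)) u) u = (𝓕 B : 𝓢(ℝ, ℂ)) u := by
  have i1 : Integrable (A : ℝ → ℂ) := A.integrable
  have i2 : Integrable fun x : ℝ => x • A x := by
    have h := A.integrable_pow_mul (volume : Measure ℝ) 1
    rw [← integrable_norm_iff]
    · refine h.congr (Eventually.of_forall fun x => ?_)
      simp [norm_smul]
    · exact (continuous_id.smul A.continuous).aestronglyMeasurable
  have h1 := congrFun (Real.deriv_fourier i1 i2) u
  have h2 : (B : ℝ → ℂ) = fun x : ℝ ↦ (-2 * π * I * x : ℂ) • A x := funext fun x => by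
    rw [hB, smul_eq_mul]
  show deriv (𝓕 (A : ℝ → ℂ)) u = 𝓕 (B : ℝ → ℂ) u
  rw [h2, ← h1]

/-- **The one dimensional lemma.** -/
theorem exists_one : ∃ h α ρ : 𝓢(ℝ, ℂ),
    (∀ u, deriv α u + deriv ρ u = h u - (1 / 4 : ℂ) * h (u / 4)) ∧
    (∀ p, 𝓕 α p ≠ 0 → 1 / 4 ≤ p ∧ p ≤ 2) ∧ (∀ p, 𝓕 ρ p ≠ 0 → -2 ≤ p ∧ p ≤ -(1 / 4)) ∧
    α 0 ≠ 0 ∧ ρ 0 = -α 0 := by
  obtain ⟨c, hc⟩ : ∃ c : ℂ, c = (2 * π * I)⁻¹ := ⟨_, rfl⟩
  have hpi : (2 * π * I : ℂ) ≠ 0 := by simp [Real.pi_ne_zero]
  have hc0 : c ≠ 0 := by rw [hc]; exact inv_ne_zero hpi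
  obtain ⟨A, hA⟩ : ∃ A, A = cS c (-1) gq_cd gq_cs (by norm_num) := ⟨_, rfl⟩
  obtain ⟨R, hR⟩ : ∃ R, R = cS (-c) 1 gq_cd gq_cs one_ne_zero := ⟨_, rfl⟩
  obtain ⟨H, hH⟩ : ∃ H, H = cS 1 1 ph_cd ph_cs one_ne_zero := ⟨_, rfl⟩
  obtain ⟨H4, hH4⟩ : ∃ H4, H4 = cS 1 4 ph_cd ph_cs four_ne_zero := ⟨_, rfl⟩
  have hAp : ∀ p, A p = c * (gq (-p) : ℂ) := fun p => by rw [hA, cS_apply, neg_one_mul]
  have hRp : ∀ p, R p = -c * (gq p : ℂ) := fun p => by rw [hR, cS_apply, one_mul]
  have hHp : ∀ p, H p = (ph p : ℂ) := fun p => by rw [hH, cS_apply, one_mul, one_mul]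
  have hH4p : ∀ p, H4 p = (ph (4 * p) : ℂ) := fun p => by rw [hH4, cS_apply, one_mul]
  have hint : ∫ q, (gq q : ℂ) = ((∫ q, gq q : ℝ) : ℂ) := integral_complex_ofReal
  have hA0 : 𝓕 A 0 = c * ((∫ q, gq q : ℝ) : ℂ) := by
    rw [f0]
    simp only [hAp]
    rw [integral_const_mul]
    have h1 := integral_neg_eq_self (μ := (volume : Measure ℝ)) fun q : ℝ => (gq q : ℂ)
    rw [h1, hint]
  have hR0 : 𝓕 R 0 = -c * ((∫ q, gq q : ℝ) : ℂ) := by
    rw [f0]
    simp only [hRp]
    rw [integral_const_mul, hint]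
  refine ⟨𝓕 H, 𝓕 A, 𝓕 R, fun u => ?_, fun p hp => ?_, fun p hp => ?_, ?_, ?_⟩
  · -- the products with the variable
    obtain ⟨A1, hA1⟩ := exists_mulx A (by
      have h1 : HasCompactSupport fun p : ℝ => c * (gq (-1 * p) : ℂ) := by
        have h2 : HasCompactSupport fun p : ℝ => gq (-1 * p) :=
          gq_cs.comp_homeomorph (Homeomorph.mulLeft₀ (-1 : ℝ) (by norm_num))
        exact (h2.comp_left (g := fun r : ℝ => (r : ℂ)) (by simp)).mul_left
      rw [hA]
      exact h1)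
    obtain ⟨R1, hR1⟩ := exists_mulx R (by
      have h1 : HasCompactSupport fun p : ℝ => -c * (gq (1 * p) : ℂ) := by
        have h2 : HasCompactSupport fun p : ℝ => gq (1 * p) :=
          gq_cs.comp_homeomorph (Homeomorph.mulLeft₀ (1 : ℝ) (by norm_num))
        exact (h2.comp_left (g := fun r : ℝ => (r : ℂ)) (by simp)).mul_left
      rw [hR]
      exact h1)
    rw [df A A1 hA1, df R R1 hR1]
    have hsum : A1 + R1 = H - H4 := by
      ext p
      show A1 p + R1 p = H p - H4 p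
      rw [hA1, hR1, hAp, hRp, hHp, hH4p]
      have hc2 : (2 * π * I : ℂ) * c = 1 := by
        rw [hc]
        exact mul_inv_cancel₀ hpi
      rcases lt_trichotomy p 0 with h | h | h
      · rw [gq_zero (q := p) (by linarith)]
        have h1 := gq_mul (-p) (by linarith)
        rw [ph_neg, show 4 * -p = -(4 * p) by ring, ph_neg] at h1
        have h2 : ((-p * gq (-p) : ℝ) : ℂ) = ((ph p - ph (4 * p) : ℝ) : ℂ) := by rw [h1]
        push_cast at h2
        rw [← h2]
        simp only [Complex.ofReal_zero, mul_zero, add_zero]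
        linear_combination (-(p : ℂ) * (gq (-p) : ℂ)) * hc2
      · rw [h]
        simp
      · rw [gq_zero (q := -p) (by linarith)]
        have h1 := gq_mul p h
        have h2 : ((p * gq p : ℝ) : ℂ) = ((ph p - ph (4 * p) : ℝ) : ℂ) := by rw [h1]
        push_cast at h2
        rw [← h2]
        simp only [Complex.ofReal_zero, mul_zero, zero_add]
        linear_combination ((p : ℂ) * (gq p : ℂ)) * hc2
    have h1 : 𝓕 A1 + 𝓕 R1 = 𝓕 H - 𝓕 H4 := by
      rw [← FourierTransform.fourier_add, hsum, sub_eq_add_neg, FourierTransform.fourier_add,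
        ← neg_one_smul ℂ H4, FourierTransform.fourier_smul, neg_one_smul, ← sub_eq_add_neg]
    have h2 := congrArg (fun f : 𝓢(ℝ, ℂ) => f u) h1
    have h3 : 𝓕 A1 u + 𝓕 R1 u = 𝓕 H u - 𝓕 H4 u := h2
    rw [h3]
    congr 1
    rw [SchwartzMap.fourier_coe, SchwartzMap.fourier_coe, Real.fourier_real_eq_integral_exp_smul,
      Real.fourier_real_eq_integral_exp_smul]
    have h4 := Measure.integral_comp_mul_left
      (fun w : ℝ => Complex.exp (↑(-2 * π * w * (u / 4)) * Complex.I) • H w) 4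
    have e4 : (fun v : ℝ => Complex.exp (↑(-2 * π * (4 * v) * (u / 4)) * Complex.I) • H (4 * v)) =
        fun v : ℝ => Complex.exp (↑(-2 * π * v * u) * Complex.I) • H4 v := by
      funext v
      rw [hHp, hH4p]
      congr 4
      ring
    rw [e4] at h4
    rw [h4, abs_of_pos (by norm_num : (0:ℝ) < 4⁻¹)]
    rw [← Complex.coe_smul, smul_eq_mul]
    norm_num
  · rw [ff, hAp, neg_neg] at hp
    have h1 : gq p ≠ 0 := fun h => hp (by rw [h]; simp)
    constructor
    · by_contra h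
      exact h1 (gq_zero (not_le.1 h))
    · by_contra h
      exact h1 (gq_zero' (not_le.1 h))
  · rw [ff, hRp] at hp
    have h1 : gq (-p) ≠ 0 := fun h => hp (by rw [h]; simp)
    constructor
    · by_contra h
      exact h1 (gq_zero' (by linarith [not_le.1 h]))
    · by_contra h
      exact h1 (gq_zero (by linarith [not_le.1 h]))
  · rw [hA0]
    refine mul_ne_zero hc0 ?_
    exact_mod_cast gq_int_pos.ne'
  · rw [hA0, hR0]
    ring

end Vale.Agent.P352.H846

end
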