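import Vale.Agent.P352.H15.NPDefs

open MeasureTheory Filter Topology

namespace Vale.Agent.P352.H846

open GF H755 H15

noncomputable section

variable {D : Type*} [NormedAddCommGroup D] [InnerProductSpace ℂ D]

/-- The trace of `T`, integrated over null hyperplanes, vanishes on the vectors that the stress
tensor creates from the vacuum below these hyperplanes. -/
def TrVac (Q : Theory D) (T : Ix → Ix → Fld D) : Prop :=
  ∀ a b κ ψ m n f w, Adm a b κ ψ → IsTest f → HasCompactSupport f →
    (∀ s, ψ s ≠ 0 → ∀ x ∈ tsupport f, mdot a x < s) → Tendsto (fun R => inner ℂ w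
    (tr T (fun x => (ctf a b κ 0 ψ R x : ℂ)) (T m n f Q.vac))) atTop (𝓝 0)

end

end Vale.Agent.P352.H846
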