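import Vale.Agent.P352.H746.Nec2

/-!
# Second differences of the second moments
-/

set_option linter.all false

noncomputable section

open MeasureTheory Filter Topology
open scoped ComplexConjugate

namespace Vale.Agent.P352.H846

open GF (Ix V Fn Fld bas eta o bar pd)
open H755 H496 H15 H246
open H746 (kh kv)

variable {D : Type*} [NormedAddCommGroup D] [InnerProductSpace ℂ D]
variable {Q : GF.Theory D} {T : Ix → Ix → GF.Fld D} {J : Ix → GF.Fld D}
  {A : (V → V) → D → D} {K : V → D → D}

/-- the second difference of the deviation -/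
def Sd (Q : GF.Theory D) (A : (V → V) → D → D) (K : V → D → D) (a b : V) (u t : ℝ) (v : D) : D :=
  kv Q A K a b v (u + t) + kv Q A K a b v (u - t) - (2 : ℂ) • kv Q A K a b v u

lemma inner_Sd (a b : V) (u t : ℝ) (v w : D) : inner ℂ w (Sd Q A K a b u t v) =
    kh Q A K a b v w (u + t) + kh Q A K a b v w (u - t) - 2 * kh Q A K a b v w u := by
  unfold Sd
  rw [inner_sub_right, inner_add_right, inner_smul_right, H746.kh_kv, H746.kh_kv, H746.kh_kv]

lemma Sd_symm (hT : Q.IsStress T) (h : NullCharges Q T J A K) {a b : V} (ha : IsNull a)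
    (u t : ℝ) (v w : D) : inner ℂ (Sd Q A K a b u t v) w = inner ℂ v (Sd Q A K a b u t w) := by
  rw [← inner_conj_symm, inner_Sd, inner_Sd, H746.kh_conj hT h ha w v, H746.kh_conj hT h ha w v,
    H746.kh_conj hT h ha w v]
  simp only [map_sub, map_add, map_mul, Complex.conj_conj]
  have h2 : (starRingEnd ℂ) (2 : ℂ) = 2 := by
    have := Complex.conj_ofReal 2
    simpa using this
  rw [h2]

end Vale.Agent.P352.H846

end
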