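import Vale.Agent.P352.H846.TvB
import Vale.Agent.P352.H246.SdLoc

/-!
# The on-shell constraint from its values on the vectors created by the stress tensor, end
-/

set_option linter.all false

noncomputable section

open MeasureTheory SchwartzMap Filter Topology
open scoped SchwartzMap ComplexConjugate ContDiff

namespace Vale.Agent.P352.H846

open GF (Ix V Fn Fld bas eta o bar pd)
open H755 H496 H15 H246

variable {D : Type*} [NormedAddCommGroup D] [InnerProductSpace ℂ D]
variable {Q : GF.Theory D} {T : Ix → Ix → GF.Fld D} {J : Ix → GF.Fld D}
  {A : (V → V) → D → D} {K : V → D → D}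

/-- **It is enough to test the on-shell constraint on the vectors that the stress tensor creates
from the vacuum below the null hyperplanes.** -/
theorem trVac_iff (hT : Q.IsStress T) (hJ : IsVirial Q T J) (h : NullCharges Q T J A K) :
    TrVac Q T ↔ H121.TrNull T :=
  ⟨fun hv => trNull_of_sd hT hJ h fun a b ha hb hab u t m n f hf hc hs v =>
    sd_T ha hb hab hT hJ h hv hf hc hs v,
  fun ht a b κ ψ m n f w hA _ _ _ => ht a b κ 0 ψ (T m n f Q.vac) w hA⟩

end Vale.Agent.P352.H846

end
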