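import Vale.Agent.P352.H846.Tn2
import Vale.Agent.P352.H148.Cop
import Vale.Agent.P352.H246.CopLoc
import Vale.Agent.P352.H746.Iff2

/-!
# The null-plane charge of the virial current vanishes
-/

set_option linter.all false

noncomputable section

open MeasureTheory SchwartzMap Filter Topology
open scoped SchwartzMap ComplexConjugate

namespace Vale.Agent.P352.H846

open GF (Ix V Fn Sch ev pd bar sim bas o IsLor eta)
open H246 H496 H755 H15 H121

variable {D : Type*} [NormedAddCommGroup D] [InnerProductSpace ℂ D]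
variable {Q : GF.Theory D} {T : Ix → Ix → GF.Fld D} {J : Ix → GF.Fld D}
  {A : (V → V) → D → D} {K : V → D → D} {k : ℕ}

/-- the charge commutes with the tensor fields -/
lemma cop_ten (hT : Q.IsStress T) (hJ : IsVirial Q T J) (h : NullCharges Q T J A K)
    (ht : TrNull T) {a b : V} (ha : IsNull a) (hb : IsNull b) (hab : GF.mdot a b = 1)
    (key : ∀ p q Y, YB Q a p q Y → ∀ F, Cop Q A K a b (Y F) = 0) {d : ℝ}
    {Φ : (Fin k → Ix) → GF.Fld D} (hΦ : IsTen Q k d Φ) (μ : Fin k → Ix) {f : Fn}
    (hf : GF.IsTest f) (v : D) : Cop Q A K a b (Φ μ f v) = Φ μ f (Cop Q A K a b v) := by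
  have hsym : ∀ v w, inner ℂ (Cop Q A K a b v) w = inner ℂ v (Cop Q A K a b w) :=
    fun v w => H148.Cop_symm hT hJ h ht ha hb hab v w
  obtain ⟨B, hB, hBB⟩ := Q.adj (Φ μ) (Q.bose_fld _ (hΦ.1 μ))
  have hadj : ∀ f v w, GF.IsTest f → inner ℂ (B f v) w = inner ℂ v (Φ μ (bar f) w) := by
    intro f v w hf
    have h1 := hBB (bar f) w v (isTest_bar hf)
    rw [bar_bar] at h1
    rw [← inner_conj_symm, ← h1, inner_conj_symm]
  have h0 : ∀ f, GF.IsTest f → HasCompactSupport f → Cop Q A K a b (Φ μ f Q.vac) = 0 :=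
    fun f hf _ => ten_zero ha.1 hsym
      (fun s L r x v hs hr hL hLa => H148.Cop_cov hT hJ h ht ha hb hab hs hr hL hLa x v)
      key hΦ μ hf
  refine ext_inner_left ℂ fun w => ?_
  have h2 := cop_loc ha hb hab hT hJ h ht hsym hB (hΦ.1 μ) hadj h0 (isTest_bar hf) w
  rw [← hsym, ← inner_conj_symm, hBB f v _ hf, ← h2, ← hsym, ← hBB f _ w hf, inner_conj_symm]

/-- **The null-plane charge of the virial current vanishes**, if the tensor fields of real
dimension generate the theory and the null-plane integrals of the trace of `T` vanish. -/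
theorem charge_zero_of (hT : Q.IsStress T) (hJ : IsVirial Q T J) (h : NullCharges Q T J A K)
    (ht : TrNull T) (hg : TGen Q) {a b : V} (ha : IsNull a) (hb : IsNull b)
    (hab : GF.mdot a b = 1)
    (key : ∀ p q Y, YB Q a p q Y → ∀ F, Cop Q A K a b (Y F) = 0) (v : D) :
    Cop Q A K a b v = 0 := by
  have hsym : ∀ v w, inner ℂ (Cop Q A K a b v) w = inner ℂ v (Cop Q A K a b w) :=
    fun v w => H148.Cop_symm hT hJ h ht ha hb hab v w
  let S : Submodule ℂ D :=
    { carrier := {v | Cop Q A K a b v = 0}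
      add_mem' := fun {x y} hx hy => by
        show Cop Q A K a b (x + y) = 0
        have hx' : Cop Q A K a b x = 0 := hx
        have hy' : Cop Q A K a b y = 0 := hy
        rw [sy_add hsym, hx', hy', add_zero]
      zero_mem' := sy_zero hsym
      smul_mem' := fun c x hx => by
        show Cop Q A K a b (c • x) = 0
        have hx' : Cop Q A K a b x = 0 := hx
        rw [sy_smul hsym, hx', smul_zero] }
  have hd : Dense (S : Set D) := by
    refine hg S ?_ fun k d Φ μ f v hΦ hf hv => ?_
    · exact Cop_vac hT h ha b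
    · show Cop Q A K a b (Φ μ f v) = 0
      have hv' : Cop Q A K a b v = 0 := hv
      rw [cop_ten hT hJ h ht ha hb hab key hΦ μ hf, hv']
      have hm := Q.bose_fld _ (hΦ.1 μ)
      obtain ⟨F, rfl⟩ := exists_fl hf
      have := Vale.Agent.P352.fld_smul hm F 0 0
      simpa using this
  refine hd.eq_zero_of_inner_left ℂ fun u hu => ?_
  have hu' : Cop Q A K a b u = 0 := hu
  rw [hsym, hu', inner_zero_right]

/-- without the charge of the virial current the second moments are conformal generators -/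
theorem confGen_of_zero (hT : Q.IsStress T) (hJ : IsVirial Q T J) (h : NullCharges Q T J A K)
    (ht : TrNull T) (h0 : ∀ a b, IsNull a → IsNull b → GF.mdot a b = 1 → ∀ v,
      Cop Q A K a b v = 0) : ConfGen Q A K := by
  refine H755.confGen hT hJ h ⟨ht, fun a b κ y ψ v w hA => ?_⟩
  have hψ := hA.2.2.2.2.2
  have hA' : Adm a b κ (fun u => ψ (u + GF.mdot a y)) := adm_of hA (tst_sh hψ _)
  have l := lim0 (J := J) hT hJ h ht hA' (Q.U 1 GF.one (-y) v) (Q.U 1 GF.one (-y) w)
  rw [h0 a b hA.1 hA.2.1 hA.2.2.1, inner_zero_right, mul_zero] at l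
  refine l.congr' ?_
  filter_upwards [eventually_ge_atTop (1:ℝ)] with R hR
  rw [Ja_shift hJ hA' y hR]
  simp only [sub_add_cancel]
  rfl

/-- **The on-shell dilaton constraint for the trace alone is equivalent to conformal symmetry.** -/
theorem confGen_iff_tr_of (hT : Q.IsStress T) (hJ : IsVirial Q T J) (h : NullCharges Q T J A K)
    (hg : TGen Q) (key : TrNull T → ∀ a b, IsNull a → IsNull b → GF.mdot a b = 1 →
      ∀ p q Y, YB Q a p q Y → ∀ F, Cop Q A K a b (Y F) = 0) :
    ConfGen Q A K ↔ TrNull T :=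
  ⟨fun hc => ((H746.confGen_iff hT hJ h).1 hc).tr, fun ht => confGen_of_zero hT hJ h ht
    fun a b ha hb hab v => charge_zero_of hT hJ h ht hg ha hb hab (key ht a b ha hb hab) v⟩

end Vale.Agent.P352.H846

end
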