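import Vale.Agent.P352.H496.Box
import Vale.Agent.P352.H496.Base
import Vale.Agent.P352.H731.SymVol

/-!
# The light cone is a null set for the spectral measure of `a·J`
-/

set_option linter.all false

noncomputable section

open MeasureTheory SchwartzMap Complex Filter Topology
open scoped SchwartzMap ComplexConjugate ENNReal

namespace Vale.Agent.P352.H846

open GF (Ix V Fn Sch ev pd bar sim one bas o)
open H246 H496 H731

lemma ray_boost (t : ℝ) : sim 1 (mBoost t) 0 (H496.nu (-1)) = Real.exp (-t) • H496.nu (-1) := by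
  have h := Real.cosh_sub_sinh t
  funext n
  fin_cases n <;> simp [sim, H496.nu, mBoost, Fin.sum_univ_four] <;> linarith

lemma ray_null2 (b : ℝ) : sim 1 (mNull b) 0 (H496.nu (-1)) = (1 : ℝ) • H496.nu (-1) := by
  funext n
  fin_cases n <;> simp [sim, H496.nu, mNull, Fin.sum_univ_four] <;> ring

lemma ray_null3 (b : ℝ) : sim 1 (mNull' b) 0 (H496.nu (-1)) = (1 : ℝ) • H496.nu (-1) := by
  funext n
  fin_cases n <;> simp [sim, H496.nu, mNull', Fin.sum_univ_four] <;> ring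

lemma boost_0 (t : ℝ) (p : Mink) :
    (lam (mBoost t) p) 0 = Real.cosh t * p 0 + Real.sinh t * p 1 := by
  simp [Fin.sum_univ_four, mBoost]
  ring

section

variable {μ : Measure Mink} (hfin : IsFiniteMeasureOnCompacts μ)
  (h : ∀ (σ r : ℝ) (L : Ix → V), 0 < σ → 0 < r → GF.IsLor L →
    sim 1 L 0 (H496.nu (-1)) = r • H496.nu (-1) →
    μ.map (fun p => σ⁻¹ • lam L p) = ENNReal.ofReal (σ ^ 6 * r ^ 2) • μ)

include h

lemma ray_inv2 (b : ℝ) : μ.map (lam (mNull b)) = μ := by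
  have h1 := h 1 1 (mNull b) one_pos one_pos (isLor_null b) (ray_null2 b)
  simpa using h1

lemma ray_inv3 (b : ℝ) : μ.map (lam (mNull' b)) = μ := by
  have h1 := h 1 1 (mNull' b) one_pos one_pos (isLor_null' b) (ray_null3 b)
  simpa using h1

/-- scaling with `p0 + p1` fixed -/
lemma ray_scale (A B : ℝ) : μ (Bx A B 0 0 0 2) = 16 * μ (Bx A B 0 0 0 1) := by
  have h1 := h 2 (Real.exp (-Real.log 2)) (mBoost (Real.log 2)) two_pos (Real.exp_pos _)
    (isLor_boost _) (ray_boost _)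
  have hm : Measurable fun p : Mink => (2:ℝ)⁻¹ • lam (mBoost (Real.log 2)) p := by
    have hc := continuous_lam (mBoost (Real.log 2))
    fun_prop
  have h2 := congrArg (fun ν : Measure Mink => ν (Bx A B 0 0 0 1)) h1
  rw [Measure.map_apply hm (measurableSet_Bx _ _ _ _ _ _), Measure.smul_apply, smul_eq_mul] at h2
  have h3 : (2:ℝ) ^ 6 * Real.exp (-Real.log 2) ^ 2 = 16 := by
    rw [Real.exp_neg, Real.exp_log two_pos]
    norm_num
  rw [h3] at h2
  have h4 : ENNReal.ofReal 16 = 16 := by norm_num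
  rw [h4] at h2
  rw [← h2]
  congr 1
  ext p
  have e0 : ((2:ℝ)⁻¹ • lam (mBoost (Real.log 2)) p) 0 + ((2:ℝ)⁻¹ • lam (mBoost (Real.log 2)) p) 1
      = p 0 + p 1 := by
    have h5 := bo_x (Real.log 2) p
    rw [Real.exp_log two_pos] at h5
    simp only [PiLp.smul_apply, smul_eq_mul]
    linarith
  have e2 : ((2:ℝ)⁻¹ • lam (mBoost (Real.log 2)) p) 2 = p 2 / 2 := by
    rw [PiLp.smul_apply, smul_eq_mul, bo_2]
    ring
  have e3 : ((2:ℝ)⁻¹ • lam (mBoost (Real.log 2)) p) 3 = p 3 / 2 := by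
    rw [PiLp.smul_apply, smul_eq_mul, bo_3]
    ring
  have em : mass2 ((2:ℝ)⁻¹ • lam (mBoost (Real.log 2)) p) = mass2 p / 4 := by
    rw [mass2_smul, bo_m]
    ring
  simp only [H496.Bx, Set.mem_preimage, Set.mem_ofPred_eq, e0, e2, e3, em]
  constructor
  · rintro ⟨⟨h1, h2⟩, h3, ⟨h4, h5⟩, h6, h7⟩
    exact ⟨⟨by linarith, by linarith⟩, h3, ⟨by linarith, by linarith⟩, by linarith, by linarith⟩
  · rintro ⟨⟨h1, h2⟩, h3, ⟨h4, h5⟩, h6, h7⟩
    exact ⟨⟨by linarith, by linarith⟩, h3, ⟨by linarith, by linarith⟩, by linarith, by linarith⟩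

lemma ray_cover (A B : ℝ) (hA : 0 < A) : μ (Bx A B 0 0 0 2) ≤ 4 * μ (Bx A B 0 0 0 1) := by
  have hsub : Bx A B 0 0 0 2 ⊆ (Bx A B 0 0 0 1 ∪ Bx A B 0 0 1 1) ∪
      (Bx A B 0 1 0 1 ∪ Bx A B 0 1 1 1) := by
    rintro p ⟨h0, h1, ⟨h2, h3⟩, h4, h5⟩
    have hp : 0 < p 0 + p 1 := by linarith [h1.1]
    rcases lt_or_ge (p 2) (1 * (p 0 + p 1)) with c2 | c2
    · left
      rcases lt_or_ge (p 3) (1 * (p 0 + p 1)) with c3 | c3
      · left
        exact ⟨h0, h1, ⟨h2, by linarith⟩, h4, by linarith⟩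
      · right
        exact ⟨h0, h1, ⟨h2, by linarith⟩, c3, by linarith⟩
    · right
      rcases lt_or_ge (p 3) (1 * (p 0 + p 1)) with c3 | c3
      · left
        exact ⟨h0, h1, ⟨c2, by linarith⟩, h4, by linarith⟩
      · right
        exact ⟨h0, h1, ⟨c2, by linarith⟩, c3, by linarith⟩
  refine (measure_mono hsub).trans ?_
  refine (measure_union_le _ _).trans ?_
  refine (add_le_add (measure_union_le _ _) (measure_union_le _ _)).trans ?_
  rw [Bx_eq (ray_inv2 h) (ray_inv3 h) A B 0 0 1 1, Bx_eq (ray_inv2 h) (ray_inv3 h) A B 0 1 0 1,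
    Bx_eq (ray_inv2 h) (ray_inv3 h) A B 0 1 1 1]
  apply le_of_eq
  ring

include hfin

lemma ray_fin (A B : ℝ) (hA : 0 < A) : μ (Bx A B 0 0 0 1) ≠ ∞ := by
  have hsub : Bx A B 0 0 0 1 ⊆ Metric.closedBall (0 : Mink) (4 * (|B| + (B ^ 2 + B ^ 2) / A + 1)) := by
    rintro p ⟨⟨h0, h0'⟩, ⟨h1, h1'⟩, ⟨h2, h3⟩, h4, h5⟩
    have hp : 0 < p 0 + p 1 := by linarith
    have hm := mass2_eq p
    have hB : 0 < B := by linarith
    have a2 : |p 2| ≤ B := abs_le.2 ⟨by nlinarith, by linarith⟩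
    have a3 : |p 3| ≤ B := abs_le.2 ⟨by nlinarith, by linarith⟩
    have s2 : p 2 ^ 2 ≤ B ^ 2 := sq_le_sq' (by linarith [(abs_le.1 a2).1]) (abs_le.1 a2).2
    have s3 : p 3 ^ 2 ≤ B ^ 2 := sq_le_sq' (by linarith [(abs_le.1 a3).1]) (abs_le.1 a3).2
    have hv : (p 0 - p 1) * (p 0 + p 1) = p 2 ^ 2 + p 3 ^ 2 := by linarith
    have hv0 : 0 ≤ p 0 - p 1 := by
      by_contra hcon
      push Not at hcon
      nlinarith [sq_nonneg (p 2), sq_nonneg (p 3)]
    have hv1 : p 0 - p 1 ≤ (B ^ 2 + B ^ 2) / A := by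
      rw [le_div_iff₀ hA]
      calc (p 0 - p 1) * A ≤ (p 0 - p 1) * (p 0 + p 1) := mul_le_mul_of_nonneg_left h1 hv0
        _ ≤ _ := by linarith
    set E : ℝ := |B| + (B ^ 2 + B ^ 2) / A + 1 with hE
    have hBB : |B| = B := abs_of_pos hB
    have hdiv : 0 ≤ (B ^ 2 + B ^ 2) / A := by positivity
    have b0 : |p 0| ≤ E := abs_le.2 ⟨by linarith, by linarith⟩
    have b1 : |p 1| ≤ E := abs_le.2 ⟨by linarith, by linarith⟩
    have b2 : |p 2| ≤ E := by linarith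
    have b3 : |p 3| ≤ E := by linarith
    rw [mem_closedBall_zero_iff]
    have hE0 : 0 ≤ E := by linarith [abs_nonneg (p 0)]
    have hn : ‖p‖ ^ 2 ≤ (4 * E) ^ 2 := by
      rw [EuclideanSpace.norm_sq_eq, Fin.sum_univ_four]
      simp only [Real.norm_eq_abs, sq_abs]
      have q : ∀ x : ℝ, |x| ≤ E → x ^ 2 ≤ E ^ 2 := fun x hx =>
        sq_le_sq' (by linarith [(abs_le.1 hx).1]) (abs_le.1 hx).2
      nlinarith [q _ b0, q _ b1, q _ b2, q _ b3, sq_nonneg E]
    exact le_of_sq_le_sq hn (by positivity)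
  exact ((measure_mono hsub).trans_lt (isCompact_closedBall _ _).measure_lt_top).ne

lemma ray_box (A B x y : ℝ) (hA : 0 < A) : μ (Bx A B 0 x y 1) = 0 := by
  rw [Bx_eq (ray_inv2 h) (ray_inv3 h)]
  have h1 := ray_scale h A B
  have h2 := ray_cover h A B hA
  have h3 := ray_fin hfin h A B hA
  rw [h1] at h2
  by_contra hne
  have h4 : (16 : ℝ≥0∞) ≤ 4 := (ENNReal.mul_le_mul_iff_left hne h3).1 h2
  norm_num at h4

lemma ray_zero (n : ℝ) :
    μ {p : Mink | p 0 + p 1 = 0 ∧ p 2 = 0 ∧ p 3 = 0 ∧ 0 ≤ p 0 ∧ p 0 ≤ n} = 0 := by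
  set R : Set Mink := {p : Mink | p 0 + p 1 = 0 ∧ p 2 = 0 ∧ p 3 = 0 ∧ 0 ≤ p 0 ∧ p 0 ≤ n} with hR
  have m0 : Measurable fun p : Mink => p 0 + p 1 := by fun_prop
  have m00 : Measurable fun p : Mink => p 0 := by fun_prop
  have m2 : Measurable fun p : Mink => p 2 := by fun_prop
  have m3 : Measurable fun p : Mink => p 3 := by fun_prop
  have hRm : MeasurableSet R :=
    (measurableSet_eq_fun m0 measurable_const).inter
      ((measurableSet_eq_fun m2 measurable_const).inter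
        ((measurableSet_eq_fun m3 measurable_const).inter
          ((measurableSet_le measurable_const m00).inter (measurableSet_le m00 measurable_const))))
  have h1 := h 2 (Real.exp (-(-Real.log 2))) (mBoost (-Real.log 2)) two_pos (Real.exp_pos _)
    (isLor_boost _) (ray_boost _)
  have hm : Measurable fun p : Mink => (2:ℝ)⁻¹ • lam (mBoost (-Real.log 2)) p := by
    have hc := continuous_lam (mBoost (-Real.log 2))
    fun_prop
  have h2 := congrArg (fun ν : Measure Mink => ν R) h1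
  rw [Measure.map_apply hm hRm, Measure.smul_apply, smul_eq_mul] at h2
  have h3 : (2:ℝ) ^ 6 * Real.exp (-(-Real.log 2)) ^ 2 = 256 := by
    rw [neg_neg, Real.exp_log two_pos]
    norm_num
  rw [h3] at h2
  have h4 : ENNReal.ofReal 256 = 256 := by norm_num
  rw [h4] at h2
  have hpre : (fun p : Mink => (2:ℝ)⁻¹ • lam (mBoost (-Real.log 2)) p) ⁻¹' R = R := by
    ext p
    have e0 : ((2:ℝ)⁻¹ • lam (mBoost (-Real.log 2)) p) 0 +
        ((2:ℝ)⁻¹ • lam (mBoost (-Real.log 2)) p) 1 = (p 0 + p 1) / 4 := by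
      have h5 := bo_x (-Real.log 2) p
      rw [Real.exp_neg, Real.exp_log two_pos] at h5
      simp only [PiLp.smul_apply, smul_eq_mul]
      linarith
    have e2 : ((2:ℝ)⁻¹ • lam (mBoost (-Real.log 2)) p) 2 = p 2 / 2 := by
      rw [PiLp.smul_apply, smul_eq_mul, bo_2]
      ring
    have e3 : ((2:ℝ)⁻¹ • lam (mBoost (-Real.log 2)) p) 3 = p 3 / 2 := by
      rw [PiLp.smul_apply, smul_eq_mul, bo_3]
      ring
    have e00 : p 0 + p 1 = 0 → ((2:ℝ)⁻¹ • lam (mBoost (-Real.log 2)) p) 0 = p 0 := by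
      intro hp
      have h6 : p 1 = - p 0 := by linarith
      have h7 := Real.cosh_sub_sinh (-Real.log 2)
      rw [neg_neg, Real.exp_log two_pos] at h7
      have h8 : (lam (mBoost (-Real.log 2)) p) 0 =
          Real.cosh (-Real.log 2) * p 0 + Real.sinh (-Real.log 2) * p 1 := boost_0 _ p
      rw [PiLp.smul_apply, smul_eq_mul, h8, h6]
      linear_combination (p 0) / 2 * h7
    simp only [hR, Set.mem_preimage, Set.mem_setOf_eq, e0, e2, e3]
    constructor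
    · rintro ⟨a, b, c, d⟩
      have a' : p 0 + p 1 = 0 := by linarith
      rw [e00 a'] at d
      exact ⟨a', by linarith, by linarith, d⟩
    · rintro ⟨a, b, c, d⟩
      rw [e00 a]
      exact ⟨by linarith, by linarith, by linarith, d⟩
  rw [hpre] at h2
  have hRf : μ R ≠ ∞ := by
    have hsub : R ⊆ Metric.closedBall (0 : Mink) (2 * |n|) := by
      rintro p ⟨a, b, c, d, e⟩
      rw [mem_closedBall_zero_iff]
      have hn : ‖p‖ ^ 2 ≤ (2 * |n|) ^ 2 := by
        rw [EuclideanSpace.norm_sq_eq, Fin.sum_univ_four]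
        simp only [Real.norm_eq_abs, sq_abs]
        have h6 : p 1 = - p 0 := by linarith
        have h7 : |n| = n := abs_of_nonneg (d.trans e)
        rw [h6, b, c, h7]
        nlinarith
      exact le_of_sq_le_sq hn (by positivity)
    exact ((measure_mono hsub).trans_lt (isCompact_closedBall _ _).measure_lt_top).ne
  by_contra hne
  have h5 : (256 : ℝ≥0∞) * μ R ≤ 1 * μ R := by rw [one_mul, ← h2]
  have h6 : (256 : ℝ≥0∞) ≤ 1 := (ENNReal.mul_le_mul_iff_left hne hRf).1 h5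
  norm_num at h6

end

theorem ray_null {μ : Measure Mink} (hfin : IsFiniteMeasureOnCompacts μ)
    (hcone : ∀ᵐ p ∂μ, p ∈ fwdCone)
    (h : ∀ (σ r : ℝ) (L : Ix → V), 0 < σ → 0 < r → GF.IsLor L →
      sim 1 L 0 (H496.nu (-1)) = r • H496.nu (-1) →
      μ.map (fun p => σ⁻¹ • lam L p) = ENNReal.ofReal (σ ^ 6 * r ^ 2) • μ) :
    ∀ᵐ p ∂μ, 0 < mass2 p := by
  have h1 : ∀ᵐ p ∂μ, ∀ q : ℕ × ℤ × ℤ, p ∉ Bx (1 / ((q.1 : ℝ) + 1)) (q.1 + 1) 0 q.2.1 q.2.2 1 := by
    rw [ae_all_iff]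
    intro q
    have h2 := ray_box hfin h (1 / ((q.1 : ℝ) + 1)) (q.1 + 1) q.2.1 q.2.2 (by positivity)
    exact measure_eq_zero_iff_ae_notMem.1 h2
  have h2 : ∀ᵐ p ∂μ, ∀ n : ℕ,
      p ∉ {p : Mink | p 0 + p 1 = 0 ∧ p 2 = 0 ∧ p 3 = 0 ∧ 0 ≤ p 0 ∧ p 0 ≤ n} := by
    rw [ae_all_iff]
    intro n
    exact measure_eq_zero_iff_ae_notMem.1 (ray_zero hfin h n)
  filter_upwards [hcone, h1, h2] with p hp hp1 hp2
  have hm0 : 0 ≤ mass2 p := hp.2
  refine lt_of_le_of_ne hm0 fun hm => ?_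
  have h3 := abs_le.1 (abs_le_of_mem_fwdCone hp)
  have h4 : 0 ≤ p 0 + p 1 := by linarith [h3.1]
  have hme := mass2_eq p
  rcases h4.eq_or_lt with h5 | h5
  · obtain ⟨n, hn⟩ := exists_nat_ge (p 0)
    apply hp2 n
    rw [← h5, mul_zero] at hme
    have h6 : p 2 ^ 2 + p 3 ^ 2 ≤ 0 := by linarith
    have h7 : p 2 = 0 := by
      have : p 2 ^ 2 = 0 := le_antisymm (by linarith [sq_nonneg (p 3)]) (sq_nonneg _)
      exact pow_eq_zero_iff two_ne_zero |>.1 this
    have h8 : p 3 = 0 := by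
      have : p 3 ^ 2 = 0 := le_antisymm (by linarith [sq_nonneg (p 2)]) (sq_nonneg _)
      exact pow_eq_zero_iff two_ne_zero |>.1 this
    exact ⟨h5.symm, h7, h8, hp.1, hn⟩
  · obtain ⟨n, hn⟩ := exists_nat_gt (max (p 0 + p 1) (1 / (p 0 + p 1)))
    apply hp1 (n, ⌊p 2 / (p 0 + p 1)⌋, ⌊p 3 / (p 0 + p 1)⌋)
    have n1 : p 0 + p 1 < n := (le_max_left _ _).trans_lt hn
    have n2 : 1 / (p 0 + p 1) < n := (le_max_right _ _).trans_lt hn
    have f2 := Int.floor_le (p 2 / (p 0 + p 1))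
    have g2 := Int.lt_floor_add_one (p 2 / (p 0 + p 1))
    have f3 := Int.floor_le (p 3 / (p 0 + p 1))
    have g3 := Int.lt_floor_add_one (p 3 / (p 0 + p 1))
    rw [le_div_iff₀ h5] at f2 f3
    rw [div_lt_iff₀ h5] at g2 g3
    refine ⟨⟨hm0, hm.symm.le⟩, ⟨?_, by linarith⟩, ⟨f2, g2⟩, f3, g3⟩
    rw [div_le_iff₀ (by positivity)]
    rw [div_lt_iff₀ h5] at n2
    nlinarith

end Vale.Agent.P352.H846

end
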