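import Mathlib
import Vale.Agent.P352.H467.Tf

/-!
# Primitives along a direction

For a smooth compactly supported `H : ℝ⁴ → ℂ` and a direction `e ≠ 0` the function
`y ↦ -∫_{t > 0} H (y + t e) dt` is smooth and its derivative in the direction `e` is `H`.
-/

open MeasureTheory Set Filter Topology
open scoped ContDiff Convolution

namespace Vale.Agent.P352.H846

open H467

/-- The measure on the ray `-t e`, `t > 0`. -/
noncomputable def rayM (e : M4) : Measure M4 :=
  Measure.map (fun t : ℝ => -(t • e)) (volume.restrict (Ioi 0))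

theorem rayM_lf {e : M4} (he : e ≠ 0) : IsLocallyFiniteMeasure (rayM e) := by
  have hmeas : Measurable (fun t : ℝ => -(t • e)) := by fun_prop
  refine ⟨fun x => ⟨Metric.ball x 1, Metric.ball_mem_nhds x one_pos, ?_⟩⟩
  rw [rayM, Measure.map_apply hmeas measurableSet_ball]
  refine lt_of_le_of_lt (Measure.restrict_apply_le _ _) ?_
  have hsub : (fun t : ℝ => -(t • e)) ⁻¹' Metric.ball x 1 ⊆
      Metric.ball (0:ℝ) ((1 + ‖x‖) / ‖e‖) := by
    intro t ht
    have hpos : 0 < ‖e‖ := norm_pos_iff.mpr he
    simp only [mem_preimage, Metric.mem_ball, dist_eq_norm] at ht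
    rw [Metric.mem_ball, dist_zero_right, lt_div_iff₀ hpos]
    have h1 : ‖t • e‖ ≤ ‖-(t • e) - x‖ + ‖x‖ := by
      have h2 : -(t • e) = (-(t • e) - x) + x := by abel
      calc ‖t • e‖ = ‖-(t • e)‖ := (norm_neg _).symm
        _ = ‖(-(t • e) - x) + x‖ := by rw [← h2]
        _ ≤ _ := norm_add_le _ _
    rw [norm_smul] at h1
    linarith
  exact lt_of_le_of_lt (measure_mono hsub) measure_ball_lt_top

theorem ray_conv (e : M4) {H : M4 → ℂ} (hH : Continuous H) :
    (fun y => ∫ t in Ioi (0:ℝ), H (y + t • e)) =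
      ((fun _ : M4 => (1:ℂ)) ⋆[ContinuousLinearMap.mul ℝ ℂ, rayM e] H) := by
  have hmeas : Measurable (fun t : ℝ => -(t • e)) := by fun_prop
  ext y
  rw [convolution_def, rayM, integral_map hmeas.aemeasurable]
  · simp
  · apply Continuous.aestronglyMeasurable
    fun_prop

theorem contDiff_ray {e : M4} (he : e ≠ 0) {H : M4 → ℂ} (hH : ContDiff ℝ ∞ H)
    (hc : HasCompactSupport H) :
    ContDiff ℝ ∞ (fun y => ∫ t in Ioi (0:ℝ), H (y + t • e)) := by
  have := rayM_lf he
  rw [ray_conv e hH.continuous]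
  exact hc.contDiff_convolution_right _ (locallyIntegrable_const _) hH

/-- The restriction to a line has compact support. -/
theorem line_cs {e : M4} (he : e ≠ 0) {H : M4 → ℂ} (hc : HasCompactSupport H) (y : M4) :
    HasCompactSupport (fun t : ℝ => H (y + t • e)) := by
  obtain ⟨R, hR⟩ := hc.isCompact.isBounded.subset_closedBall (0 : M4)
  have hpos : 0 < ‖e‖ := norm_pos_iff.mpr he
  refine HasCompactSupport.intro (isCompact_closedBall (0:ℝ) ((R + ‖y‖) / ‖e‖)) ?_
  intro t ht
  by_contra hne
  apply ht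
  have h1 : y + t • e ∈ Metric.closedBall (0 : M4) R :=
    hR (subset_tsupport _ (Function.mem_support.mpr hne))
  rw [mem_closedBall_zero_iff] at h1 ⊢
  rw [le_div_iff₀ hpos]
  have h2 : ‖t • e‖ ≤ ‖y + t • e‖ + ‖y‖ := by
    have h3 : t • e = (y + t • e) - y := by abel
    calc ‖t • e‖ = ‖(y + t • e) - y‖ := by rw [← h3]
      _ ≤ _ := norm_sub_le _ _
  rw [norm_smul] at h2
  linarith

theorem fderiv_ray {e : M4} (he : e ≠ 0) {H : M4 → ℂ} (hH : ContDiff ℝ ∞ H)
    (hc : HasCompactSupport H) (y : M4) :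
    fderiv ℝ (fun y => ∫ t in Ioi (0:ℝ), H (y + t • e)) y e = - H y := by
  have hd : DifferentiableAt ℝ (fun y => ∫ t in Ioi (0:ℝ), H (y + t • e)) y :=
    ((contDiff_ray he hH hc).differentiable (by simp)).differentiableAt
  set h : ℝ → ℂ := fun t => H (y + t • e) with hh
  have hhc : Continuous h := by
    have := hH.continuous
    fun_prop
  have hcs : HasCompactSupport h := line_cs he hc y
  have hint : Integrable h := hhc.integrable_of_hasCompactSupport hcs
  -- the line derivative
  have h1 : HasDerivAt (fun s : ℝ => ∫ t in Ioi (0:ℝ), H ((y + s • e) + t • e))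
      (fderiv ℝ (fun y => ∫ t in Ioi (0:ℝ), H (y + t • e)) y e) 0 := by
    have h2 : HasDerivAt (fun s : ℝ => y + s • e) e 0 := by
      simpa using ((hasDerivAt_id (0:ℝ)).smul_const e).const_add y
    have h3 : HasFDerivAt (fun y => ∫ t in Ioi (0:ℝ), H (y + t • e))
        (fderiv ℝ (fun y => ∫ t in Ioi (0:ℝ), H (y + t • e)) y) (y + (0:ℝ) • e) := by
      simpa using hd.hasFDerivAt
    exact h3.comp_hasDerivAt (0:ℝ) h2
  have h4 : (fun s : ℝ => ∫ t in Ioi (0:ℝ), H ((y + s • e) + t • e)) =
      fun s => (∫ t in Ioi (0:ℝ), h t) - ∫ t in (0:ℝ)..s, h t := by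
    ext s
    have h5 : (∫ t in Ioi (0:ℝ), H ((y + s • e) + t • e)) = ∫ t in Ioi s, h t := by
      have h6 : ∀ t : ℝ, H ((y + s • e) + t • e) = h (t + s) := by
        intro t
        simp only [hh]
        rw [add_smul, add_comm (t • e), add_assoc]
      simp_rw [h6]
      rw [← integral_indicator measurableSet_Ioi, ← integral_indicator measurableSet_Ioi,
        ← integral_add_right_eq_self (μ := volume) ((Ioi s).indicator h) s]
      apply integral_congr_ae
      refine Eventually.of_forall fun t => ?_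
      by_cases ht : 0 < t
      · have h7 : s < t + s := by linarith
        simp [indicator, ht]
      · have h7 : ¬ s < t + s := by linarith
        simp [indicator, ht]
    rw [h5]
    have h7 := intervalIntegral.integral_Ioi_sub_Ioi' (hint.integrableOn (s := Ioi (0:ℝ))) (hint.integrableOn (s := Ioi s))
    rw [← h7]
    ring
  rw [h4] at h1
  have h8 : HasDerivAt (fun s : ℝ => (∫ t in Ioi (0:ℝ), h t) - ∫ t in (0:ℝ)..s, h t) (- h 0) 0 := by
    have := (intervalIntegral.integral_hasDerivAt_right (hint.intervalIntegrable (a := 0) (b := 0))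
      (hhc.stronglyMeasurableAtFilter _ _) hhc.continuousAt).const_sub (∫ t in Ioi (0:ℝ), h t)
    simpa using this
  have h9 := h1.unique h8
  rw [h9]
  simp [hh]

end Vale.Agent.P352.H846
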