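import Mathlib
import Vale.Agent.P352.H467.Tf
import Vale.Agent.P352.H846.Prim

/-!
# A functional annihilating `y₃ ∂₃ G` and supported in `y₃ ≥ 0` vanishes on `y₃ > 0`

Row (Q) of the classification of the two point functions.
-/

open MeasureTheory Set Filter Topology
open scoped ContDiff

namespace Vale.Agent.P352.H846

open H467

theorem Tf.mono {O O' : Set M4} {G : M4 → ℂ} (h : Tf O G) (hO : O ⊆ O') : Tf O' G :=
  ⟨h.1, h.2.1, h.2.2.trans hO⟩

theorem Tf.univ {O : Set M4} {G : M4 → ℂ} (h : Tf O G) : Tf Set.univ G :=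
  Tf.mono h (Set.subset_univ _)

/-- Coordinates are smooth. -/
theorem contDiff_coord (i : Fin 4) : ContDiff ℝ ∞ (fun y : M4 => (y i : ℂ)) := by
  have h : ContDiff ℝ ∞ (fun y : M4 => y i) := by fun_prop
  exact Complex.ofRealCLM.contDiff.comp h

/-- Division by a coordinate of a function supported where it is positive. -/
theorem tf_div {E : M4 → ℂ} (hE : Tf {y | 0 < y 3} E) :
    Tf {y | 0 < y 3} (fun y => E y / (y 3 : ℂ)) := by
  obtain ⟨h1, h2, h3⟩ := hE
  have hsub : tsupport (fun y : M4 => E y / (y 3 : ℂ)) ⊆ tsupport E := by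
    apply closure_mono
    intro y hy
    rw [Function.mem_support] at hy ⊢
    intro h0
    apply hy
    simp [h0]
  refine ⟨?_, ?_, hsub.trans h3⟩
  · rw [contDiff_iff_contDiffAt]
    intro y
    by_cases hy : y ∈ tsupport E
    · have hy3 : (0:ℝ) < y 3 := h3 hy
      have hne : ((y 3 : ℝ) : ℂ) ≠ 0 := Complex.ofReal_ne_zero.mpr hy3.ne'
      have h4 : ContDiffAt ℝ ∞ (fun y : M4 => ((y 3 : ℝ) : ℂ)⁻¹) y :=
        (contDiff_coord 3).contDiffAt.inv hne
      have h5 := h1.contDiffAt.mul h4
      simpa [div_eq_mul_inv] using h5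
    · have h0 : (fun y : M4 => E y / (y 3 : ℂ)) =ᶠ[𝓝 y] fun _ => 0 := by
        have h4 : E =ᶠ[𝓝 y] 0 := notMem_tsupport_iff_eventuallyEq.mp hy
        filter_upwards [h4] with z hz
        simp [hz]
      exact contDiffAt_const.congr_of_eventuallyEq h0
  · exact h2.mono' (subset_closure.trans hsub)

/-- The fourth basis vector. -/
noncomputable def e3 : M4 := EuclideanSpace.single 3 1

theorem e3_ne : e3 ≠ 0 := by
  intro h
  have : e3 3 = 0 := by rw [h]; rfl
  simp [e3] at this

theorem e3_norm : ‖e3‖ = 1 := by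
  simp [e3]

/-- **Row (Q).** -/
theorem vanish_pos (L : (M4 → ℂ) → ℂ)
    (hadd : ∀ G G', Tf Set.univ G → Tf Set.univ G' → L (G + G') = L G + L G')
    (hsmul : ∀ (c : ℂ) G, Tf Set.univ G → L (c • G) = c * L G)
    (hder : ∀ G, Tf Set.univ G →
      L (fun y => (y 3 : ℂ) * fderiv ℝ G y (EuclideanSpace.single 3 1)) = 0)
    (hneg : ∀ G, Tf {y | y 3 < 0} G → L G = 0) :
    ∀ G, Tf {y | 0 < y 3} G → L G = 0 := by
  have _ := hsmul
  intro E hE
  obtain ⟨hH1, hH2, hH3⟩ := tf_div hE
  set H : M4 → ℂ := fun y => E y / (y 3 : ℂ) with hHdef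
  set A : M4 → ℂ := fun y => - ∫ t in Ioi (0:ℝ), H (y + t • e3) with hA
  have hAs : ContDiff ℝ ∞ A := (contDiff_ray e3_ne hH1 hH2).neg
  have hAd : ∀ y, fderiv ℝ A y e3 = H y := by
    intro y
    have h1 := fderiv_ray e3_ne hH1 hH2 y
    have h2 : fderiv ℝ A y = - fderiv ℝ (fun y => ∫ t in Ioi (0:ℝ), H (y + t • e3)) y := by
      rw [hA]
      exact fderiv_fun_neg
    rw [h2]
    simp [h1]
  set χ : M4 → ℂ := fun y => (Real.smoothTransition (y 3 + 2) : ℂ) with hχ
  have hχs : ContDiff ℝ ∞ χ := by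
    have h : ContDiff ℝ ∞ (fun y : M4 => Real.smoothTransition (y 3 + 2)) :=
      Real.smoothTransition.contDiff.comp (by fun_prop)
    exact Complex.ofRealCLM.contDiff.comp h
  set G : M4 → ℂ := fun y => χ y * A y with hG
  have hGs : ContDiff ℝ ∞ G := hχs.mul hAs
  obtain ⟨R, hR⟩ := hH2.isCompact.isBounded.subset_closedBall (0 : M4)
  have hGc : HasCompactSupport G := by
    refine HasCompactSupport.intro (isCompact_closedBall (0:M4) (2 * R + 2)) ?_
    intro y hy
    by_contra hne
    apply hy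
    have hχ0 : χ y ≠ 0 := fun h => hne (by simp [hG, h])
    have hA0 : A y ≠ 0 := fun h => hne (by simp [hG, h])
    have hy3 : -2 < y 3 := by
      by_contra hcon
      apply hχ0
      simp only [hχ]
      rw [Real.smoothTransition.zero_of_nonpos (by linarith)]
      simp
    have hex : ∃ t ∈ Ioi (0:ℝ), H (y + t • e3) ≠ 0 := by
      by_contra hcon
      push Not at hcon
      apply hA0
      simp only [hA]
      rw [setIntegral_congr_fun measurableSet_Ioi (fun t ht => hcon t ht)]
      simp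
    obtain ⟨t, ht, htH⟩ := hex
    have h1 : y + t • e3 ∈ Metric.closedBall (0 : M4) R :=
      hR (subset_tsupport _ (Function.mem_support.mpr htH))
    rw [mem_closedBall_zero_iff] at h1 ⊢
    have h2 : |(y + t • e3) 3| ≤ R := by
      have := PiLp.norm_apply_le (y + t • e3) 3
      exact (by simpa using this : |(y + t • e3) 3| ≤ ‖y + t • e3‖).trans h1
    have h3 : (y + t • e3) 3 = y 3 + t := by simp [e3]
    rw [h3] at h2
    have h4 : y 3 + t ≤ R := (le_abs_self _).trans h2
    have h5 : ‖y‖ ≤ ‖y + t • e3‖ + ‖t • e3‖ := by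
      have h6 : y = (y + t • e3) - t • e3 := by abel
      calc ‖y‖ = ‖(y + t • e3) - t • e3‖ := by rw [← h6]
        _ ≤ _ := norm_sub_le _ _
    have ht' : (0:ℝ) < t := ht
    rw [norm_smul, e3_norm, Real.norm_eq_abs, abs_of_pos ht'] at h5
    linarith
  have hGt : Tf Set.univ G := ⟨hGs, hGc, Set.subset_univ _⟩
  set W : M4 → ℂ := fun y => (y 3 : ℂ) * fderiv ℝ G y e3 - E y with hW
  have hWs : ContDiff ℝ ∞ W := by
    have h1 : ContDiff ℝ ∞ (fun y => fderiv ℝ G y e3) := by
      have h2 : ContDiff ℝ ∞ (fun y => fderiv ℝ G y) := hGs.fderiv_right (by simp)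
      exact h2.clm_apply contDiff_const
    exact ((contDiff_coord 3).mul h1).sub hE.1
  have hWc : HasCompactSupport W := by
    have h1 : HasCompactSupport (fun y => fderiv ℝ G y e3) := hGc.fderiv_apply (𝕜 := ℝ) e3
    have h2 : HasCompactSupport (fun y : M4 => (y 3 : ℂ) * fderiv ℝ G y e3) := h1.mul_left
    exact h2.sub hE.2.1
  have hW0 : ∀ y : M4, -1 < y 3 → W y = 0 := by
    intro y hy
    have h1 : G =ᶠ[𝓝 y] A := by
      have h2 : ∀ᶠ z : M4 in 𝓝 y, -1 < z 3 := by
        have hc : Continuous (fun z : M4 => z 3) := by fun_prop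
        exact hc.continuousAt.eventually_const_lt hy
      filter_upwards [h2] with z hz
      simp only [hG, hχ]
      rw [Real.smoothTransition.one_of_one_le (by linarith)]
      simp
    simp only [hW]
    rw [h1.fderiv_eq, hAd]
    simp only [hHdef]
    by_cases h0 : (y 3 : ℂ) = 0
    · have hE0 : E y = 0 := by
        by_contra hne
        have h3 : 0 < y 3 := hE.2.2 (subset_tsupport _ (Function.mem_support.mpr hne))
        have h4 : y 3 = 0 := by exact_mod_cast h0
        linarith
      simp [hE0]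
    · field_simp
      simp
  have hWt : Tf {y | y 3 < 0} W := by
    refine ⟨hWs, hWc, ?_⟩
    have h1 : tsupport W ⊆ {y : M4 | y 3 ≤ -1} := by
      apply closure_minimal
      · intro y hy
        by_contra hcon
        exact hy (hW0 y (by simpa using hcon))
      · have hc : Continuous (fun z : M4 => z 3) := by fun_prop
        exact isClosed_le hc continuous_const
    intro y hy
    have h2 : y 3 ≤ -1 := h1 hy
    show y 3 < 0
    linarith
  have h1 : L (fun y => (y 3 : ℂ) * fderiv ℝ G y (EuclideanSpace.single 3 1)) = 0 := hder G hGt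
  have h2 : (fun y : M4 => (y 3 : ℂ) * fderiv ℝ G y (EuclideanSpace.single 3 1)) = E + W := by
    ext y
    simp only [hW, Pi.add_apply, e3]
    ring
  rw [h2, hadd E W (Tf.univ hE) (Tf.univ hWt), hneg W hWt, add_zero] at h1
  exact h1

end Vale.Agent.P352.H846
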