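import Vale.Agent.P352.H846.CutTst

/-!
# The light front Ward identity for compactly supported sources
-/

set_option linter.all false

noncomputable section

open MeasureTheory Filter Topology Set
open scoped ContDiff ComplexConjugate

namespace Vale.Agent.P352.H846

open GF (Ix V Fn bas eta)
open H246 H496 H755
open UniformSpace (Completion)

lemma dr_congr {f g : V → ℝ} {x : V} (h : f =ᶠ[𝓝 x] g) (m : Ix) : dr m f x = dr m g x := by
  unfold dr
  apply Filter.EventuallyEq.deriv_eq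
  have hc : ContinuousAt (fun t : ℝ => x + bas m t) 0 := by
    have h1 : (fun t : ℝ => x + bas m t) = fun t : ℝ => x + t • bas m 1 := by
      funext t
      rw [bas_smul]
    rw [h1]
    fun_prop
  have h0 : x + bas m 0 = x := by
    rw [bas_smul]
    simp
  have h2 : Tendsto (fun t : ℝ => x + bas m t) (𝓝 0) (𝓝 x) := by
    have := hc.tendsto
    rwa [h0] at this
  exact h2.eventually h

/-- the action of the cut off vector field on a fixed source -/
theorem act_cut (a b : V) {κ : V → ℝ} (hκ1 : ∀ᶠ x in 𝓝 (0 : V), κ x = 1) (Y : V → V) (ψ : V → ℝ)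
    {h : Ix → V → ℝ} (hh : ∀ i, Tst (h i)) :
    ∀ᶠ R in atTop, act (fun x => cut a b κ R x • Y x) (fun x => cut a b κ R x * ψ x) h =
      act Y ψ h := by
  have hb : Bornology.IsBounded (⋃ i, tsupport (h i)) :=
    Bornology.isBounded_iUnion.2 fun i => (hh i).2.isCompact.isBounded
  obtain ⟨ρ, hρ⟩ := hb.subset_ball (0 : V)
  filter_upwards [cut_one a b hκ1 ρ] with R hR
  funext c x
  by_cases hx : x ∈ Metric.ball (0 : V) ρ
  · have hn : ∀ᶠ y in 𝓝 x, cut a b κ R y = 1 := by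
      filter_upwards [Metric.isOpen_ball.mem_nhds hx] with y hy using hR y hy
    have hY : ∀ i, (fun y => (cut a b κ R y • Y y) i) =ᶠ[𝓝 x] fun y => Y y i := by
      intro i
      filter_upwards [hn] with y hy
      rw [hy, one_smul]
    have hYh : ∀ i, (fun y => (cut a b κ R y • Y y) i * h c y) =ᶠ[𝓝 x] fun y => Y y i * h c y := by
      intro i
      filter_upwards [hY i] with y hy
      rw [hy]
    unfold act
    beta_reduce
    rw [hR x hx, one_mul]
    congr 1
    refine Finset.sum_congr rfl fun i _ => ?_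
    rw [dr_congr (hYh i), dr_congr (hY c) i, dr_congr (hY i) c]
  · have hnot : ∀ i, x ∉ tsupport (h i) := fun i hi => hx (hρ (mem_iUnion.2 ⟨i, hi⟩))
    have h0 : ∀ i, h i x = 0 := fun i => image_eq_zero_of_notMem_tsupport (hnot i)
    have hz : ∀ (Z : V → V) i, (fun y => Z y i * h c y) =ᶠ[𝓝 x] fun _ => 0 := by
      intro Z i
      have h1 : h c =ᶠ[𝓝 x] 0 := notMem_tsupport_iff_eventuallyEq.mp (hnot c)
      filter_upwards [h1] with y hy
      rw [hy]
      simp
    unfold act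
    simp only [h0]
    have e1 := fun i => dr_congr (hz (fun x => cut a b κ R x • Y x) i) i
    have e2 := fun i => dr_congr (hz Y i) i
    simp only [e1, e2]
    simp

/-- components of the cut off vector field -/
theorem tst_Y {a b : V} (haa : GF.mdot a a = 0) (hbb : GF.mdot b b = 0) (hab : GF.mdot a b = 1)
    {κ : V → ℝ} (hκ : Tst κ) {Φ : ℝ → ℝ} (hΦ : Tst Φ) {R : ℝ} (hR : 1 ≤ R) (i : Ix) :
    Tst fun x => (cut a b κ R x • Yf a b Φ x) i := by
  have h0 := cut_tst haa hbb hab hκ hΦ hR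
  have hΦ1 : Tst (deriv Φ) := ⟨(contDiff_infty_iff_deriv.1 hΦ.1).2, hΦ.2.deriv⟩
  have hΦ2 : Tst (deriv (deriv Φ)) := ⟨(contDiff_infty_iff_deriv.1 hΦ1.1).2, hΦ1.2.deriv⟩
  have h1 := cut_tst haa hbb hab hκ hΦ1 hR
  have h2 := cut_tst haa hbb hab hκ hΦ2 hR
  have ca := contDiff_mdot a
  have cb := contDiff_mdot b
  have cw : ContDiff ℝ ∞ fun x : V => x - GF.mdot a x • b - GF.mdot b x • a :=
    (contDiff_id.sub (ca.smul contDiff_const)).sub (cb.smul contDiff_const)
  have cwi : ∀ j, ContDiff ℝ ∞ fun x : V => (x - GF.mdot a x • b - GF.mdot b x • a) j := by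
    intro j
    exact (contDiff_pi.1 cw) j
  have cww : ContDiff ℝ ∞ fun x : V => GF.mdot (x - GF.mdot a x • b - GF.mdot b x • a)
      (x - GF.mdot a x • b - GF.mdot b x • a) := by
    unfold GF.mdot at cwi ⊢
    exact ContDiff.sum fun j _ => (contDiff_const.mul (cwi j)).mul (cwi j)
  have e : (fun x => (cut a b κ R x • Yf a b Φ x) i) = fun x =>
      (cut a b κ R x * deriv Φ (GF.mdot a x)) * (x - GF.mdot a x • b - GF.mdot b x • a) i +
      (cut a b κ R x * deriv (deriv Φ) (GF.mdot a x)) * (-(1 / 2) * GF.mdot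
        (x - GF.mdot a x • b - GF.mdot b x • a) (x - GF.mdot a x • b - GF.mdot b x • a) * a i) +
      (cut a b κ R x * Φ (GF.mdot a x)) * (2 * b i) := by
    funext x
    simp only [Yf, Pi.smul_apply, Pi.add_apply, smul_eq_mul]
    ring
  rw [e]
  exact tst_add (tst_add (tst_mul h1 (cwi i)) (tst_mul h2 ((contDiff_const.mul cww).mul
    contDiff_const))) (tst_mul h0 contDiff_const)

variable {D : Type*} [NormedAddCommGroup D] [InnerProductSpace ℂ D]

/-- ROW LFW for one vector `X`: only the Ward identity and the light front limit tested with `X`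
are used. -/
theorem lfw_core {Q : GF.Theory D} {J : Ix → GF.Fld D} {G : V → D → D} {κ : V → ℝ}
    {t : (Ix → V → ℝ) → (Ix → V → ℝ) → D → ℂ}
    {s : (Ix → Ix → V → ℝ) → (Ix → V → ℝ) → D → ℂ} (X : D)
    (hward : ∀ (Y : V → V) (ψ : V → ℝ) (h : Ix → V → ℝ), (∀ i, Tst fun x => Y x i) → Tst ψ →
      (∀ i, Tst (h i)) →
      s (fun i j x => (eta j * dr i (fun y => Y y j) x + eta i * dr j (fun y => Y y i) x) / 2 -
        ψ x * bas i (eta i) j) h X - t (fun i => dr i ψ) h X =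
      -Complex.I * inner ℂ (∑ i, J i (fun x => (act Y ψ h i x : ℂ)) Q.vac) X)
    {a b : V} {Φ : ℝ → ℝ} {h : Ix → V → ℝ} (hh : ∀ i, Tst (h i)) {c : ℂ}
    (hlight : Tendsto (fun R => s (fun i j x =>
        (eta j * dr i (fun y => cut a b κ R y * Yf a b Φ y j) x +
          eta i * dr j (fun y => cut a b κ R y * Yf a b Φ y i) x) / 2 -
        cut a b κ R x * deriv Φ (GF.mdot a x) * bas i (eta i) j) h X) atTop (𝓝 c))
    (hκ : Tst κ) (hκ1 : ∀ᶠ x in 𝓝 (0 : V), κ x = 1) (haa : GF.mdot a a = 0)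
    (hbb : GF.mdot b b = 0) (hab : GF.mdot a b = 1) (hΦ : Tst Φ) :
    Tendsto (fun R => t (fun i => dr i fun x => cut a b κ R x * deriv Φ (GF.mdot a x)) h X) atTop
      (𝓝 (c + Complex.I * inner ℂ (∑ i, J i (fun x => (act (Yf a b Φ)
        (fun x => deriv Φ (GF.mdot a x)) h i x : ℂ)) Q.vac) X)) := by
  have hΦ1 : Tst (deriv Φ) := ⟨(contDiff_infty_iff_deriv.1 hΦ.1).2, hΦ.2.deriv⟩
  have hlight := hlight.add
    (tendsto_const_nhds (x := Complex.I * inner ℂ (∑ i, J i (fun x => (act (Yf a b Φ)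
      (fun x => deriv Φ (GF.mdot a x)) h i x : ℂ)) Q.vac) X))
  refine hlight.congr' ?_
  filter_upwards [eventually_ge_atTop (1:ℝ), act_cut a b hκ1 (Yf a b Φ)
    (fun x => deriv Φ (GF.mdot a x)) hh] with R hR hact
  have hw := hward (fun x => cut a b κ R x • Yf a b Φ x)
    (fun x => cut a b κ R x * deriv Φ (GF.mdot a x)) h
    (tst_Y haa hbb hab hκ hΦ hR) (cut_tst haa hbb hab hκ hΦ1 hR) hh
  rw [hact] at hw
  simp only [Pi.smul_apply, smul_eq_mul] at hw
  linear_combination hw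

/-- ROW LFW -/
theorem lfw {Q : GF.Theory D} {J : Ix → GF.Fld D} {G : V → D → D} {κ : V → ℝ}
    {t : (Ix → V → ℝ) → (Ix → V → ℝ) → D → ℂ}
    {s : (Ix → Ix → V → ℝ) → (Ix → V → ℝ) → D → ℂ} (hT : TProd Q J G κ t s)
    (hκ : Tst κ) (hκ1 : ∀ᶠ x in 𝓝 (0 : V), κ x = 1) {a b : V} (ha : IsNull a) (hb : IsNull b)
    (hab : GF.mdot a b = 1) {Φ : ℝ → ℝ} (hΦ : Tst Φ) {h : Ix → V → ℝ} (hh : ∀ i, Tst (h i))
    (m : Ix) {g : Fn} (hg : GF.IsTest g) :
    Tendsto (fun R => t (fun i => dr i fun x => cut a b κ R x * deriv Φ (GF.mdot a x)) h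
      (J m g Q.vac)) atTop (𝓝 ((∫ u, (deriv (deriv (deriv Φ)) u / 2 : ℂ) *
        ∫ y in {y | GF.mdot a y < u}, ∑ i, (h i y : ℂ) * vj Q J i (Q.U 1 GF.one (-y)
          (Q.U 1 GF.one (u • b) (G a (Q.U 1 GF.one (-(u • b)) (J m g Q.vac)))))) +
      Complex.I * inner ℂ (∑ i, J i (fun x => (act (Yf a b Φ) (fun x => deriv Φ (GF.mdot a x))
        h i x : ℂ)) Q.vac) (J m g Q.vac))) :=
  lfw_core (G := G) (J m g Q.vac) (fun Y ψ h hY hψ hh => hT.ward Y ψ h m g hY hψ hh hg) hh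
    (hT.light a b Φ h m g ha hb hab hΦ hh hg) hκ hκ1 ha.1 hb.1 hab hΦ

end Vale.Agent.P352.H846

end
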