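import Vale.Agent.P352.H846.Al
import Vale.Agent.P352.H746.Loc

/-!
# Smearing with tensor fields, and continuous functions with vanishing weak derivative
-/

set_option linter.all false

noncomputable section

open MeasureTheory Filter Topology Set
open scoped ContDiff ComplexConjugate

namespace Vale.Agent.P352.H846

open GF (Ix V Fn Fld bas eta o bar)
open H755 H496 H15 H246

/-- continuous functions are determined by real test functions -/
lemma fund1 {h : ℝ → ℂ} (hc : Continuous h)
    (H : ∀ G : ℝ → ℝ, Tst G → ∫ u, (G u : ℂ) * h u = 0) (x : ℝ) : h x = 0 := by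
  have h1 : ∀ᵐ u ∂(volume : Measure ℝ), h u = 0 := by
    refine ae_eq_zero_of_integral_contDiff_smul_eq_zero hc.locallyIntegrable
      fun g hg hgc => ?_
    have h2 := H g ⟨hg, hgc⟩
    simpa only [Complex.real_smul] using h2
  have h2 : h =ᵐ[volume] fun _ => (0 : ℂ) := h1
  have h3 := (hc.ae_eq_iff_eq volume continuous_const).1 h2
  exact congrFun h3 x

/-- the difference of a test function and its translate is a derivative -/
lemma exists_prim {G : ℝ → ℝ} (hG : Tst G) (s : ℝ) :
    ∃ F : ℝ → ℝ, Tst F ∧ ∀ u, deriv F u = G u - G (u - s) := by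
  have hGc : Continuous G := hG.1.continuous
  set P : ℝ → ℝ := fun u => ∫ t in (0:ℝ)..u, G t with hP
  have hPd : ∀ u, HasDerivAt P (G u) u := fun u =>
    intervalIntegral.integral_hasDerivAt_right (hGc.intervalIntegrable _ _)
      (hGc.stronglyMeasurableAtFilter _ _) hGc.continuousAt
  have hPs : ContDiff ℝ ∞ P := by
    rw [contDiff_infty_iff_deriv]
    refine ⟨fun u => (hPd u).differentiableAt, ?_⟩
    have : deriv P = G := funext fun u => (hPd u).deriv
    rw [this]
    exact hG.1
  refine ⟨fun u => P u - P (u - s), ⟨hPs.sub (hPs.comp (contDiff_id.sub contDiff_const)), ?_⟩,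
    fun u => ?_⟩
  · obtain ⟨M, hM⟩ := hG.2.isCompact.isBounded.subset_closedBall (0 : ℝ)
    have hz : ∀ t, M < |t| → G t = 0 := by
      intro t ht
      by_contra h
      have h1 := hM (subset_tsupport _ (Function.mem_support.mpr h))
      rw [mem_closedBall_zero_iff, Real.norm_eq_abs] at h1
      linarith
    refine HasCompactSupport.intro (isCompact_Icc (a := -(M + |s|)) (b := M + |s|)) ?_
    intro u hu
    have h1 : P u - P (u - s) = ∫ t in (u - s)..u, G t := by
      exact intervalIntegral.integral_interval_sub_left (hGc.intervalIntegrable _ _)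
        (hGc.intervalIntegrable _ _)
    rw [h1]
    have h2 : EqOn G (fun _ => (0:ℝ)) (uIcc (u - s) u) := by
      intro t ht
      apply hz
      rw [mem_uIcc] at ht
      rw [mem_Icc, not_and_or, not_le, not_le] at hu
      have hs1 := abs_nonneg s
      have hs2 := le_abs_self s
      have hs3 := neg_abs_le s
      rw [lt_abs]
      rcases hu with hu | hu
      · right
        rcases ht with ht | ht
        · linarith [ht.1, ht.2]
        · linarith [ht.1, ht.2]
      · left
        rcases ht with ht | ht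
        · linarith [ht.1, ht.2]
        · linarith [ht.1, ht.2]
    rw [intervalIntegral.integral_congr h2, intervalIntegral.integral_zero]
  · have h1 : HasDerivAt (fun u => P u - P (u - s)) (G u - G (u - s)) u := by
      have h2 := (hPd (u - s)).comp_sub_const u s
      exact (hPd u).sub h2
    exact h1.deriv

/-- continuous functions with vanishing weak derivative are constant -/
theorem dbr {h : ℝ → ℂ} (hc : Continuous h)
    (H : ∀ G : ℝ → ℝ, Tst G → ∫ u, ((deriv G u : ℝ) : ℂ) * h u = 0) (s : ℝ) : h s = h 0 := by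
  have key : ∀ x, h x - h (x + s) = 0 := by
    refine fund1 (h := fun x => h x - h (x + s)) (by fun_prop) fun G hG => ?_
    obtain ⟨F, hF, hF'⟩ := exists_prim hG s
    have h1 := H F hF
    simp only [hF'] at h1
    have hGc : HasCompactSupport fun u : ℝ => (G u : ℂ) :=
      hG.2.comp_left (g := fun r : ℝ => (r : ℂ)) (by simp)
    have hGn : Continuous fun u : ℝ => (G u : ℂ) :=
      Complex.continuous_ofReal.comp hG.1.continuous
    have i1 : Integrable fun u : ℝ => (G u : ℂ) * h u :=
      (hGn.mul hc).integrable_of_hasCompactSupport hGc.mul_right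
    have i2 : Integrable fun u : ℝ => (G u : ℂ) * h (u + s) :=
      (hGn.mul (by fun_prop)).integrable_of_hasCompactSupport hGc.mul_right
    have i3 : Integrable fun u : ℝ => (G (u - s) : ℂ) * h u := by
      have h2 := i2.comp_sub_right s
      simpa using h2
    have e1 : ∫ u : ℝ, (G (u - s) : ℂ) * h u = ∫ u : ℝ, (G u : ℂ) * h (u + s) := by
      have h2 := integral_sub_right_eq_self (μ := (volume : Measure ℝ))
        (fun u : ℝ => (G u : ℂ) * h (u + s)) s
      simpa using h2
    have e2 : ∫ u : ℝ, ((G u - G (u - s) : ℝ) : ℂ) * h u =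
        (∫ u : ℝ, (G u : ℂ) * h u) - ∫ u : ℝ, (G (u - s) : ℂ) * h u := by
      rw [← integral_sub i1 i3]
      refine integral_congr_ae (Eventually.of_forall fun u => ?_)
      simp only
      push_cast
      ring
    rw [e2, e1] at h1
    show ∫ u : ℝ, (G u : ℂ) * (h u - h (u + s)) = 0
    rw [← h1, ← integral_sub i1 i2]
    refine integral_congr_ae (Eventually.of_forall fun u => ?_)
    simp only
    ring
  have h2 := key 0
  rw [zero_add, sub_eq_zero] at h2
  exact h2.symm

variable {D : Type*} [NormedAddCommGroup D] [InnerProductSpace ℂ D]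
variable {Q : GF.Theory D} {T : Ix → Ix → GF.Fld D} {J : Ix → GF.Fld D}
  {A : (V → V) → D → D} {K : V → D → D}

lemma fld_add {B : GF.Fld D} (hB : Q.fld B) {f g : V → ℝ} (hf : Tst f) (hg : Tst g) (v : D) :
    B (fun x => ((f x + g x : ℝ) : ℂ)) v = B (fun x => (f x : ℂ)) v + B (fun x => (g x : ℂ)) v := by
  have h1 := Q.lin B (fun x => (f x : ℂ)) (fun x => (g x : ℂ)) 1 v hB hf.isTest hg.isTest
  rw [one_smul] at h1
  rw [← h1]
  congr 1
  funext x
  push_cast
  ring

lemma tst_zero : Tst fun _ : V => (0 : ℝ) := ⟨contDiff_const, HasCompactSupport.zero⟩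

lemma fld_zero {B : GF.Fld D} (hB : Q.fld B) (v : D) : B (fun _ => ((0 : ℝ) : ℂ)) v = 0 := by
  have h1 := fld_add hB tst_zero tst_zero v
  simp only [add_zero] at h1
  exact left_eq_add.mp h1

lemma fld_cmul {B : GF.Fld D} (hB : Q.fld B) {g : V → ℝ} (c : ℝ) (hg : Tst g) (v : D) :
    B (fun x => ((c * g x : ℝ) : ℂ)) v = (c : ℂ) • B (fun x => (g x : ℂ)) v := by
  have h1 := Q.lin B (fun _ => ((0 : ℝ) : ℂ)) (fun x => (g x : ℂ)) c v hB tst_zero.isTest hg.isTest
  rw [fld_zero hB, zero_add] at h1
  rw [← h1]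
  congr 1
  funext x
  push_cast
  ring

lemma fld_neg {B : GF.Fld D} (hB : Q.fld B) {g : V → ℝ} (hg : Tst g) (v : D) :
    B (fun x => ((-g x : ℝ) : ℂ)) v = -B (fun x => (g x : ℂ)) v := by
  have h1 := fld_cmul hB (-1) hg v
  simpa using h1

lemma sm_add (hT : Q.IsStress T) {F G : Ix → Ix → V → ℝ} (hF : ∀ m n, Tst (F m n))
    (hG : ∀ m n, Tst (G m n)) (v : D) :
    sm T (fun m n x => F m n x + G m n x) v = sm T F v + sm T G v := by
  unfold sm
  rw [← Finset.sum_add_distrib]
  refine Finset.sum_congr rfl fun m _ => ?_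
  rw [← Finset.sum_add_distrib]
  exact Finset.sum_congr rfl fun n _ => fld_add (Q.bose_fld _ (hT.bose m n)) (hF m n) (hG m n) v

lemma sm_neg (hT : Q.IsStress T) {F : Ix → Ix → V → ℝ} (hF : ∀ m n, Tst (F m n)) (v : D) :
    sm T (fun m n x => -F m n x) v = -sm T F v := by
  unfold sm
  rw [← Finset.sum_neg_distrib]
  refine Finset.sum_congr rfl fun m _ => ?_
  rw [← Finset.sum_neg_distrib]
  exact Finset.sum_congr rfl fun n _ => fld_neg (Q.bose_fld _ (hT.bose m n)) (hF m n) v

lemma tst_neg' {f : V → ℝ} (hf : Tst f) : Tst fun x => -f x :=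
  ⟨hf.1.neg, hf.2.comp_left (g := fun r => -r) (by simp)⟩

lemma sm_sub (hT : Q.IsStress T) {F G : Ix → Ix → V → ℝ} (hF : ∀ m n, Tst (F m n))
    (hG : ∀ m n, Tst (G m n)) (v : D) :
    sm T (fun m n x => F m n x - G m n x) v = sm T F v - sm T G v := by
  have h1 := sm_add hT hF (fun m n => tst_neg' (hG m n)) v
  rw [sm_neg hT hG, ← sub_eq_add_neg] at h1
  rw [← h1]
  congr 1

/-- antisymmetric tensor fields -/
lemma sm_anti (hT : Q.IsStress T) {F : Ix → Ix → V → ℝ} (hF : ∀ m n, Tst (F m n))
    (ha : ∀ m n x, F m n x = -F n m x) (v : D) : sm T F v = 0 := by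
  have h1 : sm T F v = -sm T F v := by
    conv_lhs => unfold sm
    rw [Finset.sum_comm]
    have h2 : -sm T F v = sm T (fun m n x => -F m n x) v := (sm_neg hT hF v).symm
    rw [h2]
    unfold sm
    refine Finset.sum_congr rfl fun n _ => Finset.sum_congr rfl fun m _ => ?_
    have h3 : (fun x => (F m n x : ℂ)) = fun x => ((-F n m x : ℝ) : ℂ) := by
      funext x
      rw [ha m n x]
    rw [h3]
    exact hT.symm m n _ v (tst_neg' (hF n m)).isTest
  have h2 : (2 : ℂ) • sm T F v = 0 := by
    rw [two_smul]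
    nth_rewrite 1 [h1]
    exact neg_add_cancel _
  exact (smul_eq_zero.1 h2).resolve_left two_ne_zero

/-- diagonal tensor fields -/
lemma sm_diag (hT : Q.IsStress T) {g : V → ℝ} (hg : Tst g) (v : D) :
    sm T (fun m n x => bas m (eta m) n * g x) v = GF.tr T (fun x => (g x : ℂ)) v := by
  unfold sm GF.tr
  refine Finset.sum_congr rfl fun m _ => ?_
  rw [Finset.sum_eq_single m]
  · have h1 : (fun x => ((bas m (eta m) m * g x : ℝ) : ℂ)) = fun x => ((eta m * g x : ℝ) : ℂ) := by
      funext x
      simp [bas]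
    rw [h1]
    exact fld_cmul (Q.bose_fld _ (hT.bose m m)) (eta m) hg v
  · intro n _ hnm
    have h1 : (fun x => ((bas m (eta m) n * g x : ℝ) : ℂ)) = fun _ => ((0 : ℝ) : ℂ) := by
      funext x
      simp [bas, hnm]
    rw [h1]
    exact fld_zero (Q.bose_fld _ (hT.bose m n)) v
  · intro h
    exact absurd (Finset.mem_univ m) h

/-- conservation -/
lemma sm_cons (hT : Q.IsStress T) {f : Ix → V → ℝ} (hf : ∀ n, Tst (f n)) (v : D) :
    sm T (fun m n x => dr m (f n) x) v = 0 := by
  unfold sm
  rw [Finset.sum_comm]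
  refine Finset.sum_eq_zero fun n _ => ?_
  have h1 := hT.conserved n (fun x => (f n x : ℂ)) v (hf n).isTest
  rw [← h1]
  refine Finset.sum_congr rfl fun m _ => ?_
  have h2 : HasDerivAt (fun t : ℝ => (0:ℝ)) 0 0 := hasDerivAt_const _ _
  congr 1
  funext x
  unfold GF.pd
  have h3 : HasDerivAt (fun t : ℝ => f n (x + bas m t)) (dr m (f n) x) 0 := by
    have h4 : (fun t : ℝ => f n (x + bas m t)) = fun t : ℝ => f n (x + t • bas m 1) := by
      funext t
      rw [bas_smul]
    have h5 : HasDerivAt (fun t : ℝ => f n (x + bas m t)) (fderiv ℝ (f n) x (bas m 1)) 0 := by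
      rw [h4]
      exact ((hf n).diff x).hasFDerivAt.hasLineDerivAt (bas m 1)
    rw [show dr m (f n) x = fderiv ℝ (f n) x (bas m 1) from h5.deriv]
    exact h5
  exact h3.ofReal_comp.deriv.symm

end Vale.Agent.P352.H846

end
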