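import Vale.Agent.P352.H846.TnDefs
import Vale.Agent.P352.H15.KLin
import Vale.Agent.P352.H755.R7c

/-!
# Contractions of a tensor field
-/

set_option linter.all false

noncomputable section

open MeasureTheory SchwartzMap Filter Topology
open scoped SchwartzMap ComplexConjugate

namespace Vale.Agent.P352.H846

open GF (Ix V Fn Sch ev pd bar sim bas o IsLor eta)
open H246 H496 H755 H746 H15

variable {D : Type*} [NormedAddCommGroup D] [InnerProductSpace ℂ D]
variable {Q : GF.Theory D} {k : ℕ}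

lemma eta_mul_eta (m : Ix) : eta m * eta m = 1 := by
  unfold eta
  split_ifs <;> norm_num

/-- the coefficients of the contraction with `v` -/
def cfn (v : Fin k → V) (μ : Fin k → Ix) : ℝ := ∏ i, eta (μ i) * v i (μ i)

lemma cfn_upd (h : Fin k → V) (j : Fin k) (x : V) (μ : Fin k → Ix) :
    cfn (Function.update h j x) μ = (eta (μ j) * x (μ j)) *
      ∏ i ∈ Finset.univ.erase j, eta (μ i) * h i (μ i) := by
  unfold cfn
  rw [← Finset.mul_prod_erase Finset.univ _ (Finset.mem_univ j), Function.update_self]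
  refine congrArg (fun z => eta (μ j) * x (μ j) * z) (Finset.prod_congr rfl fun i hi => ?_)
  rw [Function.update_of_ne (Finset.ne_of_mem_erase hi)]

lemma cfn_lin (h : Fin k → V) (j : Fin k) (c : ℝ) (x y : V) (μ : Fin k → Ix) :
    cfn (Function.update h j (c • x + y)) μ = c * cfn (Function.update h j x) μ +
      cfn (Function.update h j y) μ := by
  rw [cfn_upd, cfn_upd, cfn_upd]
  simp only [Pi.add_apply, Pi.smul_apply, smul_eq_mul]
  ring

/-- the image of `v` under the inverse of `L` -/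
def li (L : Ix → V) (v : V) : V := fun n => eta n * GF.mdot v (L n)

lemma mdot_li (L : Ix → V) (v x : V) : GF.mdot (li L v) x = GF.mdot v (sim 1 L 0 x) := by
  have h1 : GF.mdot (li L v) x = ∑ n, GF.mdot v (L n) * x n := by
    unfold GF.mdot li
    refine Finset.sum_congr rfl fun n _ => ?_
    have := eta_mul_eta n
    show eta n * (eta n * GF.mdot v (L n)) * x n = GF.mdot v (L n) * x n
    rw [← mul_assoc, this, one_mul]
  rw [h1]
  simp only [GF.mdot, sim, Fin.sum_univ_four, Pi.zero_apply]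
  ring

lemma cfn_li (L : Ix → V) (v : Fin k → V) (ν : Fin k → Ix) :
    cfn (fun i => li L (v i)) ν = ∑ μ : Fin k → Ix, cfn v μ * ∏ i, L (ν i) (μ i) := by
  have h1 := Finset.prod_univ_sum (fun _ : Fin k => (Finset.univ : Finset Ix))
    (fun i m => eta m * v i m * L (ν i) m)
  rw [Fintype.piFinset_univ] at h1
  have h2 : ∀ μ : Fin k → Ix, cfn v μ * ∏ i, L (ν i) (μ i) =
      ∏ i, eta (μ i) * v i (μ i) * L (ν i) (μ i) := by
    intro μ
    unfold cfn
    rw [← Finset.prod_mul_distrib]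
  simp only [h2]
  rw [← h1]
  unfold cfn
  refine Finset.prod_congr rfl fun i _ => ?_
  show eta (ν i) * (eta (ν i) * GF.mdot (v i) (L (ν i))) = _
  rw [← mul_assoc, eta_mul_eta, one_mul]
  rfl

/-- the contraction of a tensor field -/
def Con (Φ : (Fin k → Ix) → GF.Fld D) (v : Fin k → V) (f : Fn) (u : D) : D :=
  ∑ μ, (cfn v μ : ℂ) • Φ μ f u

lemma Con_lin (Φ : (Fin k → Ix) → GF.Fld D) (h : Fin k → V) (j : Fin k) (c : ℝ) (x y : V)
    (f : Fn) (u : D) : Con Φ (Function.update h j (c • x + y)) f u =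
      (c : ℂ) • Con Φ (Function.update h j x) f u + Con Φ (Function.update h j y) f u := by
  unfold Con
  rw [Finset.smul_sum, ← Finset.sum_add_distrib]
  refine Finset.sum_congr rfl fun μ _ => ?_
  rw [cfn_lin]
  push_cast
  rw [add_smul, mul_smul]

lemma Con_zero (Φ : (Fin k → Ix) → GF.Fld D) (h : Fin k → V) (j : Fin k) (f : Fn) (u : D) :
    Con Φ (Function.update h j 0) f u = 0 := by
  unfold Con
  refine Finset.sum_eq_zero fun μ _ => ?_
  rw [cfn_upd]
  simp

lemma Con_cov {d : ℝ} {Φ : (Fin k → Ix) → GF.Fld D} (hΦ : IsTen Q k d Φ) {s : ℝ} (hs : 0 < s)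
    {L : Ix → V} (hL : IsLor L) (a : V) {f : Fn} (hf : GF.IsTest f) (v : Fin k → V) (u : D) :
    Con Φ v f (Q.U s L a u) = ((s ^ (4 - d) : ℝ) : ℂ) • Q.U s L a
      (Con Φ (fun i => li L (v i)) (fun x => f (sim s L a x)) u) := by
  unfold Con
  rw [H15.U_sum hs hL, Finset.smul_sum]
  have h1 : ∀ μ : Fin k → Ix, ((cfn v μ : ℝ) : ℂ) • Φ μ f (Q.U s L a u) =
      ∑ ν : Fin k → Ix, ((s ^ (4 - d) * (cfn v μ * ∏ i, L (ν i) (μ i)) : ℝ) : ℂ) •
        Q.U s L a (Φ ν (fun x => f (sim s L a x)) u) := by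
    intro μ
    rw [hΦ.2 μ s L a f u hs hL hf, Finset.smul_sum]
    refine Finset.sum_congr rfl fun ν _ => ?_
    rw [smul_smul]
    congr 1
    push_cast
    ring
  simp only [h1]
  rw [Finset.sum_comm]
  refine Finset.sum_congr rfl fun ν _ => ?_
  rw [← Finset.sum_smul, smul_smul, cfn_li]
  congr 1
  push_cast
  rw [Finset.mul_sum]

/-- a component is a contraction -/
lemma Con_bas (Φ : (Fin k → Ix) → GF.Fld D) (μ : Fin k → Ix) (f : Fn) (u : D) :
    Con Φ (fun i => eta (μ i) • bas (μ i) 1) f u = Φ μ f u := by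
  unfold Con
  rw [Finset.sum_eq_single μ]
  · have h1 : cfn (fun i => eta (μ i) • bas (μ i) 1) μ = 1 := by
      unfold cfn
      refine Finset.prod_eq_one fun i _ => ?_
      show eta (μ i) * (eta (μ i) * bas (μ i) 1 (μ i)) = 1
      rw [← mul_assoc, eta_mul_eta]
      simp [bas]
    rw [h1]
    simp
  · intro ν _ hν
    obtain ⟨i, hi⟩ := Function.ne_iff.1 hν
    have h1 : cfn (fun i => eta (μ i) • bas (μ i) 1) ν = 0 := by
      unfold cfn
      refine Finset.prod_eq_zero (Finset.mem_univ i) ?_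
      show eta (ν i) * (eta (μ i) * bas (μ i) 1 (ν i)) = 0
      simp [bas, hi]
    rw [h1]
    simp
  · intro h
    exact absurd (Finset.mem_univ _) h

/-! ### The filtration by the boost weight -/

/-- the subspaces `ℝ a`, the orthogonal complement of `a`, and the whole space -/
def Fl (a : V) : ℕ → V → Prop
  | 0, v => ∃ t : ℝ, v = t • a
  | 1, v => GF.mdot a v = 0
  | (_ + 2), _ => True

/-- `L` fixes the ray of `a` and acts as the identity on the orthogonal complement of `a`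
modulo `a` -/
def Scr (a : V) (L : Ix → V) (r : ℝ) : Prop := sim 1 L 0 a = r • a ∧
  ∀ w, GF.mdot a w = 0 → ∃ c : ℝ, sim 1 L 0 w = w + c • a

lemma nondeg {x y : V} (h : ∀ z, GF.mdot x z = GF.mdot y z) : x = y := by
  funext n
  have h1 := h (bas n (eta n))
  have e : ∀ x : V, GF.mdot x (bas n (eta n)) = x n := by
    intro x
    unfold GF.mdot
    rw [Finset.sum_eq_single n]
    · simp only [bas, if_true]
      linear_combination x n * eta_mul_eta n
    · intro m _ hm
      simp [bas, hm]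
    · intro h
      exact absurd (Finset.mem_univ _) h
  rwa [e, e] at h1

lemma mdx2 (L : Ix → V) (x y : V) : GF.mdot (sim 1 L 0 x) (sim 1 L 0 y) =
    ∑ m, ∑ n, x m * y n * GF.mdot (L m) (L n) := by
  simp only [GF.mdot, sim, Fin.sum_univ_four, Pi.zero_apply]
  ring

lemma lor_mdot {L : Ix → V} (hL : IsLor L) (x y : V) :
    GF.mdot (sim 1 L 0 x) (sim 1 L 0 y) = GF.mdot x y := by
  rw [mdx2]
  have e : ∀ m n, GF.mdot (L m) (L n) = bas m (eta m) n := hL.1
  simp only [e]
  unfold GF.mdot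
  refine Finset.sum_congr rfl fun m _ => ?_
  rw [Finset.sum_eq_single m]
  · simp only [bas, if_true]
    ring
  · intro n _ hn
    simp [bas, hn]
  · intro h
    exact absurd (Finset.mem_univ _) h

lemma li_sim {L : Ix → V} (hL : IsLor L) (x : V) : li L (sim 1 L 0 x) = x :=
  nondeg fun z => by rw [mdot_li, lor_mdot hL]

lemma li_add (L : Ix → V) (x y : V) : li L (x + y) = li L x + li L y := by
  funext n
  show eta n * GF.mdot (x + y) (L n) = eta n * GF.mdot x (L n) + eta n * GF.mdot y (L n)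
  rw [md_add_l]
  ring

lemma li_smul (L : Ix → V) (c : ℝ) (x : V) : li L (c • x) = c • li L x := by
  funext n
  show eta n * GF.mdot (c • x) (L n) = c * (eta n * GF.mdot x (L n))
  rw [md_smul_l]
  ring

lemma li_a {a : V} {L : Ix → V} (hL : IsLor L) {r : ℝ} (hr : 0 < r) (h : Scr a L r) :
    li L a = r⁻¹ • a := by
  have h1 := li_sim hL a
  rw [h.1, li_smul] at h1
  have h2 := congrArg (fun z => r⁻¹ • z) h1
  simp only [smul_smul, inv_mul_cancel₀ hr.ne', one_smul] at h2
  exact h2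

lemma fl_step {a : V} (ha : GF.mdot a a = 0) {L : Ix → V} (hL : IsLor L) {r : ℝ} (hr : 0 < r)
    (h : Scr a L r) (n : ℕ) {v : V} (hv : Fl a n v) :
    ∃ l : V, li L v = (r ^ ((n : ℝ) - 1)) • v + l ∧ (n = 0 → l = 0) ∧
      ∀ m, n = m + 1 → Fl a m l := by
  match n, hv with
  | 0, hv =>
    obtain ⟨t, rfl⟩ := hv
    refine ⟨0, ?_, fun _ => rfl, fun m hm => absurd hm (by omega)⟩
    rw [li_smul, li_a hL hr h, add_zero, Nat.cast_zero, zero_sub, Real.rpow_neg_one, smul_comm]
  | 1, hv =>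
    obtain ⟨c, hc⟩ := h.2 v hv
    have h1 := li_sim hL v
    rw [hc, li_add, li_smul, li_a hL hr h] at h1
    refine ⟨-(c • r⁻¹ • a), ?_, fun h0 => absurd h0 (by omega), fun m hm => ?_⟩
    · rw [Nat.cast_one, sub_self, Real.rpow_zero, one_smul, ← sub_eq_add_neg, eq_sub_iff_add_eq]
      exact h1
    · obtain rfl : m = 0 := by omega
      exact ⟨-(c * r⁻¹), by rw [smul_smul, neg_smul]⟩
  | 2, hv =>
    refine ⟨li L v - r • v, ?_, fun h0 => absurd h0 (by omega), fun m hm => ?_⟩
    · have e : r ^ (((2 : ℕ) : ℝ) - 1) = r := by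
        rw [show ((2 : ℕ) : ℝ) - 1 = 1 by norm_num, Real.rpow_one]
      rw [e]
      abel
    · obtain rfl : m = 1 := by omega
      show GF.mdot a (li L v - r • v) = 0
      rw [md_sub, md_smul, md_comm a (li L v), mdot_li, h.1, md_smul, md_comm v a, sub_self]
  | (n + 3), hv =>
    refine ⟨li L v - r ^ (((n + 3 : ℕ) : ℝ) - 1) • v, by abel, fun h0 => absurd h0 (by omega),
      fun m hm => ?_⟩
    obtain rfl : m = n + 2 := by omega
    trivial

lemma fl_mono {a : V} (ha : GF.mdot a a = 0) : ∀ (n : ℕ) {v : V}, Fl a n v → Fl a (n + 1) v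
  | 0, v, ⟨t, ht⟩ => by
    show GF.mdot a v = 0
    rw [ht, md_smul, ha, mul_zero]
  | 1, v, _ => trivial
  | (n + 2), v, _ => trivial

lemma fl_lin {a : V} : ∀ (n : ℕ) (c : ℝ) {v w : V}, Fl a n v → Fl a n w → Fl a n (c • v + w)
  | 0, c, v, w, ⟨t, ht⟩, ⟨t', ht'⟩ => ⟨c * t + t', by rw [ht, ht', smul_smul, ← add_smul]⟩
  | 1, c, v, w, hv, hw => by
    show GF.mdot a (c • v + w) = 0
    have h1 : GF.mdot a v = 0 := hv
    have h2 : GF.mdot a w = 0 := hw
    rw [md_add, md_smul, h1, h2, mul_zero, add_zero]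
  | (n + 2), _, _, _, _, _ => trivial

lemma fl_li {a : V} (ha : GF.mdot a a = 0) {L : Ix → V} (hL : IsLor L) {r : ℝ} (hr : 0 < r)
    (h : Scr a L r) (n : ℕ) {v : V} (hv : Fl a n v) : Fl a n (li L v) := by
  obtain ⟨l, h1, h2, h3⟩ := fl_step ha hL hr h n hv
  rw [h1]
  refine fl_lin n _ hv ?_
  rcases Nat.eq_zero_or_pos n with h0 | h0
  · rw [h2 h0, h0]
    exact ⟨0, by simp⟩
  · obtain ⟨m, rfl⟩ : ∃ m, n = m + 1 := ⟨n - 1, by omega⟩
    exact fl_mono ha m (h3 m rfl)

end Vale.Agent.P352.H846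

end
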