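import Vale.Agent.P352.H846.Tn1

/-!
# Covariant vector valued distributions
-/

set_option linter.all false

noncomputable section

open MeasureTheory SchwartzMap Filter Topology
open scoped SchwartzMap ComplexConjugate

namespace Vale.Agent.P352.H846

open GF (Ix V Fn Sch ev pd bar sim bas o IsLor eta)
open H246 H496 H755 H746 H15

variable {D : Type*} [NormedAddCommGroup D] [InnerProductSpace ℂ D]

/-- vector valued distributions that are covariant under translations, dilatations, boosts and
null rotations, with weights `p` and `q` -/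
structure YB (Q : GF.Theory D) (a : V) (p q : ℝ) (Y : 𝓢(Mink, ℂ) → D) : Prop where
  add : ∀ F G, Y (F + G) = Y F + Y G
  smul : ∀ (c : ℂ) F, Y (c • F) = c • Y F
  cont : ∀ w, Continuous fun F => (inner ℂ w (Y F) : ℂ)
  tra : ∀ x F, Y (tauS x F) = U1 Q x (Y F)
  cov : ∀ s (hs : 0 < s) L (hL : IsLor L) r, 0 < r → Scr a L r → ∀ F,
    Y F = ((s ^ p * r ^ q : ℝ) : ℂ) • Q.U s L 0 (Y (simS s hs hL 0 F))

end Vale.Agent.P352.H846

end
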