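import Vale.Agent.P352.H731.SymVol
import Vale.Agent.P352.H246.Main
import Vale.Agent.P352.H496.Base

/-!
# The values of a potential against a vector of the domain are square integrable
-/

set_option linter.all false

noncomputable section

open MeasureTheory SchwartzMap Complex Filter Topology
open scoped SchwartzMap ComplexConjugate ENNReal LineDeriv NNReal FourierTransform

namespace Vale.Agent.P352.H846

open GF (Ix V Fn Sch ev pd bar sim one bas o)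
open H246
open UniformSpace (Completion)

/-- Plancherel for `mft`. -/
theorem mft_planch : ∃ C : ℝ, 0 ≤ C ∧ ∀ F : 𝓢(Mink, ℂ),
    ∫ p, ‖mft F p‖ ^ 2 = C * ∫ x, ‖F x‖ ^ 2 := by
  have hdet : LinearMap.det (mftEquiv.toLinearEquiv : Mink →ₗ[ℝ] Mink) ≠ 0 :=
    (LinearEquiv.isUnit_det' mftEquiv.toLinearEquiv).ne_zero
  refine ⟨|(LinearMap.det (mftEquiv.toLinearEquiv : Mink →ₗ[ℝ] Mink))⁻¹|, abs_nonneg _, ?_⟩
  intro F
  have h1 : ∀ p, mft F p = (𝓕 F : 𝓢(Mink, ℂ)) (mftEquiv p) := by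
    intro p
    rw [← mftS_apply]
    rfl
  simp_rw [h1]
  have h2 : ∫ p, ‖(𝓕 F : 𝓢(Mink, ℂ)) (mftEquiv p)‖ ^ 2 =
      ∫ p, ‖(𝓕 F : 𝓢(Mink, ℂ)) p‖ ^ 2 ∂(Measure.map mftEquiv (volume : Measure Mink)) := by
    rw [integral_map mftEquiv.continuous.measurable.aemeasurable]
    exact ((𝓕 F : 𝓢(Mink, ℂ)).continuous.norm.pow 2).aestronglyMeasurable
  have h3 : Measure.map mftEquiv (volume : Measure Mink) =
      ENNReal.ofReal |(LinearMap.det (mftEquiv.toLinearEquiv : Mink →ₗ[ℝ] Mink))⁻¹| •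
        (volume : Measure Mink) :=
    Measure.map_linearMap_addHaar_eq_smul_addHaar (volume : Measure Mink) hdet
  rw [h2, h3, integral_smul_measure, ENNReal.toReal_ofReal (abs_nonneg _), smul_eq_mul,
    integral_norm_sq_fourier]

theorem L2_norm_sq (G : Lp ℂ 2 (volume : Measure Mink)) :
    ∫ x, ‖(G : Mink → ℂ) x‖ ^ 2 = ‖G‖ ^ 2 := by
  have h1 := inner_self_eq_norm_sq (𝕜 := ℂ) G
  rw [← h1, L2.inner_def]
  have h2 : ∫ a, inner ℂ (G a) (G a) = ((∫ x, ‖(G : Mink → ℂ) x‖ ^ 2 : ℝ) : ℂ) := by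
    rw [← integral_complex_ofReal]
    apply integral_congr_ae
    refine Eventually.of_forall fun x => ?_
    simp only
    rw [inner_self_eq_norm_sq_to_K]
    norm_cast
  rw [h2]
  simp

theorem L2_inner (F : 𝓢(Mink, ℂ)) (G : Lp ℂ 2 (volume : Measure Mink)) :
    inner ℂ (F.toLp 2 (volume : Measure Mink)) G = ∫ x, conj (F x) * (G : Mink → ℂ) x := by
  rw [L2.inner_def]
  apply integral_congr_ae
  filter_upwards [F.coeFn_toLp 2 (volume : Measure Mink)] with x hx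
  rw [hx, RCLike.inner_apply, mul_comm]

/-- representation of a bounded functional on `L²`. -/
theorem exists_rep {H : Type*} [NormedAddCommGroup H] [InnerProductSpace ℂ H] [CompleteSpace H]
    (K : Lp ℂ 2 (volume : Measure Mink) →L[ℂ] H) (v : H) :
    ∃ G : Lp ℂ 2 (volume : Measure Mink), ‖G‖ ≤ ‖K‖ * ‖v‖ ∧
      ∀ F : 𝓢(Mink, ℂ), inner ℂ (K (F.toLp 2 (volume : Measure Mink))) v =
        ∫ x, conj (F x) * (G : Mink → ℂ) x := by
  refine ⟨ContinuousLinearMap.adjoint K v, ?_, fun F => ?_⟩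
  · have h1 := (ContinuousLinearMap.adjoint K).le_opNorm v
    rwa [LinearIsometryEquiv.norm_map] at h1
  · rw [← L2_inner, ContinuousLinearMap.adjoint_inner_right]

theorem norm_toLp_sq (F : 𝓢(Mink, ℂ)) :
    ‖F.toLp 2 (volume : Measure Mink)‖ ^ 2 = ∫ x, ‖F x‖ ^ 2 := by
  have h1 := inner_self_eq_norm_sq (𝕜 := ℂ) (F.toLp 2 (volume : Measure Mink))
  rw [← h1, L2.inner_def]
  have h2 : ∫ a, inner ℂ ((F.toLp 2 (volume : Measure Mink)) a)
      ((F.toLp 2 (volume : Measure Mink)) a) = ((∫ x, ‖F x‖ ^ 2 : ℝ) : ℂ) := by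
    rw [← integral_complex_ofReal]
    apply integral_congr_ae
    filter_upwards [F.coeFn_toLp 2 (volume : Measure Mink)] with x hx
    rw [hx, inner_self_eq_norm_sq_to_K]
    norm_cast
  rw [h2]
  simp

variable {D : Type*} [NormedAddCommGroup D] [InnerProductSpace ℂ D]
variable {Q : GF.Theory D}

/-- The `L²` bound of a potential. -/
theorem pot_bound {T : Ix → Ix → GF.Fld D} {l : Fn → Completion D} (hl : IsPot Q T l) :
    ∃ C : ℝ, 0 ≤ C ∧ ∀ F : 𝓢(Mink, ℂ),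
      ‖l (fl F)‖ ≤ C * ‖F.toLp 2 (volume : Measure Mink)‖ := by
  obtain ⟨κ, hκ⟩ := hl.exists_clm
  have hc : VCov Q κ 2 := by
    intro s hs L hL a f v
    have h1 := hl.cov s L a (fl f) v hs hL (isTest_fl _)
    rw [fl_sim s hs hL a] at h1
    rw [hκ, hκ, h1]
    have e : (s ^ ((4 : ℝ) - 2) : ℝ) = s ^ 2 := by
      rw [show ((4 : ℝ) - 2) = ((2 : ℕ) : ℝ) by norm_num, Real.rpow_natCast]
    rw [e]
  obtain ⟨μ, S, hμ⟩ := hc.sym
  obtain ⟨C0, hC0⟩ := H731.sym_le_volume S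
  obtain ⟨C1, hC1, hpl⟩ := mft_planch
  refine ⟨Real.sqrt (C0 * C1), Real.sqrt_nonneg _, fun F => ?_⟩
  have hsq : ‖l (fl F)‖ ^ 2 ≤ C0 * C1 * ∫ x, ‖F x‖ ^ 2 := by
    have h1 : ((‖κ F‖ ^ 2 : ℝ) : ℂ) = ∫ p, ((‖mft F p‖ ^ 2 : ℝ) : ℂ) ∂μ := by
      have h2 := hμ F F
      rw [inner_self_eq_norm_sq_to_K] at h2
      rw [show ((‖κ F‖ ^ 2 : ℝ) : ℂ) = ((‖κ F‖ : ℂ)) ^ 2 by push_cast; rfl]
      refine Eq.trans (by norm_cast) (h2.trans ?_)
      apply integral_congr_ae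
      refine Eventually.of_forall fun p => ?_
      simp only
      rw [mul_comm, mul_conj, normSq_eq_norm_sq]
    rw [integral_complex_ofReal] at h1
    have h3 : ‖κ F‖ ^ 2 = ∫ p, ‖mft F p‖ ^ 2 ∂μ := by exact_mod_cast h1
    rw [← hκ, h3]
    have hint : Integrable (fun p => ‖mft F p‖ ^ 2) (volume : Measure Mink) := by
      have h4 : MemLp (mftS F) 2 (volume : Measure Mink) := (mftS F).memLp 2 volume
      have h5 := (memLp_two_iff_integrable_sq_norm h4.1).1 h4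
      simpa only [mftS_apply] using h5
    have h7 : ∫ p, ‖mft F p‖ ^ 2 ∂μ ≤
        ∫ p, ‖mft F p‖ ^ 2 ∂((C0 : ℝ≥0∞) • (volume : Measure Mink)) := by
      refine integral_mono_measure hC0 (Eventually.of_forall fun p => by positivity) ?_
      exact hint.smul_measure ENNReal.coe_ne_top
    refine h7.trans (le_of_eq ?_)
    rw [integral_smul_measure, ENNReal.coe_toReal, smul_eq_mul, hpl, mul_assoc]
  rw [← norm_toLp_sq] at hsq
  have h8 : (0:ℝ) ≤ C0 * C1 := by positivity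
  calc ‖l (fl F)‖ = Real.sqrt (‖l (fl F)‖ ^ 2) := (Real.sqrt_sq (norm_nonneg _)).symm
    _ ≤ Real.sqrt (C0 * C1 * ‖F.toLp 2 (volume : Measure Mink)‖ ^ 2) := Real.sqrt_le_sqrt hsq
    _ = _ := by rw [Real.sqrt_mul h8, Real.sqrt_sq (norm_nonneg _)]

theorem val_L2 {T : Ix → Ix → GF.Fld D} {l : Fn → Completion D} (hl : IsPot Q T l) :
    ∃ C : ℝ, 0 ≤ C ∧ ∀ (v : D) (h : Mink → ℂ), Continuous h →
      (∀ F : 𝓢(Mink, ℂ), IsTest Set.univ F →
        inner ℂ (l (fl F)) (v : Completion D) = ∫ x, conj (F x) * h x) →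
      Integrable (fun x => ‖h x‖ ^ 2) ∧ ∫ x, ‖h x‖ ^ 2 ≤ C * ‖v‖ ^ 2 := by
  obtain ⟨κ, hκ⟩ := hl.exists_clm
  obtain ⟨C, hC, hb⟩ := pot_bound hl
  set e : 𝓢(Mink, ℂ) →ₗ[ℂ] Lp ℂ 2 (volume : Measure Mink) :=
    (SchwartzMap.toLpCLM ℂ ℂ 2 (volume : Measure Mink)).toLinearMap with he
  have hde : DenseRange e := SchwartzMap.denseRange_toLpCLM ENNReal.ofNat_ne_top
  have hbd : ∀ F : 𝓢(Mink, ℂ), ‖(κ : 𝓢(Mink, ℂ) →ₗ[ℂ] Completion D) F‖ ≤ C * ‖e F‖ := by
    intro F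
    have h1 := hb F
    rw [← hκ] at h1
    exact h1
  set K : Lp ℂ 2 (volume : Measure Mink) →L[ℂ] Completion D :=
    (κ : 𝓢(Mink, ℂ) →ₗ[ℂ] Completion D).extendOfNorm e with hK
  have hKe : ∀ F : 𝓢(Mink, ℂ), K (F.toLp 2 (volume : Measure Mink)) = l (fl F) := by
    intro F
    rw [← hκ]
    exact LinearMap.extendOfNorm_eq hde ⟨C, hbd⟩ F
  refine ⟨‖K‖ ^ 2, by positivity, fun v h hc hv => ?_⟩
  obtain ⟨G, hGn, hGr⟩ := exists_rep K (v : Completion D)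
  rw [Completion.norm_coe] at hGn
  have hGl : LocallyIntegrable (G : Mink → ℂ) (volume : Measure Mink) :=
    (Lp.memLp G).locallyIntegrable one_le_two
  have hFG : ∀ F : 𝓢(Mink, ℂ), IsTest Set.univ F →
      ∫ x, conj (F x) * h x = ∫ x, conj (F x) * (G : Mink → ℂ) x := by
    intro F hF
    rw [← hv F hF, ← hKe, hGr]
  have hae : ∀ᵐ x ∂(volume : Measure Mink), h x = G x := by
    refine ae_eq_of_integral_contDiff_smul_eq hc.locallyIntegrable hGl fun g hg hgc => ?_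
    set G' : Mink → ℂ := fun x => (g x : ℂ) with hG'
    have hGs : ContDiff ℝ ((⊤ : ℕ∞) : WithTop ℕ∞) G' := Complex.ofRealCLM.contDiff.comp hg
    have hGc : HasCompactSupport G' := hgc.comp_left (g := fun r : ℝ => (r : ℂ)) ofReal_zero
    have h2 := hFG (hGc.toSchwartzMap hGs) ⟨hGc, Set.subset_univ _⟩
    have h3 : ∀ (x : Mink) (z : ℂ), conj ((hGc.toSchwartzMap hGs : 𝓢(Mink, ℂ)) x) * z = g x • z := by
      intro x z
      rw [real_smul]
      show conj ((g x : ℝ) : ℂ) * z = _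
      rw [conj_ofReal]
    simpa only [h3] using h2
  have hn : ∫ x, ‖(G : Mink → ℂ) x‖ ^ 2 = ‖G‖ ^ 2 := L2_norm_sq G
  have hi : Integrable (fun x => ‖(G : Mink → ℂ) x‖ ^ 2) (volume : Measure Mink) :=
    (memLp_two_iff_integrable_sq_norm (Lp.memLp G).1).1 (Lp.memLp G)
  have hcongr : (fun x => ‖(G : Mink → ℂ) x‖ ^ 2) =ᵐ[volume] fun x => ‖h x‖ ^ 2 := by
    filter_upwards [hae] with x hx
    rw [hx]
  refine ⟨hi.congr hcongr, ?_⟩
  rw [← integral_congr_ae hcongr, hn, ← mul_pow]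
  exact pow_le_pow_left₀ (norm_nonneg _) hGn 2

end Vale.Agent.P352.H846

end
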