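import Vale.Agent.P352.H755.G1
import Mathlib.LinearAlgebra.Matrix.SchurComplement

/-!
# The box of the cut off profile tends weakly to zero
-/

set_option linter.all false

noncomputable section

open MeasureTheory Filter Topology Set
open scoped ContDiff ComplexConjugate

namespace Vale.Agent.P352.H846

open GF (Ix V Fn bas eta)
open H755

/-! ### The scaling matrices -/

/-- columns -/
def Um (a b : V) (R : ℝ) : Matrix Ix (Fin 2) ℝ :=
  Matrix.of fun i j => ![(R⁻¹ - 1) * b i, (R - 1) * a i] j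

/-- rows -/
def Vm (a b : V) : Matrix (Fin 2) Ix ℝ :=
  Matrix.of fun j i => ![eta i * a i, eta i * b i] j

/-- the scaling matrix -/
def ScM (a b : V) (R : ℝ) : Matrix Ix Ix ℝ := R⁻¹ • (1 + Um a b R * Vm a b)

/-- the scaling map -/
def Sc (a b : V) (R : ℝ) : V →L[ℝ] V := LinearMap.toContinuousLinearMap (Matrix.toLin' (ScM a b R))

lemma Sc_apply (a b : V) (R : ℝ) (y : V) : Sc a b R y =
    R⁻¹ • y + (R⁻¹ * (R⁻¹ - 1) * GF.mdot a y) • b + (R⁻¹ * (R - 1) * GF.mdot b y) • a := by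
  have h1 : Sc a b R y = (ScM a b R).mulVec y := rfl
  rw [h1, ScM, Matrix.smul_mulVec, Matrix.add_mulVec, Matrix.one_mulVec, ← Matrix.mulVec_mulVec]
  funext i
  simp only [Pi.smul_apply, Pi.add_apply, smul_eq_mul, Matrix.mulVec, dotProduct, Um, Vm,
    Matrix.of_apply, Fin.sum_univ_two, Matrix.cons_val_zero, Matrix.cons_val_one, GF.mdot,
    Fin.sum_univ_four]
  ring

lemma ScM_det {a b : V} (haa : GF.mdot a a = 0) (hbb : GF.mdot b b = 0) (hab : GF.mdot a b = 1)
    {R : ℝ} (hR : 0 < R) : (ScM a b R).det = R⁻¹ ^ 4 := by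
  rw [ScM, Matrix.det_smul, Matrix.det_one_add_mul_comm, Matrix.det_fin_two]
  have h00 : (Vm a b * Um a b R) 0 0 = (R⁻¹ - 1) * GF.mdot a b := by
    simp only [Matrix.mul_apply, Um, Vm, Matrix.of_apply, Matrix.cons_val_zero, GF.mdot,
      Fin.sum_univ_four]
    ring
  have h01 : (Vm a b * Um a b R) 0 1 = (R - 1) * GF.mdot a a := by
    simp only [Matrix.mul_apply, Um, Vm, Matrix.of_apply, Matrix.cons_val_zero,
      Matrix.cons_val_one, GF.mdot, Fin.sum_univ_four]
    ring
  have h11 : (Vm a b * Um a b R) 1 1 = (R - 1) * GF.mdot a b := by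
    simp only [Matrix.mul_apply, Um, Vm, Matrix.of_apply, Matrix.cons_val_zero,
      Matrix.cons_val_one, GF.mdot, Fin.sum_univ_four]
    ring
  simp only [Matrix.add_apply, h00, h01, h11, haa, hab, Matrix.one_apply]
  simp
  field_simp

lemma Sc_map {a b : V} (haa : GF.mdot a a = 0) (hbb : GF.mdot b b = 0) (hab : GF.mdot a b = 1)
    {R : ℝ} (hR : 0 < R) :
    Measure.map (Sc a b R) (volume : Measure V) = ENNReal.ofReal (R ^ 4) • (volume : Measure V) := by
  have hd : LinearMap.det (Matrix.toLin' (ScM a b R)) = R⁻¹ ^ 4 := by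
    rw [LinearMap.det_toLin', ScM_det haa hbb hab hR]
  have h := Measure.map_linearMap_addHaar_eq_smul_addHaar (volume : Measure V)
    (f := Matrix.toLin' (ScM a b R)) (by rw [hd]; positivity)
  have e : (Sc a b R : V → V) = Matrix.toLin' (ScM a b R) := rfl
  rw [e, h, hd]
  congr 2
  rw [abs_of_pos (by positivity)]
  field_simp

/-! ### The box -/

/-- second derivative -/
def D2 (F : V → ℝ) (y u v : V) : ℝ := fderiv ℝ (fun x => fderiv ℝ F x v) y u

lemma D2_eq {F : V → ℝ} (hF : ContDiff ℝ ∞ F) (y u v : V) :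
    D2 F y u v = fderiv ℝ (fderiv ℝ F) y u v := by
  unfold D2
  have h1 : DifferentiableAt ℝ (fderiv ℝ F) y :=
    ((hF.fderiv_right (m := ∞) (by simp)).differentiable (by simp)).differentiableAt
  rw [fderiv_clm_apply h1 (differentiableAt_const _)]
  simp

/-- the wave operator -/
def Bx4 (F : V → ℝ) (y : V) : ℝ := ∑ i, eta i * dr i (dr i F) y

lemma dr_dr {F : V → ℝ} (hF : ContDiff ℝ ∞ F) (i : Ix) (y : V) :
    dr i (dr i F) y = D2 F y (bas i 1) (bas i 1) := by
  have h1 : dr i F = fun x => fderiv ℝ F x (bas i 1) :=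
    funext fun x => dr_eq (hF.differentiable (by simp)) i x
  rw [h1]
  have h2 : ContDiff ℝ ∞ fun x => fderiv ℝ F x (bas i 1) :=
    (hF.fderiv_right (m := ∞) (by simp)).clm_apply contDiff_const
  exact dr_eq (h2.differentiable (by simp)) i y

lemma dr_comp {F : V → ℝ} (hF : ContDiff ℝ ∞ F) (S : V →L[ℝ] V) (i : Ix) (y : V) :
    dr i (dr i fun x => F (S x)) y = D2 F (S y) (S (bas i 1)) (S (bas i 1)) := by
  have hc : ∀ {H : V → ℝ}, ContDiff ℝ ∞ H → ∀ x, dr i (fun x => H (S x)) x =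
      fderiv ℝ H (S x) (S (bas i 1)) := by
    intro H hH x
    have h1 : ContDiff ℝ ∞ fun x => H (S x) := hH.comp S.contDiff
    rw [dr_eq (h1.differentiable (by simp))]
    have h2 : HasFDerivAt (fun x => H (S x)) ((fderiv ℝ H (S x)).comp S) x :=
      ((hH.differentiable (by simp)).differentiableAt.hasFDerivAt).comp x S.hasFDerivAt
    rw [h2.fderiv]
    rfl
  have h3 : (dr i fun x => F (S x)) = fun x => fderiv ℝ F (S x) (S (bas i 1)) :=
    funext fun x => hc hF x
  rw [h3]
  have h4 : ContDiff ℝ ∞ fun z => fderiv ℝ F z (S (bas i 1)) :=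
    (hF.fderiv_right (m := ∞) (by simp)).clm_apply contDiff_const
  exact hc h4 y

lemma bas_sum (a : V) : ∑ i, a i • (bas i 1 : V) = a := by
  funext n
  simp [bas, Finset.sum_apply]

lemma Bx4_comp {a b : V} (haa : GF.mdot a a = 0) (hbb : GF.mdot b b = 0) (hab : GF.mdot a b = 1)
    {F : V → ℝ} (hF : ContDiff ℝ ∞ F) {R : ℝ} (hR : 0 < R) (y : V) :
    Bx4 (fun x => F (Sc a b R x)) y = (R ^ 2)⁻¹ * Bx4 F (Sc a b R y) := by
  unfold Bx4
  simp_rw [dr_comp hF, dr_dr hF, D2_eq hF]
  set B : V →L[ℝ] V →L[ℝ] ℝ := fderiv ℝ (fderiv ℝ F) (Sc a b R y) with hB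
  have hS : ∀ i : Ix, Sc a b R (bas i 1) =
      R⁻¹ • (bas i 1 : V) + (R⁻¹ * (R⁻¹ - 1) * (eta i * a i)) • b +
        (R⁻¹ * (R - 1) * (eta i * b i)) • a := by
    intro i
    rw [Sc_apply, mdot_bas, mdot_bas]
  have r1 : ∀ v c : V, ∑ i, c i * B (bas i 1) v = B c v := by
    intro v c
    conv_rhs => rw [← bas_sum c]
    rw [map_sum, ContinuousLinearMap.sum_apply]
    refine Finset.sum_congr rfl fun i _ => ?_
    rw [map_smul]
    rfl
  have r2 : ∀ v c : V, ∑ i, c i * B v (bas i 1) = B v c := by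
    intro v c
    conv_rhs => rw [← bas_sum c]
    rw [map_sum]
    refine Finset.sum_congr rfl fun i _ => ?_
    rw [map_smul]
    rfl
  simp_rw [hS]
  simp only [map_add, map_smul, ContinuousLinearMap.add_apply, ContinuousLinearMap.smul_apply,
    smul_eq_mul]
  have q1 := r1 b a
  have q2 := r2 b a
  have q3 := r1 a b
  have q4 := r2 a b
  have he : ∀ i : Ix, eta i * eta i = 1 := by
    intro i
    unfold eta
    split_ifs <;> norm_num
  simp only [GF.mdot, Fin.sum_univ_four] at haa hbb hab q1 q2 q3 q4 ⊢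
  have hRR : R * R⁻¹ = 1 := mul_inv_cancel₀ hR.ne'
  rw [← inv_pow]
  set r : ℝ := R⁻¹ with hr
  linear_combination (r * (r * (r - 1))) * (q1 + q2) + (r * (r * (R - 1))) * (q3 + q4) +
    (r * (r - 1)) ^ 2 * B b b * haa + (r * (r - 1)) * (r * (R - 1)) * (B b a + B a b) * hab +
    (r * (R - 1)) ^ 2 * B a a * hbb + (B b a + B a b) * r ^ 2 * hRR +
    (r * (r * (r - 1)) * a 0 * (B (bas 0 1) b + B b (bas 0 1)) +
      r * (r * (R - 1)) * b 0 * (B (bas 0 1) a + B a (bas 0 1)) +
      eta 0 * ((r * (r - 1)) ^ 2 * a 0 ^ 2 * B b b +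
        (r * (r - 1)) * (r * (R - 1)) * a 0 * b 0 * (B b a + B a b) +
        (r * (R - 1)) ^ 2 * b 0 ^ 2 * B a a)) * he 0 +
    (r * (r * (r - 1)) * a 1 * (B (bas 1 1) b + B b (bas 1 1)) +
      r * (r * (R - 1)) * b 1 * (B (bas 1 1) a + B a (bas 1 1)) +
      eta 1 * ((r * (r - 1)) ^ 2 * a 1 ^ 2 * B b b +
        (r * (r - 1)) * (r * (R - 1)) * a 1 * b 1 * (B b a + B a b) +
        (r * (R - 1)) ^ 2 * b 1 ^ 2 * B a a)) * he 1 +
    (r * (r * (r - 1)) * a 2 * (B (bas 2 1) b + B b (bas 2 1)) +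
      r * (r * (R - 1)) * b 2 * (B (bas 2 1) a + B a (bas 2 1)) +
      eta 2 * ((r * (r - 1)) ^ 2 * a 2 ^ 2 * B b b +
        (r * (r - 1)) * (r * (R - 1)) * a 2 * b 2 * (B b a + B a b) +
        (r * (R - 1)) ^ 2 * b 2 ^ 2 * B a a)) * he 2 +
    (r * (r * (r - 1)) * a 3 * (B (bas 3 1) b + B b (bas 3 1)) +
      r * (r * (R - 1)) * b 3 * (B (bas 3 1) a + B a (bas 3 1)) +
      eta 3 * ((r * (r - 1)) ^ 2 * a 3 ^ 2 * B b b +
        (r * (r - 1)) * (r * (R - 1)) * a 3 * b 3 * (B b a + B a b) +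
        (r * (R - 1)) ^ 2 * b 3 ^ 2 * B a a)) * he 3

/-! ### Weak convergence to zero -/

lemma two_mul_le {x l δ : ℝ} (hδ : 0 < δ) : x * l - δ / 2 * x ^ 2 ≤ l ^ 2 / (2 * δ) := by
  rw [le_div_iff₀ (by positivity)]
  nlinarith [sq_nonneg (δ * x - l)]

section

variable {B : ℝ → V → ℝ} {K : ℝ} (hBc : ∀ R, 1 ≤ R → Continuous (B R))
  (hBi : ∀ R, 1 ≤ R → Integrable (fun y => B R y ^ 2) ∧ ∫ y, B R y ^ 2 ≤ K)
  (hB0 : ∀ y, Tendsto (fun R => B R y) atTop (𝓝 0))

include hBc hBi in
lemma wk_int {l : V → ℂ} (hl : Continuous l) (hl2 : Integrable fun y => ‖l y‖ ^ 2) {R : ℝ}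
    (hR : 1 ≤ R) : Integrable fun y => (B R y : ℂ) * l y := by
  refine Integrable.mono' ((hBi R hR).1.add hl2)
    (((Complex.continuous_ofReal.comp (hBc R hR)).mul hl).aestronglyMeasurable)
    (Eventually.of_forall fun y => ?_)
  rw [norm_mul, Complex.norm_real, Real.norm_eq_abs, Pi.add_apply]
  nlinarith [sq_nonneg (|B R y| - ‖l y‖), sq_abs (B R y), sq_nonneg (B R y), sq_nonneg ‖l y‖]

include hBc hBi in
lemma wk_bd {l : V → ℂ} (hl : Continuous l) (hl2 : Integrable fun y => ‖l y‖ ^ 2) {C : ℝ}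
    (hC : ∫ y, ‖l y‖ ^ 2 ≤ C) {R : ℝ} (hR : 1 ≤ R) (S : Set V) :
    ‖∫ y in S, (B R y : ℂ) * l y‖ ≤ K + C := by
  refine (norm_integral_le_integral_norm _).trans ?_
  refine (setIntegral_le_integral (wk_int hBc hBi hl hl2 hR).norm
    (Eventually.of_forall fun y => norm_nonneg _)).trans ?_
  have hi : Integrable fun y => B R y ^ 2 + ‖l y‖ ^ 2 := (hBi R hR).1.add hl2
  refine (integral_mono (wk_int hBc hBi hl hl2 hR).norm hi fun y => ?_).trans ?_
  · simp only
    rw [norm_mul, Complex.norm_real, Real.norm_eq_abs]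
    nlinarith [sq_nonneg (|B R y| - ‖l y‖), sq_abs (B R y), sq_nonneg (B R y), sq_nonneg ‖l y‖]
  · rw [integral_add (hBi R hR).1 hl2]
    exact add_le_add (hBi R hR).2 hC

include hBc hBi hB0 in
lemma wk_lim {l : V → ℂ} (hl : Continuous l) (hl2 : Integrable fun y => ‖l y‖ ^ 2) (S : Set V) :
    Tendsto (fun R => ∫ y in S, (B R y : ℂ) * l y) atTop (𝓝 0) := by
  have hK : 0 ≤ K := (integral_nonneg fun y => sq_nonneg _).trans (hBi 1 le_rfl).2
  rw [Metric.tendsto_nhds]
  intro ε hε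
  set δ : ℝ := ε / (K + 1) with hδ
  have hδ0 : 0 < δ := by positivity
  set h : ℝ → V → ℝ := fun R y => max (|B R y| * ‖l y‖ - δ / 2 * |B R y| ^ 2) 0 with hh
  have hhb : ∀ R y, h R y ≤ ‖l y‖ ^ 2 / (2 * δ) := fun R y =>
    max_le (two_mul_le hδ0) (by positivity)
  have hh0 : ∀ R y, 0 ≤ h R y := fun R y => le_max_right _ _
  have hhm : ∀ R, 1 ≤ R → AEStronglyMeasurable (h R) volume := by
    intro R hR
    have h1 := hBc R hR
    have h2 : Continuous (h R) := by
      simp only [hh]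
      fun_prop
    exact h2.aestronglyMeasurable
  have hli : Integrable fun y => ‖l y‖ ^ 2 / (2 * δ) := hl2.div_const _
  have hhi : ∀ R, 1 ≤ R → Integrable (h R) := fun R hR =>
    hli.mono' (hhm R hR) (Eventually.of_forall fun y => by
      rw [Real.norm_eq_abs, abs_of_nonneg (hh0 R y)]
      exact hhb R y)
  have hlim : Tendsto (fun R => ∫ y, h R y) atTop (𝓝 0) := by
    have h1 := tendsto_integral_filter_of_dominated_convergence (μ := (volume : Measure V))
      (l := atTop) (F := h) (f := fun _ => (0:ℝ)) (fun y => ‖l y‖ ^ 2 / (2 * δ))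
      ((eventually_ge_atTop (1:ℝ)).mono fun R hR => hhm R hR)
      (Eventually.of_forall fun R => Eventually.of_forall fun y => by
        rw [Real.norm_eq_abs, abs_of_nonneg (hh0 R y)]
        exact hhb R y) hli
      (Eventually.of_forall fun y => by
        have h2 : Tendsto (fun R => |B R y|) atTop (𝓝 0) := by
          simpa using (hB0 y).abs
        have h3 : Tendsto (fun R => max (|B R y| * ‖l y‖ - δ / 2 * |B R y| ^ 2) 0) atTop
            (𝓝 (max (0 * ‖l y‖ - δ / 2 * 0 ^ 2) 0)) :=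
          ((h2.mul_const _).sub ((h2.pow 2).const_mul _)).max tendsto_const_nhds
        have h5 : max (0 * ‖l y‖ - δ / 2 * 0 ^ 2) 0 = (0:ℝ) := by simp
        rw [h5] at h3
        exact h3)
    simpa using h1
  have h4 : ∀ᶠ R in atTop, ∫ y, h R y < ε / 2 :=
    hlim.eventually_lt_const (by positivity)
  filter_upwards [h4, eventually_ge_atTop (1:ℝ)] with R hR4 hR
  rw [dist_zero_right]
  have h5 : ‖∫ y in S, (B R y : ℂ) * l y‖ ≤ ∫ y, (δ / 2 * B R y ^ 2 + h R y) := by
    refine (norm_integral_le_integral_norm _).trans ?_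
    refine (setIntegral_le_integral (wk_int hBc hBi hl hl2 hR).norm
      (Eventually.of_forall fun y => norm_nonneg _)).trans ?_
    refine integral_mono (wk_int hBc hBi hl hl2 hR).norm
      (((hBi R hR).1.const_mul _).add (hhi R hR)) fun y => ?_
    rw [norm_mul, Complex.norm_real, Real.norm_eq_abs]
    have h6 := le_max_left (|B R y| * ‖l y‖ - δ / 2 * |B R y| ^ 2) 0
    rw [sq_abs] at h6
    simp only [hh, sq_abs]
    linarith
  rw [integral_add ((hBi R hR).1.const_mul _) (hhi R hR), integral_const_mul] at h5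
  have h7 : δ / 2 * ∫ y, B R y ^ 2 ≤ δ / 2 * K :=
    mul_le_mul_of_nonneg_left (hBi R hR).2 (by positivity)
  have h8 : δ / 2 * K ≤ ε / 2 := by
    rw [hδ]
    have : ε / (K + 1) / 2 * K = ε / 2 * (K / (K + 1)) := by field_simp
    rw [this]
    have h9 : K / (K + 1) ≤ 1 := by
      rw [div_le_one (by positivity)]
      linarith
    calc ε / 2 * (K / (K + 1)) ≤ ε / 2 * 1 := mul_le_mul_of_nonneg_left h9 (by positivity)
      _ = ε / 2 := mul_one _
  linarith

include hBc hBi hB0 in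
/-- weak convergence, integrated over a compact set of parameters -/
theorem wk_main {α : V →L[ℝ] ℝ} {ψ : ℝ → ℂ} (hψ : Continuous ψ) (hψc : HasCompactSupport ψ)
    {L : ℝ → V → ℂ} (hL : Continuous (Function.uncurry L)) (C : ℝ)
    (hL2 : ∀ u ∈ tsupport ψ, Integrable (fun y => ‖L u y‖ ^ 2) ∧ ∫ y, ‖L u y‖ ^ 2 ≤ C) :
    (∀ R, 1 ≤ R → Integrable fun u => ψ u * ∫ y in Hs α u, (B R y : ℂ) * L u y) ∧
    Tendsto (fun R => ∫ u, ψ u * ∫ y in Hs α u, (B R y : ℂ) * L u y) atTop (𝓝 0) := by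
  have hLc : ∀ u, Continuous (L u) := fun u => by
    show Continuous fun y => Function.uncurry L (u, y)
    exact hL.comp (by fun_prop)
  have hmeas : ∀ R, 1 ≤ R → AEStronglyMeasurable
      (fun u => ψ u * ∫ y in Hs α u, (B R y : ℂ) * L u y) volume := by
    intro R hR
    refine hψ.aestronglyMeasurable.mul ?_
    have hm : MeasurableSet {p : ℝ × V | α p.2 < p.1} :=
      measurableSet_lt (α.continuous.measurable.comp measurable_snd) measurable_fst
    have hc : Continuous fun p : ℝ × V => (B R p.2 : ℂ) * L p.1 p.2 :=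
      ((Complex.continuous_ofReal.comp ((hBc R hR).comp continuous_snd))).mul hL
    have h1 : StronglyMeasurable ({p : ℝ × V | α p.2 < p.1}.indicator
        fun p : ℝ × V => (B R p.2 : ℂ) * L p.1 p.2) := hc.stronglyMeasurable.indicator hm
    have h2 := h1.integral_prod_right' (ν := (volume : Measure V))
    have h3 : (fun u => ∫ y in Hs α u, (B R y : ℂ) * L u y) = fun u => ∫ y,
        ({p : ℝ × V | α p.2 < p.1}.indicator fun p : ℝ × V => (B R p.2 : ℂ) * L p.1 p.2) (u, y) := by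
      funext u
      rw [← integral_indicator (measurableSet_Hs u)]
      rfl
    rw [h3]
    exact h2.aestronglyMeasurable
  have hbd : ∀ R, 1 ≤ R → ∀ u, ‖ψ u * ∫ y in Hs α u, (B R y : ℂ) * L u y‖ ≤ ‖ψ u‖ * (K + C) := by
    intro R hR u
    rw [norm_mul]
    by_cases hu : u ∈ tsupport ψ
    · exact mul_le_mul_of_nonneg_left
        (wk_bd hBc hBi (hLc u) (hL2 u hu).1 (hL2 u hu).2 hR _) (norm_nonneg _)
    · rw [image_eq_zero_of_notMem_tsupport hu]
      simp
  have hbi : Integrable fun u => ‖ψ u‖ * (K + C) :=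
    ((hψ.integrable_of_hasCompactSupport hψc).norm).mul_const _
  refine ⟨fun R hR => hbi.mono' (hmeas R hR) (Eventually.of_forall fun u => hbd R hR u), ?_⟩
  have h1 := tendsto_integral_filter_of_dominated_convergence (μ := (volume : Measure ℝ))
    (l := atTop) (F := fun R u => ψ u * ∫ y in Hs α u, (B R y : ℂ) * L u y)
    (f := fun _ => (0:ℂ)) (fun u => ‖ψ u‖ * (K + C))
    ((eventually_ge_atTop (1:ℝ)).mono fun R hR => hmeas R hR)
    ((eventually_ge_atTop (1:ℝ)).mono fun R hR => Eventually.of_forall fun u => hbd R hR u) hbi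
    (Eventually.of_forall fun u => by
      by_cases hu : u ∈ tsupport ψ
      · have h2 := (wk_lim hBc hBi hB0 (hLc u) (hL2 u hu).1 (Hs α u)).const_mul (ψ u)
        simpa using h2
      · rw [image_eq_zero_of_notMem_tsupport hu]
        simp)
  simpa using h1

end

/-! ### The profile -/

/-- ROW BX -/
theorem box_lim {a b : V} (haa : GF.mdot a a = 0) (hbb : GF.mdot b b = 0) (hab : GF.mdot a b = 1)
    {κ : V → ℝ} (hκ : Tst κ) (hκ1 : ∀ᶠ x in 𝓝 (0 : V), κ x = 1) {σ : ℝ → ℝ} (hσ : Tst σ)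
    {ψ : ℝ → ℂ} (hψ : Continuous ψ) (hψc : HasCompactSupport ψ) {L : ℝ → V → ℂ}
    (hL : Continuous (Function.uncurry L)) (C : ℝ)
    (hL2 : ∀ u ∈ tsupport ψ, Integrable (fun y => ‖L u y‖ ^ 2) ∧ ∫ y, ‖L u y‖ ^ 2 ≤ C) :
    (∀ R, 1 ≤ R → Integrable fun u => ψ u * ∫ y in Hs (ml a) u, (∑ i, (eta i : ℂ) *
      (dr i (dr i fun x => cut b a κ R x * σ (GF.mdot b x)) y : ℂ)) * L u y) ∧
    Tendsto (fun R => ∫ u, ψ u * ∫ y in Hs (ml a) u, (∑ i, (eta i : ℂ) *
      (dr i (dr i fun x => cut b a κ R x * σ (GF.mdot b x)) y : ℂ)) * L u y) atTop (𝓝 0) := by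
  set F : V → ℝ := fun z => κ (z - GF.mdot b z • a) * σ (GF.mdot b z) with hF
  have hba : GF.mdot b a = 1 := by
    rw [← hab]
    simp only [GF.mdot]
    exact Finset.sum_congr rfl fun i _ => by ring
  have hml : (fun z : V => GF.mdot b z) = ml b := funext fun z => (ml_apply b z).symm
  have hFs : ContDiff ℝ ∞ F := by
    have h1 : ContDiff ℝ ∞ fun z : V => GF.mdot b z := by
      rw [hml]
      exact (ml b).contDiff
    have h2 : ContDiff ℝ ∞ fun z : V => z - GF.mdot b z • a :=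
      contDiff_id.sub (h1.smul contDiff_const)
    exact (hκ.1.comp h2).mul (hσ.1.comp h1)
  have hFc : HasCompactSupport F := by
    obtain ⟨R1, hR1⟩ := hκ.2.isCompact.isBounded.subset_closedBall (0 : V)
    obtain ⟨R2, hR2⟩ := hσ.2.isCompact.isBounded.subset_closedBall (0 : ℝ)
    refine HasCompactSupport.intro (isCompact_closedBall (0:V) (R1 + R2 * ‖a‖)) ?_
    intro z hz
    by_contra hne
    apply hz
    have h1 : κ (z - GF.mdot b z • a) ≠ 0 := fun h => hne (by simp [hF, h])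
    have h2 : σ (GF.mdot b z) ≠ 0 := fun h => hne (by simp [hF, h])
    have h3 := hR1 (subset_tsupport _ (Function.mem_support.mpr h1))
    have h4 := hR2 (subset_tsupport _ (Function.mem_support.mpr h2))
    rw [mem_closedBall_zero_iff] at h3 h4 ⊢
    have h5 : z = (z - GF.mdot b z • a) + GF.mdot b z • a := by abel
    calc ‖z‖ = ‖(z - GF.mdot b z • a) + GF.mdot b z • a‖ := by rw [← h5]
      _ ≤ ‖z - GF.mdot b z • a‖ + ‖GF.mdot b z • a‖ := norm_add_le _ _
      _ ≤ R1 + R2 * ‖a‖ := by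
          rw [norm_smul]
          exact add_le_add h3 (mul_le_mul_of_nonneg_right h4 (norm_nonneg _))
  have hFt : Tst F := ⟨hFs, hFc⟩
  have hcut : ∀ R : ℝ, 0 < R → (fun x => cut b a κ R x * σ (GF.mdot b x)) =
      fun x => F (Sc a b R x) := by
    intro R hR
    funext x
    have e1 : GF.mdot b (Sc a b R x) = GF.mdot b x := by
      rw [Sc_apply]
      have : ∀ (p q : V) (c : ℝ), GF.mdot b (p + c • q) = GF.mdot b p + c * GF.mdot b q := by
        intro p q c
        simp only [GF.mdot, Pi.add_apply, Pi.smul_apply, smul_eq_mul, Finset.mul_sum,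
          ← Finset.sum_add_distrib]
        exact Finset.sum_congr rfl fun i _ => by ring
      rw [this, this, hbb, hba]
      have h0 : GF.mdot b (R⁻¹ • x) = R⁻¹ * GF.mdot b x := by
        simp only [GF.mdot, Pi.smul_apply, smul_eq_mul, Finset.mul_sum]
        exact Finset.sum_congr rfl fun i _ => by ring
      rw [h0]
      field_simp
      ring
    simp only [hF, e1]
    congr 1
    unfold cut
    congr 1
    rw [Sc_apply]
    funext i
    simp only [Pi.add_apply, Pi.sub_apply, Pi.smul_apply, smul_eq_mul]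
    field_simp
    ring
  set G : V → ℝ := Bx4 F with hG
  have hGc : Continuous G := by
    rw [hG]
    unfold Bx4
    exact continuous_finset_sum _ fun i _ => continuous_const.mul ((hFt.dr i).dr i).cont
  have hGs : HasCompactSupport G := by
    have h1 : ∀ i, HasCompactSupport fun y => eta i * dr i (dr i F) y := fun i =>
      (((hFt.dr i).dr i).2).mul_left
    have h2 : G = fun y => eta 0 * dr 0 (dr 0 F) y + eta 1 * dr 1 (dr 1 F) y +
        eta 2 * dr 2 (dr 2 F) y + eta 3 * dr 3 (dr 3 F) y := by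
      funext y
      simp only [hG, Bx4, Fin.sum_univ_four]
    rw [h2]
    exact (((h1 0).add (h1 1)).add (h1 2)).add (h1 3)
  obtain ⟨M, hM⟩ := hGs.exists_bound_of_continuous hGc
  have hGi : Integrable fun y => G y ^ 2 := by
    have h1 : HasCompactSupport fun y => G y ^ 2 := by
      have : (fun y => G y ^ 2) = fun y => G y * G y := by funext y; ring
      rw [this]
      exact hGs.mul_left
    exact (hGc.pow 2).integrable_of_hasCompactSupport h1
  set B : ℝ → V → ℝ := fun R y => (R ^ 2)⁻¹ * G (Sc a b R y) with hB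
  have hBe : ∀ R : ℝ, 0 < R → ∀ y, (∑ i, (eta i : ℂ) *
      (dr i (dr i fun x => cut b a κ R x * σ (GF.mdot b x)) y : ℂ)) = (B R y : ℂ) := by
    intro R hR y
    rw [hcut R hR]
    have h1 := Bx4_comp haa hbb hab hFs hR y
    simp only [hB, hG]
    rw [← h1]
    unfold Bx4
    push_cast
    rfl
  have hBc : ∀ R, 1 ≤ R → Continuous (B R) := fun R _ =>
    continuous_const.mul (hGc.comp (Sc a b R).continuous)
  have hBi : ∀ R, 1 ≤ R → Integrable (fun y => B R y ^ 2) ∧ ∫ y, B R y ^ 2 ≤ ∫ y, G y ^ 2 := by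
    intro R hR
    have hR0 : 0 < R := by linarith
    have hmap := Sc_map haa hbb hab hR0
    have hSm : AEMeasurable (Sc a b R) (volume : Measure V) :=
      (Sc a b R).continuous.measurable.aemeasurable
    have h1 : Integrable (fun y => G y ^ 2) (Measure.map (Sc a b R) volume) := by
      rw [hmap]
      exact hGi.smul_measure ENNReal.ofReal_ne_top
    have h2 : Integrable (fun y => G (Sc a b R y) ^ 2) := by
      have := (integrable_map_measure (hGc.pow 2).aestronglyMeasurable hSm).1 h1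
      exact this
    have h3 : ∫ y, G (Sc a b R y) ^ 2 = R ^ 4 * ∫ y, G y ^ 2 := by
      have h4 := integral_map hSm (f := fun y => G y ^ 2) (hGc.pow 2).aestronglyMeasurable
      rw [hmap, integral_smul_measure, ENNReal.toReal_ofReal (by positivity), smul_eq_mul] at h4
      exact h4.symm
    have h5 : (fun y => B R y ^ 2) = fun y => ((R ^ 2)⁻¹) ^ 2 * G (Sc a b R y) ^ 2 := by
      funext y
      simp only [hB]
      ring
    rw [h5]
    refine ⟨h2.const_mul _, ?_⟩
    rw [integral_const_mul, h3]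
    apply le_of_eq
    field_simp
  have hB0 : ∀ y, Tendsto (fun R => B R y) atTop (𝓝 0) := by
    intro y
    have h1 : Tendsto (fun R : ℝ => (R ^ 2)⁻¹ * M) atTop (𝓝 0) := by
      have h2 : Tendsto (fun R : ℝ => (R ^ 2)⁻¹) atTop (𝓝 0) :=
        tendsto_inv_atTop_zero.comp (tendsto_pow_atTop two_ne_zero)
      simpa using h2.mul_const M
    refine squeeze_zero_norm (fun R => ?_) h1
    simp only [hB]
    rw [norm_mul]
    refine mul_le_mul ?_ (hM _) (norm_nonneg _) (by positivity)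
    rw [Real.norm_eq_abs, abs_of_nonneg (by positivity)]
  obtain ⟨h1, h2⟩ := wk_main (α := ml a) hBc hBi hB0 hψ hψc hL C hL2
  constructor
  · intro R hR
    have h3 := h1 R hR
    have hR0 : 0 < R := by linarith
    simp_rw [hBe R hR0]
    exact h3
  · refine h2.congr' ?_
    filter_upwards [eventually_gt_atTop (0:ℝ)] with R hR
    simp_rw [hBe R hR]

end Vale.Agent.P352.H846

end
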