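import Vale.Agent.P352.H755.Lfg

/-!
# The symmetry of the light front forms, for one vector
-/

set_option linter.all false

noncomputable section

open MeasureTheory SchwartzMap Filter Topology Set
open Complex hiding eta
open scoped SchwartzMap ComplexConjugate ENNReal NNReal LineDeriv ContDiff

namespace Vale.Agent.P352.H846

open GF (Ix V Fn Sch ev pd bar sim bas o eta)
open H246 H496 H746 H755
open UniformSpace (Completion)

variable {D : Type*} [NormedAddCommGroup D] [InnerProductSpace ℂ D]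

/-- the properties of the vacuum time ordered products, tested with one vector `X` -/
structure TPx (Q : GF.Theory D) (J : Ix → GF.Fld D) (G : V → D → D) (κ : V → ℝ)
    (t : (Ix → V → ℝ) → (Ix → V → ℝ) → D → ℂ)
    (s : (Ix → Ix → V → ℝ) → (Ix → V → ℝ) → D → ℂ) (X : D) : Prop where
  symm : ∀ f h, (∀ i, Tst (f i)) → (∀ i, Tst (h i)) → t f h X = t h f X
  ward : ∀ (Y : V → V) (ψ : V → ℝ) (h : Ix → V → ℝ), (∀ i, Tst fun x => Y x i) → Tst ψ →
    (∀ i, Tst (h i)) →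
    s (fun i j x => (eta j * dr i (fun y => Y y j) x + eta i * dr j (fun y => Y y i) x) / 2 -
        ψ x * bas i (eta i) j) h X - t (fun i => dr i ψ) h X =
      -Complex.I * inner ℂ (∑ i, J i (fun x => (act Y ψ h i x : ℂ)) Q.vac) X
  light : ∀ a b Φ h, IsNull a → IsNull b → GF.mdot a b = 1 → Tst Φ → (∀ i, Tst (h i)) →
    Tendsto (fun R => s (fun i j x =>
        (eta j * dr i (fun y => cut a b κ R y * Yf a b Φ y j) x +
          eta i * dr j (fun y => cut a b κ R y * Yf a b Φ y i) x) / 2 -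
        cut a b κ R x * deriv Φ (GF.mdot a x) * bas i (eta i) j) h X) atTop
      (𝓝 (∫ u, (deriv (deriv (deriv Φ)) u / 2 : ℂ) * ∫ y in {y | GF.mdot a y < u},
        ∑ i, (h i y : ℂ) * vj Q J i (Q.U 1 GF.one (-y) (Q.U 1 GF.one (u • b)
          (G a (Q.U 1 GF.one (-(u • b)) X))))))
  joint : ∀ a b φ σ, IsNull a → IsNull b → GF.mdot a b = 1 → Tst φ → Tst σ →
    ∃ c, Tendsto (fun R : ℝ × ℝ => t (fun i => dr i fun x => cut a b κ R.1 x * φ (GF.mdot a x))
      (fun i => dr i fun x => cut b a κ R.2 x * σ (GF.mdot b x)) X) atTop (𝓝 c)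

/-- the full structure gives the structure for one vector -/
theorem TPx.of_TProd {Q : GF.Theory D} {J : Ix → GF.Fld D} {G : V → D → D} {κ : V → ℝ}
    {t : (Ix → V → ℝ) → (Ix → V → ℝ) → D → ℂ}
    {s : (Ix → Ix → V → ℝ) → (Ix → V → ℝ) → D → ℂ} (hT : TProd Q J G κ t s) (m : Ix) {g : Fn}
    (hg : GF.IsTest g) : TPx Q J G κ t s (J m g Q.vac) where
  symm f h hf hh := hT.symm f h m g hf hh hg
  ward Y ψ h hY hψ hh := hT.ward Y ψ h m g hY hψ hh hg
  light a b Φ h ha hb hab hΦ hh := hT.light a b Φ h m g ha hb hab hΦ hh hg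
  joint a b φ σ ha hb hab hφ hσ := hT.joint a b φ σ m g ha hb hab hφ hσ hg

variable {Q : GF.Theory D}
variable {H : D → D} {alg : Set V → Set (D → D)} {S : V → ℝ → D → D}

/-- the time ordered product of two plane sources, first one on the light front -/
theorem sid_lim1 (N : CNet Q H alg S) {G : V → D → D} (Gg : Gnr Q alg S G)
    {T : Ix → Ix → GF.Fld D} {J : Ix → GF.Fld D} (hJ : IsVirial Q T J)
    {l : Fn → Completion D} (hl : IsPot Q T l) {κ : V → ℝ}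
    {t : (Ix → V → ℝ) → (Ix → V → ℝ) → D → ℂ}
    {s : (Ix → Ix → V → ℝ) → (Ix → V → ℝ) → D → ℂ} {X : D} (hT : TPx Q J G κ t s X)
    (hκ : Tst κ) (hκ1 : ∀ᶠ x in 𝓝 (0 : V), κ x = 1) {a b : V} (ha : IsNull a) (hb : IsNull b)
    (hab : GF.mdot a b = 1) {Φ σ : ℝ → ℝ} (hΦ : Tst Φ) (hσ : Tst σ)
    (i1 : Integrable fun y : V => ((deriv (deriv (deriv Φ)) (GF.mdot a y) * σ (GF.mdot b y) : ℝ) : ℂ) *
      vc Q J a (pl Q G a b X y))
    (i2 : Integrable fun y : V => ((deriv (deriv (deriv Φ)) (GF.mdot a y) *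
      deriv σ (GF.mdot b y) : ℝ) : ℂ) * vl l (pl Q G a b X y))
    (hi : ∀ c, Integrable fun y : V => (1 + ‖y‖) ^ 2 * ‖vj Q J c (Q.U 1 GF.one (-y) X)‖) {c : ℂ}
    (hc : Tendsto (fun R : ℝ × ℝ => t (fun i => dr i fun x => cut a b κ R.1 x *
      deriv Φ (GF.mdot a x)) (fun i => dr i fun x => cut b a κ R.2 x * σ (GF.mdot b x)) X) atTop
      (𝓝 c)) :
    c = Sid a b (deriv Φ) σ (fun y => vc Q J a (pl Q G a b X y))
        (fun y => vl l (pl Q G a b X y)) (fun y => vc Q J b (Q.U 1 GF.one (-y) X))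
        (fun y => vc Q J (prp a b y) (Q.U 1 GF.one (-y) X)) := by
  have hba : GF.mdot b a = 1 := by rw [H755.mdot_comm, hab]
  refine joint_unique hc (fun r hr => ?_)
    (lim_inn N Gg hJ hl ha hb hab hκ hκ1 hΦ hσ X i1 i2 hi)
  have h1 : ∀ i, Tst (dr i (H755.Sc a b κ σ r)) := fun i =>
    (H846.cut_tst hb.1 ha.1 hba hκ hσ hr).dr i
  exact lfw_core (G := G) X (fun Y ψ h hY hψ hh => hT.ward Y ψ h hY hψ hh) h1
    (hT.light a b Φ _ ha hb hab hΦ h1) hκ hκ1 ha.1 hb.1 hab hΦ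

/-- THE TWO LIGHT FRONT FORMS AGREE -/
theorem sid_symm1 (N : CNet Q H alg S) {G : V → D → D} (Gg : Gnr Q alg S G)
    {T : Ix → Ix → GF.Fld D} {J : Ix → GF.Fld D} (hJ : IsVirial Q T J)
    {l : Fn → Completion D} (hl : IsPot Q T l) {κ : V → ℝ}
    {t : (Ix → V → ℝ) → (Ix → V → ℝ) → D → ℂ}
    {s : (Ix → Ix → V → ℝ) → (Ix → V → ℝ) → D → ℂ} {X : D} (hT : TPx Q J G κ t s X)
    (hκ : Tst κ) (hκ1 : ∀ᶠ x in 𝓝 (0 : V), κ x = 1) {a b : V} (ha : IsNull a) (hb : IsNull b)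
    (hab : GF.mdot a b = 1)
    (hpa : ∀ s w, GF.mdot a w = 0 → Ptr Q S a s w) (hpb : ∀ s w, GF.mdot b w = 0 → Ptr Q S b s w)
    {Φ Sig : ℝ → ℝ} (hΦ : Tst Φ) (hSig : Tst Sig)
    (n0a : ∀ y, vc Q J a (G a (Q.U 1 GF.one (-y) X)) = 0)
    (n0b : ∀ y, vc Q J b (G b (Q.U 1 GF.one (-y) X)) = 0)
    (Am : Ix → 𝓢(V, ℂ)) (hAm : ∀ m y, vj Q J m (Q.U 1 GF.one (-y) X) = Am m y)
    (Lm : 𝓢(V, ℂ)) (hLm : ∀ y, vl l (Q.U 1 GF.one (-y) X) = Lm y)
    (Z Z' : 𝓢(V, ℂ)) (hZ : ∀ y, vl l (G a (Q.U 1 GF.one (-y) X)) = Z y)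
    (hZ' : ∀ y, vl l (G b (Q.U 1 GF.one (-y) X)) = Z' y) :
    Sid a b (deriv Φ) (deriv Sig) (fun y => vc Q J a (pl Q G a b X y))
        (fun y => vl l (pl Q G a b X y)) (fun y => vc Q J b (Q.U 1 GF.one (-y) X))
        (fun y => vc Q J (prp a b y) (Q.U 1 GF.one (-y) X)) =
      Sid b a (deriv Sig) (deriv Φ) (fun y => vc Q J b (pl Q G b a X y))
        (fun y => vl l (pl Q G b a X y)) (fun y => vc Q J a (Q.U 1 GF.one (-y) X))
        (fun y => vc Q J (prp b a y) (Q.U 1 GF.one (-y) X)) := by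
  have hba : GF.mdot b a = 1 := by rw [H755.mdot_comm, hab]
  set Ac : V → 𝓢(V, ℂ) := fun c => ∑ m, ((GF.eta m * c m : ℝ) : ℂ) • Am m with hAc
  have hAc' : ∀ c y, vc Q J c (Q.U 1 GF.one (-y) X) = Ac c y := by
    intro c y
    simp only [vc, hAm, hAc, SchwartzMap.sum_apply, SchwartzMap.smul_apply, smul_eq_mul]
  have hi : ∀ c, Integrable fun y : V => (1 + ‖y‖) ^ 2 * ‖vj Q J c (Q.U 1 GF.one (-y) X)‖ := by
    intro c
    simp only [hAm]
    have h1 : Integrable fun y : V => (((1 + ‖y‖) ^ 2 : ℝ) : ℂ) * Am c y := by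
      refine int_pol (Am c) (M := 2) (by fun_prop) fun y => ?_
      rw [norm_real, Real.norm_eq_abs, abs_of_nonneg (by positivity)]
      nlinarith [sq_nonneg (1 - ‖y‖)]
    refine h1.norm.congr (Eventually.of_forall fun y => ?_)
    simp only
    rw [norm_mul, norm_real, Real.norm_eq_abs, abs_of_nonneg (by positivity)]
  -- integrability on the light fronts
  have key : ∀ (a b : V) (ha : IsNull a) (hb : IsNull b) (hab : GF.mdot a b = 1)
      (hpa : ∀ s w, GF.mdot a w = 0 → Ptr Q S a s w)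
      (n0a : ∀ y, vc Q J a (G a (Q.U 1 GF.one (-y) X)) = 0)
      (Z : 𝓢(V, ℂ)) (hZ : ∀ y, vl l (G a (Q.U 1 GF.one (-y) X)) = Z y) (θ τ : ℝ → ℝ)
      (hθ : Bd θ) (hτ : Bd τ),
      (Integrable fun y : V => ((θ (GF.mdot a y) * τ (GF.mdot b y) : ℝ) : ℂ) *
        vc Q J a (pl Q G a b X y)) ∧
      Integrable fun y : V => ((θ (GF.mdot a y) * τ (GF.mdot b y) : ℝ) : ℂ) *
        vl l (pl Q G a b X y) := by
    intro a b ha hb hab hpa n0a Z hZ θ τ hθ hτ
    constructor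
    · refine ((int_profW hθ hτ a b (∂_{a} (Ac a) : 𝓢(V, ℂ))).const_mul I).congr
        (Eventually.of_forall fun y => ?_)
      simp only
      rw [plane_vc N Gg hJ ha hb hab hpa (Ac a) (hAc' a) y, n0a]
      push_cast
      ring
    · refine ((int_prof hθ hτ a b Z).add ((int_profW hθ hτ a b
        (∂_{a} Lm : 𝓢(V, ℂ))).const_mul I)).congr (Eventually.of_forall fun y => ?_)
      simp only [Pi.add_apply]
      rw [plane_vl N Gg hl ha hb hab hpa Lm hLm y, hZ]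
      push_cast
      ring
  obtain ⟨c, hc⟩ := hT.joint a b (deriv Φ) (deriv Sig) ha hb hab (tst_deriv hΦ)
    (tst_deriv hSig)
  have hc' : Tendsto (fun R : ℝ × ℝ => t (fun i => dr i fun x => cut b a κ R.1 x *
      deriv Sig (GF.mdot b x)) (fun i => dr i fun x => cut a b κ R.2 x * deriv Φ (GF.mdot a x)) X)
      atTop (𝓝 c) := by
    have h1 : Tendsto (fun R : ℝ × ℝ => (R.2, R.1)) atTop atTop := by
      rw [← prod_atTop_atTop_eq]
      exact tendsto_snd.prodMk tendsto_fst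
    refine (hc.comp h1).congr' ?_
    rw [← prod_atTop_atTop_eq]
    filter_upwards [prod_mem_prod (eventually_ge_atTop (1 : ℝ)) (eventually_ge_atTop (1 : ℝ))]
      with R hR
    have hR1 : (1 : ℝ) ≤ R.1 := hR.1
    have hR2 : (1 : ℝ) ≤ R.2 := hR.2
    simp only [Function.comp_apply]
    exact hT.symm _ _ (fun i => (H846.cut_tst ha.1 hb.1 hab hκ (tst_deriv hΦ) hR2).dr i)
      (fun i => (H846.cut_tst hb.1 ha.1 hba hκ (tst_deriv hSig) hR1).dr i)
  have k1 := key a b ha hb hab hpa n0a Z hZ (deriv (deriv (deriv Φ))) (deriv Sig)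
    (tst_bd (tst_deriv (tst_deriv (tst_deriv hΦ)))) (tst_bd (tst_deriv hSig))
  have k2 := key a b ha hb hab hpa n0a Z hZ (deriv (deriv (deriv Φ))) (deriv (deriv Sig))
    (tst_bd (tst_deriv (tst_deriv (tst_deriv hΦ)))) (tst_bd (tst_deriv (tst_deriv hSig)))
  have k3 := key b a hb ha hba hpb n0b Z' hZ' (deriv (deriv (deriv Sig))) (deriv Φ)
    (tst_bd (tst_deriv (tst_deriv (tst_deriv hSig)))) (tst_bd (tst_deriv hΦ))
  have k4 := key b a hb ha hba hpb n0b Z' hZ' (deriv (deriv (deriv Sig))) (deriv (deriv Φ))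
    (tst_bd (tst_deriv (tst_deriv (tst_deriv hSig)))) (tst_bd (tst_deriv (tst_deriv hΦ)))
  rw [← sid_lim1 N Gg hJ hl hT hκ hκ1 ha hb hab hΦ (tst_deriv hSig) k1.1 k2.2 hi hc,
    ← sid_lim1 N Gg hJ hl hT hκ hκ1 hb ha hba hSig (tst_deriv hΦ) k3.1 k4.2 hi hc']


end Vale.Agent.P352.H846

end
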