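import Vale.Agent.P352.H846.ConfFDefs
import Vale.Agent.P352.H496.CurlMain

/-!
# Traceless improvements and conformal invariance
-/

set_option linter.all false

noncomputable section

open MeasureTheory Filter Topology Set
open scoped ContDiff ComplexConjugate SchwartzMap

namespace Vale.Agent.P352.H846

open GF (Ix V Fn Fld Theory bas eta pd bar sim o)
open H246 H496 H15 H755
open SubConf (IsKil IsAdj Comm chg IsLoc Drives IsCurve)
open UniformSpace (Completion)

variable {D : Type*} [NormedAddCommGroup D] [InnerProductSpace ℂ D] {Q : GF.Theory D}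
  {T t : Ix → Ix → GF.Fld D} {A B : GF.Fld D}

/-- the tensor with values in the Hilbert space -/
def hv (t : Ix → Ix → GF.Fld D) : Ix → Ix → Fn → D → Completion D :=
  fun m n f v => ((t m n f v : D) : Completion D)

lemma isTest_bar' {f : Fn} (hf : GF.IsTest f) : GF.IsTest (bar f) := by
  obtain ⟨F, rfl⟩ := exists_fl hf
  rw [bar_fl]
  exact isTest_fl _

lemma impr_linv (ht : IsImpr Q T t) (m n : Ix) {f : Fn} (hf : GF.IsTest f) (c : ℂ) (v w : D) :
    t m n f (v + c • w) = t m n f v + c • t m n f w := by
  have hb : bar (bar f) = f := by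
    funext x
    simp [bar]
  refine ext_inner_left ℂ fun z => ?_
  have h := fun u => ht.herm m n (bar f) z u (isTest_bar' hf)
  rw [hb] at h
  rw [inner_add_right, inner_smul_right, ← h, ← h, ← h, inner_add_right, inner_smul_right]

lemma impr_loc (ht : IsImpr Q T t) (m n : Ix) : IsLoc Q (hv t m n) (hv t m n) where
  linf f g c v hf hg := by
    unfold hv
    rw [ht.lin m n f g c v hf hg]
    push_cast
    rfl
  linv f c v w hf := by
    unfold hv
    rw [impr_linv ht m n hf]
    push_cast
    rfl
  cont v := by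
    unfold hv
    exact (UniformSpace.Completion.continuous_coe D).comp (ht.cont m n v)
  adj f v w hf := by
    unfold hv
    rw [Completion.inner_coe, Completion.inner_coe]
    exact ht.herm m n f v w hf
  transl a f v z hf := by
    unfold hv
    rw [Completion.inner_coe, Completion.inner_coe,
      ht.cov m n 1 GF.one a f v one_pos isLor_one hf]
    have e : ∑ k, ∑ l, ((GF.one k m : ℂ) * (GF.one l n : ℂ)) •
        Q.U 1 GF.one a (t k l (fun x => f (sim 1 GF.one a x)) v) =
        Q.U 1 GF.one a (t m n (fun x => f (sim 1 GF.one a x)) v) := by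
      rw [Finset.sum_eq_single m, Finset.sum_eq_single n]
      · simp [GF.one, bas]
      · intro l _ hl
        simp [GF.one, bas, Ne.symm hl]
      · intro h
        exact absurd (Finset.mem_univ _) h
      · intro k _ hk
        refine Finset.sum_eq_zero fun l _ => ?_
        simp [GF.one, bas, Ne.symm hk]
      · intro h
        exact absurd (Finset.mem_univ _) h
    rw [e, Q.U_inner 1 GF.one a _ _ one_pos isLor_one]
  loc C C' f g v z hC hC' hCC hf hg hs := by
    unfold hv
    rw [Completion.inner_coe, Completion.inner_coe]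
    have h1 := ht.loc m n C f g v hC hf hg hs
    unfold cm at h1
    rw [sub_eq_zero.1 h1]
    have h2 := hCC g (t m n f v) z hg
    rw [← inner_conj_symm, ← h2, inner_conj_symm]

/-- the scale factor of a curve of similitudes is differentiable -/
lemma curve_s {s : ℝ → ℝ} {L : ℝ → Ix → V} {a : ℝ → V} {X : V → V} (h0 : s 0 = 1)
    (hp : ∀ e, 0 < s e ∧ GF.IsLor (L e))
    (hX : ∀ x n, HasDerivAt (fun e => sim (s e) (L e) (a e) x n) (X x n) 0) :
    ∃ r, HasDerivAt s r 0 := by
  have e1 : ∀ e n, sim (s e) (L e) (a e) (bas o 1) n - sim (s e) (L e) (a e) 0 n =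
      s e * L e o n := by
    intro e n
    simp [sim, bas]
  have d1 : ∀ n, DifferentiableAt ℝ (fun e => s e * L e o n) 0 := by
    intro n
    have h1 := (hX (bas o 1) n).sub (hX 0 n)
    have h2 : (fun e => s e * L e o n) = (fun e => sim (s e) (L e) (a e) (bas o 1) n) -
        fun e => sim (s e) (L e) (a e) 0 n := by
      funext e
      rw [Pi.sub_apply, e1]
    rw [h2]
    exact h1.differentiableAt
  have e2 : ∀ e, ∑ n, eta n * (s e * L e o n) * (s e * L e o n) = s e ^ 2 := by
    intro e
    have h1 := (hp e).2.1 o o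
    have h2 : GF.mdot (L e o) (L e o) = 1 := by
      rw [h1]
      simp [bas, eta]
    have h3 : ∑ n, eta n * (s e * L e o n) * (s e * L e o n) =
        s e ^ 2 * GF.mdot (L e o) (L e o) := by
      unfold GF.mdot
      rw [Finset.mul_sum]
      exact Finset.sum_congr rfl fun n _ => by ring
    rw [h3, h2, mul_one]
  have d2 : DifferentiableAt ℝ (fun e => s e ^ 2) 0 := by
    have h1 : (fun e => s e ^ 2) = fun e => ∑ n, eta n * (s e * L e o n) * (s e * L e o n) :=
      funext fun e => (e2 e).symm
    rw [h1]
    refine DifferentiableAt.fun_sum fun n _ => ?_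
    exact ((d1 n).const_mul _).mul (d1 n)
  have d3 : DifferentiableAt ℝ (fun e => Real.sqrt (s e ^ 2)) 0 := by
    refine d2.sqrt ?_
    rw [h0]
    norm_num
  have h3 : (fun e => Real.sqrt (s e ^ 2)) = s := funext fun e => Real.sqrt_sq (hp e).1.le
  rw [h3] at d3
  exact ⟨_, d3.hasDerivAt⟩

lemma chg_hv (t : Ix → Ix → GF.Fld D) (X : Ix → V → ℝ) (g : Fn) (v : D) :
    chg (hv t) X g v = ((∑ n, t o n (fun x => ((eta n * X n x : ℝ) : ℂ) * g x) v : D) :
      Completion D) := by
  unfold chg hv
  exact (map_sum (UniformSpace.Completion.toComplₗᵢ (𝕜 := ℂ) (E := D)).toLinearMap _ _).symm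

/-- the charges generate the similitudes -/
lemma drives_of (ht : IsImpr Q T t) (hg : SimGen Q t fun _ _ _ => 0) {s : ℝ → ℝ}
    {L : ℝ → Ix → V} {a : ℝ → V} (hc : IsCurve s L a) : Drives Q (hv t) s L a := by
  intro X A B f w v hX hA hB hAB hf hfc
  obtain ⟨h0, hL0, ha0, hp⟩ := hc
  have hX' : ∀ x n, HasDerivAt (fun e => sim (s e) (L e) (a e) x n)
      ((fun (x : V) (n : Ix) => X n x) x n) 0 := fun x n => hX n x
  obtain ⟨r, hr⟩ := curve_s h0 hp (X := fun x n => X n x) hX'
  have hsim : IsSim r (fun x n => X n x) := vel_isSim h0 hL0 hp hr hX'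
  have key := fun F hF => hg F s L a (fun x n => X n x) r A f v w hF h0 hL0 ha0 hp hr hX' hA hf hfc
  obtain ⟨d, hd, -⟩ := key _ isCutoff_cutF
  refine ⟨d, fun F hF => ?_, hd⟩
  obtain ⟨d', hd', hl⟩ := key F hF
  have hdd : d' = d := hd'.unique hd
  rw [hdd] at hl
  refine hl.congr' ?_
  filter_upwards [ok_cutoff hF (S := ∅) isCompact_empty] with R hR
  obtain ⟨g, hgt, hgF⟩ := hR
  have hXc : ∀ n, ContDiff ℝ ∞ (X n) := by
    obtain ⟨c, w', hw', he⟩ := hsim
    intro n
    exact contDiff_kil (X := X) ⟨c, 0, r, w', hw', fun n x => by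
      refine (he x n).trans ?_
      have h0 : GF.mdot (0 : V) x = 0 := by simp [GF.mdot]
      rw [h0]
      simp⟩ n
  have ht1 : ∀ n, Tst fun x => eta n * X n x * g x := fun n =>
    tst_smul (contDiff_const.mul (hXc n)) hgt.1
  have e1 : ∀ n, (fun x => ((eta n * X n x : ℝ) : ℂ) * F R x) =
      fun x => ((eta n * X n x * g x : ℝ) : ℂ) := by
    intro n
    rw [hgF]
    funext x
    push_cast
    ring
  have hb : ∀ n, bar (fun x => ((eta n * X n x * g x : ℝ) : ℂ)) =
      fun x => ((eta n * X n x * g x : ℝ) : ℂ) := by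
    intro n
    funext x
    simp [bar]
  rw [chg_hv, chg_hv, Completion.inner_coe, Completion.inner_coe]
  unfold chJ
  simp only [e1, smul_zero, sub_zero]
  rw [inner_sub_right]
  congr 1
  · rw [inner_sum, sum_inner]
    refine Finset.sum_congr rfl fun n _ => ?_
    rw [ht.herm o n _ _ _ (tstIs (ht1 n)), hb n]
  · have h2 := hAB f (∑ n, t o n (fun x => ((eta n * X n x * g x : ℝ) : ℂ)) v) w hf
    rw [← inner_conj_symm, h2, inner_conj_symm]

/-- **Link.** A theory with a traceless improvement of the stress tensor whose charges generate the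
similitudes is conformally invariant. -/
theorem confF_of_impr (hT : Q.IsStress T) (ht : IsImpr Q T t) (hg : SimGen Q t fun _ _ _ => 0) :
    IsConfF Q (hv t) where
  loc := impr_loc ht
  symm m n f v hf := by
    unfold hv
    rw [ht.symm m n f v hf]
  cov m n s L a f v z hs hL hf := by
    unfold hv
    rw [Completion.inner_coe, ht.cov m n s L a f v hs hL hf, inner_sum]
    refine Finset.sum_congr rfl fun k _ => ?_
    rw [inner_sum]
    refine Finset.sum_congr rfl fun l _ => ?_
    rw [inner_smul_right, Q.U_inner s L a _ _ hs hL, Completion.inner_coe]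
  conserved n f v hf := by
    have h2 := congrArg (UniformSpace.Completion.toComplₗᵢ (𝕜 := ℂ) (E := D)).toLinearMap
      (ht.conserved n f v hf)
    rw [map_sum, map_zero] at h2
    exact h2
  trace f v hf := by
    have h := ht.traceless f v hf
    unfold GF.tr at h
    unfold hv
    have h2 := congrArg (UniformSpace.Completion.toComplₗᵢ (𝕜 := ℂ) (E := D)).toLinearMap h
    rw [map_sum, map_zero] at h2
    simp only [map_smul] at h2
    exact h2
  simil s L a hc := drives_of ht hg hc
  conf A B hA hB hAB := conf_act (isT_of_impr ht hT) A B hA hB hAB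

/-- **The theories with a curl free virial current.** -/
theorem confF_curl {J : Ix → Fld D} (hT : Q.IsStress T) (hJ : IsVirial Q T J)
    (hg : SimGen Q T J) (hc : H246.Curl J Q.vac) : IsConfF Q (hv (improveJ T J)) :=
  confF_of_impr hT (H246D.impr_of_curl hT hJ hc) (simGen_curl hT hJ hc hg)

end Vale.Agent.P352.H846

end
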