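import Vale.Agent.P352.H755.ChDefs

open MeasureTheory Filter Topology
open scoped SchwartzMap

namespace Vale.Agent.P352.H846

open GF SubConf UniformSpace H755

noncomputable section

variable {D : Type*} [NormedAddCommGroup D] [InnerProductSpace ℂ D]

/-- The theory `Q` is conformally invariant, with the traceless stress tensor `t`. The components
`t m n` are hermitian local fields of `Q`. The charges of `X^n t_{mn}` generate the similitudes,
and for every conformal Killing vector field `X` they act on every field `A` by the infinitesimal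
conformal transformation `-X^n ∂_n A - (∂_m X^n) S_mn A - (∂_m ∂_n X^n) K_m A` with local fields
`S_mn A` and `K_m A`, which are bosonic if `A` is. -/
structure IsConfF (Q : Theory D) (t : Ix → Ix → Fn → D → Completion D) : Prop where
  loc : ∀ m n, IsLoc Q (t m n) (t m n)
  symm : ∀ m n f v, IsTest f → t m n f v = t n m f v
  cov : ∀ m n s L a f v z, 0 < s → IsLor L → IsTest f →
    inner ℂ (Q.U s L a z : Completion D) (t m n f (Q.U s L a v)) = ∑ k, ∑ l,
      (L k m * L l n : ℂ) * inner ℂ (z : Completion D) (t k l (fun x => f (sim s L a x)) v)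
  conserved : ∀ n f v, IsTest f → ∑ m, t m n (pd m f) v = 0
  trace : ∀ f v, IsTest f → ∑ m, (eta m : ℂ) • t m m f v = 0
  simil : ∀ s L a, IsCurve s L a → Drives Q t s L a
  conf : ∀ A B, Q.fld A → Q.fld B → IsAdj A B → ∃ (S S' : Ix → Ix → Fn → D → Completion D)
    (K K' : Ix → Fn → D → Completion D), (∀ m n, IsLocF Q A (S m n) (S' m n)) ∧
      (∀ m, IsLocF Q A (K m) (K' m)) ∧
      ∀ X f w v, IsKil X → IsTest f → HasCompactSupport f → Comm t X A B f w v
        (Complex.I * inner ℂ (w : Completion D) (∑ n, (A (pd n fun x => X n x * f x) v) -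
          ∑ m, ∑ n, S m n (fun x => pd m (fun y => (X n y : ℂ)) x * f x) v -
          ∑ m, ∑ n, K m (fun x => pd m (pd n fun y => (X n y : ℂ)) x * f x) v))

end

end Vale.Agent.P352.H846
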