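import Vale.Agent.P352.H755.ChInt
import Vale.Agent.P352.H246.Part
import Vale.Agent.P352.H846.Al0
import Mathlib.Analysis.Calculus.BumpFunction.Normed

/-!
# Locality of the action of the conformal charges
-/

set_option linter.all false

noncomputable section

open MeasureTheory Filter Topology Set
open scoped ContDiff SchwartzMap

namespace Vale.Agent.P352.H846

open GF (Ix V Fn Fld bas eta o bar)
open H755 H496 SubConf

variable {D : Type*} [NormedAddCommGroup D] [InnerProductSpace ℂ D]
variable {Q : GF.Theory D} {t : Ix → Ix → GF.Fld D} {A : GF.Fld D} {X : Ix → V → ℝ}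

lemma ok_anti {S S' : Set V} (h : S' ⊆ S) {g : V → ℝ} (hg : Ok S g) : Ok S' g := by
  obtain ⟨h1, α, h2, h3, h4⟩ := hg
  exact ⟨h1, α, h2, h3, fun x hx y hy => h4 x hx y (h hy)⟩

/-- a small cutoff for a small cube -/
lemma small_ok (x : V) {r : ℝ} (hr : 0 < r) :
    ∃ g, Ok (Metric.closedBall x r) g ∧ tsupport g ⊆ Metric.closedBall x (16 * r) := by
  let κ : ContDiffBump x := ⟨8 * r, 16 * r, by linarith, by linarith⟩
  let ρ : ContDiffBump (x 0) := ⟨r / 2, r, by linarith, by linarith⟩
  have hρi : 0 < ∫ u, ρ u := ρ.integral_pos (μ := (volume : Measure ℝ))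
  set α : ℝ → ℝ := fun u => (∫ u, ρ u)⁻¹ * ρ u with hα
  have hαt : Tst α := ⟨contDiff_const.mul ρ.contDiff, ρ.hasCompactSupport.mul_left⟩
  have hαs : ∀ u, α u ≠ 0 → |u - x 0| ≤ r := by
    intro u hu
    by_contra h
    push Not at h
    apply hu
    have h1 : ρ u = 0 := ρ.zero_of_le_dist (by rw [Real.dist_eq]; exact h.le)
    simp [hα, h1]
  have hpr : ContDiff ℝ ∞ fun z : V => z 0 := contDiff_apply ℝ ℝ 0
  have hts : tsupport (fun z : V => κ z * α (z 0)) ⊆ Metric.closedBall x (16 * r) := by
    refine (closure_mono (s := Function.support fun z : V => κ z * α (z 0))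
      (t := Function.support κ) ?_).trans (le_of_eq κ.tsupport_eq)
    intro z hz h
    apply hz
    simp [h]
  refine ⟨fun z => κ z * α (z 0), ⟨⟨κ.contDiff.mul (hαt.1.comp hpr),
    κ.hasCompactSupport.mul_right⟩, α, hαt, ?_, ?_⟩, hts⟩
  · rw [hα, integral_const_mul, inv_mul_cancel₀ hρi.ne']
  · intro z hz y hy
    have hcl : z ∈ {z : V | |z 0 - x 0| ≤ r ∧ (8 * r ≤ |z 1 - x 1| ∨ 8 * r ≤ |z 2 - x 2| ∨
        8 * r ≤ |z 3 - x 3|)} := by
      refine closure_minimal ?_ ?_ hz
      · intro z hz
        simp only [mem_setOf_eq] at hz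
        have h1 : α (z o) ≠ 0 := by
          intro h
          apply hz
          show κ z * α (z o) = α (z o)
          rw [h, mul_zero]
        refine ⟨hαs _ h1, ?_⟩
        by_contra h
        push Not at h
        apply hz
        have h2 : z ∈ Metric.closedBall x (8 * r) := by
          rw [Metric.mem_closedBall, dist_pi_le_iff (by linarith)]
          intro i
          rw [Real.dist_eq]
          have h3 := hαs _ h1
          fin_cases i
          · exact h3.trans (by linarith)
          · exact h.1.le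
          · exact h.2.1.le
          · exact h.2.2.le
        show κ z * α (z o) = α (z o)
        rw [κ.one_of_mem_closedBall h2, one_mul]
      · have c1 : ∀ i : Ix, Continuous fun z : V => |z i - x i| := fun i => by fun_prop
        have h1 : IsClosed {z : V | |z 0 - x 0| ≤ r} := isClosed_le (c1 0) continuous_const
        have h2 : ∀ i : Ix, IsClosed {z : V | 8 * r ≤ |z i - x i|} := fun i =>
          isClosed_le continuous_const (c1 i)
        exact h1.inter ((h2 1).union ((h2 2).union (h2 3)))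
    rw [Metric.mem_closedBall, dist_pi_le_iff hr.le] at hy
    have y0 := hy 0
    have y1 := hy 1
    have y2 := hy 2
    have y3 := hy 3
    rw [Real.dist_eq] at y0 y1 y2 y3
    have h0 : (z 0 - y 0) * (z 0 - y 0) ≤ 4 * r ^ 2 := by
      have h1 : |z 0 - y 0| ≤ 2 * r := by
        have h2 : z 0 - y 0 = (z 0 - x 0) - (y 0 - x 0) := by ring
        rw [h2]
        exact (abs_sub _ _).trans (by linarith [hcl.1])
      have h3 := abs_le.1 h1
      nlinarith [h3.1, h3.2]
    have key : ∀ p q s : ℝ, |q - p| ≤ r → 8 * r ≤ |s - p| → 49 * r ^ 2 ≤ (s - q) * (s - q) := by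
      intro p q s h1 h2
      have h3 : 7 * r ≤ |s - q| := by
        have h4 : s - p = (s - q) + (q - p) := by ring
        have h5 : |s - p| ≤ |s - q| + |q - p| := by rw [h4]; exact abs_add_le _ _
        linarith
      have h4 : (7 * r) * (7 * r) ≤ |s - q| * |s - q| := mul_self_le_mul_self (by linarith) h3
      rw [abs_mul_abs_self] at h4
      linarith
    have e : GF.mdot (fun m => z m - y m) (fun m => z m - y m) = (z 0 - y 0) * (z 0 - y 0) -
        (z 1 - y 1) * (z 1 - y 1) - (z 2 - y 2) * (z 2 - y 2) - (z 3 - y 3) * (z 3 - y 3) :=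
      mdx _ _
    rw [e]
    have n1 := mul_self_nonneg (z 1 - y 1)
    have n2 := mul_self_nonneg (z 2 - y 2)
    have n3 := mul_self_nonneg (z 3 - y 3)
    have hr2 : 0 < r ^ 2 := by positivity
    rcases hcl.2 with h | h | h
    · have := key _ _ _ y1 h
      linarith
    · have := key _ _ _ y2 h
      linarith
    · have := key _ _ _ y3 h
      linarith

lemma fadd {C : GF.Fld D} (hC : Q.fld C) {g : Fn} (hg : GF.IsTest g) (u w : D) :
    C g (u + w) = C g u + C g w := by
  obtain ⟨B, _, hB⟩ := Q.adj C hC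
  obtain ⟨B', _, hB'⟩ := Q.adj B ‹_›
  refine ext_inner_left ℂ fun z => ?_
  have h : ∀ v, inner ℂ z (C g v) = inner ℂ (B (bar g) z) v := by
    intro v
    rw [← inner_conj_symm, hB g v z hg, inner_conj_symm]
  rw [inner_add_right, h, h, h, inner_add_right]

lemma fsum {C : GF.Fld D} (hC : Q.fld C) {g : Fn} (hg : GF.IsTest g) (u : Ix → D) :
    C g (∑ n, u n) = ∑ n, C g (u n) := by
  simp only [Fin.sum_univ_four, fadd hC hg]

lemma fsub {C : GF.Fld D} (hC : Q.fld C) {g : Fn} (hg : GF.IsTest g) (u w : D) :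
    C g (u - w) = C g u - C g w := by
  have h1 := fadd hC hg (u - w) w
  rw [sub_add_cancel] at h1
  rw [h1, add_sub_cancel_right]

lemma tadd (ht : IsT Q t) (m n : Ix) {g : Fn} (hg : GF.IsTest g) (u w : D) :
    t m n g (u + w) = t m n g u + t m n g w := by
  refine ext_inner_left ℂ fun z => ?_
  have hb : bar (bar g) = g := by
    funext x
    simp [GF.bar]
  have hbt : GF.IsTest (bar g) := by
    obtain ⟨G, rfl⟩ := hg
    exact ⟨SchwartzMap.postcompCLM (𝕜 := ℝ) Complex.conjCLE.toContinuousLinearMap G, rfl⟩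
  have h : ∀ v, inner ℂ z (t m n g v) = inner ℂ (t m n (bar g) z) v := by
    intro v
    rw [ht.herm m n (bar g) z v hbt, hb]
  rw [inner_add_right, h, h, h, inner_add_right]

lemma kil_smooth (hX : IsKil X) (n : Ix) : ContDiff ℝ ∞ (X n) := by
  obtain ⟨a, b, r, w, _, h⟩ := hX
  have : X n = fun x => a n + r * x n + ∑ m, x m * w m n + 2 * GF.mdot b x * x n -
    GF.mdot x x * b n := funext (h n)
  rw [this]
  unfold GF.mdot
  fun_prop

lemma kg_tst (hX : IsKil X) {g : V → ℝ} (hg : Tst g) (n : Ix) :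
    Tst fun x => eta n * X n x * g x :=
  ⟨(contDiff_const.mul (kil_smooth hX n)).mul hg.1, hg.2.mul_left⟩

/-- additivity of the commutator in the test function -/
lemma com_addf (ht : IsT Q t) (hA : Q.fld A) (hX : IsKil X) {g : V → ℝ} (hg : Tst g) {f f' : Fn}
    (hf : GF.IsTest f) (hf' : GF.IsTest f') (v : D) :
    com t X g A (fun x => f x + f' x) v = com t X g A f v + com t X g A f' v := by
  have hl : ∀ v, A (fun x => f x + f' x) v = A f v + A f' v := by
    intro v
    have h1 := Q.lin A f f' 1 v hA hf hf'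
    rw [one_smul] at h1
    rw [← h1]
    congr 1
    funext x
    push_cast
    ring
  unfold com
  rw [hl, hl]
  have h2 : ∀ n, t o n (fun x => ((eta n * X n x * g x : ℝ) : ℂ)) (A f v + A f' v) =
      t o n (fun x => ((eta n * X n x * g x : ℝ) : ℂ)) (A f v) +
      t o n (fun x => ((eta n * X n x * g x : ℝ) : ℂ)) (A f' v) :=
    fun n => tadd ht o n (kg_tst hX hg n).isTest _ _
  rw [Finset.sum_congr rfl fun n _ => h2 n, Finset.sum_add_distrib]
  abel

/-- the commutator with a small cutoff is local -/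
lemma com_loc (ht : IsT Q t) (hA : Q.fld A) (hX : IsKil X) {C : GF.Fld D} (hC : Q.fld C)
    (hAC : Q.bose A ∨ Q.bose C) {f g : Fn} (hf : GF.IsTest f) (hg : GF.IsTest g)
    (hs : GF.Sep f g) {k : V → ℝ} (hk : Tst k) (hks : ∀ x ∈ tsupport k, ∀ y ∈ tsupport g,
      GF.mdot (fun m => x m - y m) (fun m => x m - y m) < 0) (v : D) :
    com t X k A f (C g v) = C g (com t X k A f v) := by
  have h1 : ∀ v, A f (C g v) = C g (A f v) := by
    intro v
    rcases hAC with h | h
    · exact Q.loc A C f g v h hC hf hg hs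
    · refine (Q.loc C A g f v h hA hg hf fun x hx y hy => ?_).symm
      have h2 := hs y hy x hx
      rw [mdx] at h2 ⊢
      linarith
  have h2 : ∀ n v, t o n (fun x => ((eta n * X n x * k x : ℝ) : ℂ)) (C g v) =
      C g (t o n (fun x => ((eta n * X n x * k x : ℝ) : ℂ)) v) := by
    intro n v
    refine ht.loc o n C _ g v hC (kg_tst hX hk n).isTest hg fun x hx y hy => hks x ?_ y hy
    refine closure_mono ?_ hx
    intro z hz h
    apply hz
    simp [h]
  unfold com
  rw [fsub hC hg, fsum hC hg, h1 v]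
  have h3 : ∑ n, t o n (fun x => ((eta n * X n x * k x : ℝ) : ℂ)) (C g v) =
      C g (∑ n, t o n (fun x => ((eta n * X n x * k x : ℝ) : ℂ)) v) := by
    rw [fsum hC hg]
    exact Finset.sum_congr rfl fun n _ => h2 n v
  rw [h3, h1]
  congr 1
  exact Finset.sum_congr rfl fun n _ => h2 n _

lemma phi_eq (hok : ∀ S : Set V, IsCompact S → ∃ g, Ok S g)
    (hce : ∀ (f : Fn) (S : Set V) (g g' : V → ℝ) (v : D), H755.CS f → tsupport f ⊆ S →
      IsCompact S → Ok S g → Ok S g' → com t X g A f v = com t X g' A f v)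
    {f : Fn} (hf : H755.CS f) {g : V → ℝ} (hg : Ok (tsupport f) g) (v : D) :
    Phi t X A f v = com t X g A f v :=
  hce f (tsupport f) _ _ v hf le_rfl hf.2.isCompact
    (Classical.epsilon_spec (hok (tsupport f) hf.2.isCompact)) hg

lemma phi_add (ht : IsT Q t) (hA : Q.fld A) (hX : IsKil X)
    (hok : ∀ S : Set V, IsCompact S → ∃ g, Ok S g)
    (hce : ∀ (f : Fn) (S : Set V) (g g' : V → ℝ) (v : D), H755.CS f → tsupport f ⊆ S →
      IsCompact S → Ok S g → Ok S g' → com t X g A f v = com t X g' A f v)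
    {f f' : Fn} (hf : H755.CS f) (hf' : H755.CS f') (v : D) :
    Phi t X A (fun x => f x + f' x) v = Phi t X A f v + Phi t X A f' v := by
  obtain ⟨G0, hG0⟩ := hok (tsupport f ∪ tsupport f') (hf.2.isCompact.union hf'.2.isCompact)
  have hsub : tsupport (fun x => f x + f' x) ⊆ tsupport f ∪ tsupport f' := by
    refine closure_minimal ?_ ((isClosed_tsupport f).union (isClosed_tsupport f'))
    intro x hx
    by_contra h
    simp only [mem_union, not_or] at h
    exact hx (by
      show f x + f' x = 0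
      rw [image_eq_zero_of_notMem_tsupport h.1, image_eq_zero_of_notMem_tsupport h.2, add_zero])
  have hsum : H755.CS fun x => f x + f' x := by
    refine ⟨?_, (hf.2.isCompact.union hf'.2.isCompact).of_isClosed_subset
      (isClosed_tsupport _) hsub⟩
    obtain ⟨F, hF⟩ := hf.1
    obtain ⟨F', hF'⟩ := hf'.1
    refine ⟨F + F', ?_⟩
    rw [← hF, ← hF']
    rfl
  rw [phi_eq hok hce hsum (ok_anti hsub hG0), phi_eq hok hce hf (ok_anti subset_union_left hG0),
    phi_eq hok hce hf' (ok_anti subset_union_right hG0)]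
  exact com_addf ht hA hX hG0.1 hf.1 hf'.1 v

/-- Locality of the action of the charges, from the independence of the cutoff. -/
theorem phi_loc0 (ht : IsT Q t) (hA : Q.fld A) (hX : IsKil X)
    (hok : ∀ S : Set V, IsCompact S → ∃ g, Ok S g)
    (hce : ∀ (f : Fn) (S : Set V) (g g' : V → ℝ) (v : D), H755.CS f → tsupport f ⊆ S →
      IsCompact S → Ok S g → Ok S g' → com t X g A f v = com t X g' A f v)
    {C : GF.Fld D} (hC : Q.fld C) (hAC : Q.bose A ∨ Q.bose C) {f g : Fn} (hf : H755.CS f)
    (hg : H755.CS g) (hs : GF.Sep f g) (v : D) :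
    Phi t X A f (C g v) = C g (Phi t X A f v) := by
  obtain ⟨F, hFf⟩ := exists_fl hf.1
  subst hFf
  have hopen := isOpen_cc hg.2.isCompact
  have hfcc : tsupport (fl F) ⊆ cc (tsupport g) := by
    intro x hx y hy
    have h2 := hs x hx y hy
    rw [mdx] at h2 ⊢
    simp only [Pi.sub_apply]
    linarith
  have hMc : ∀ F : 𝓢(Mink, ℂ), Vale.Agent.P352.IsTest Set.univ F → H755.CS (fl F) := by
    intro F hF
    refine ⟨isTest_fl F, ?_⟩
    rw [HasCompactSupport, Vale.Agent.P352.tsupport_fl]
    exact (EuclideanSpace.equiv (Fin 4) ℝ).symm.toHomeomorph.isClosedEmbedding.isCompact_preimage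
      hF.1.isCompact
  have hF : HasCompactSupport F := by
    have h1 := hf.2
    rw [HasCompactSupport, Vale.Agent.P352.tsupport_fl] at h1
    have h2 : tsupport F = (EuclideanSpace.equiv (Fin 4) ℝ).symm.toHomeomorph ''
        ((WithLp.toLp 2 : V → Mink) ⁻¹' tsupport F) := by
      ext z
      constructor
      · intro hz
        exact ⟨z.ofLp, hz, rfl⟩
      · rintro ⟨y, hy, rfl⟩
        exact hy
    rw [HasCompactSupport, h2]
    exact h1.image (EuclideanSpace.equiv (Fin 4) ℝ).symm.toHomeomorph.continuous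
  -- the localized statement
  have key : ∃ U, IsOpen U ∧ tsupport F ⊆ U ∧ ∀ F, Vale.Agent.P352.IsTest U F →
      ∀ v, Phi t X A (fl F) (C g v) = C g (Phi t X A (fl F) v) := by
   refine H246.part_induct
    (P := fun F => ∀ v, Phi t X A (fl F) (C g v) = C g (Phi t X A (fl F) v)) ?_ ?_ hF.isCompact ?_
   · intro v
     have hc0 : H755.CS (fl (0 : 𝓢(Mink, ℂ))) := by
       refine ⟨isTest_fl 0, ?_⟩
       show HasCompactSupport fun _ : V => (0 : ℂ)
       exact HasCompactSupport.zero
     have h0 : ∀ v, Phi t X A (fl (0 : 𝓢(Mink, ℂ))) v = 0 := by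
       intro v
       have h1 := phi_add ht hA hX hok hce hc0 hc0 v
       have h2 : (fun x => fl (0 : 𝓢(Mink, ℂ)) x + fl (0 : 𝓢(Mink, ℂ)) x) = fl 0 := by
         funext x
         show (0 : ℂ) + 0 = 0
         ring
       rw [h2] at h1
       exact left_eq_add.mp h1
     have h3 : C g (0 : D) = 0 := by
       have h4 := fadd hC hg.1 0 0
       rw [add_zero] at h4
       exact left_eq_add.mp h4
     rw [h0, h0, h3]
   · intro F1 F2 h1 h2 hP1 hP2 v
     have e : fl (F1 + F2) = fun x => fl F1 x + fl F2 x := rfl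
     rw [e, phi_add ht hA hX hok hce (hMc F1 h1) (hMc F2 h2),
       phi_add ht hA hX hok hce (hMc F1 h1) (hMc F2 h2), hP1, hP2, fadd hC hg.1]
   · intro x hx
     have hx1 : x.ofLp ∈ cc (tsupport g) := hfcc (by
       rw [Vale.Agent.P352.tsupport_fl]
       exact hx)
     obtain ⟨ε, hε, hball⟩ := Metric.isOpen_iff.1 hopen _ hx1
     set r : ℝ := ε / 32 with hr
     have hr0 : 0 < r := by rw [hr]; linarith
     obtain ⟨k, hk, hks⟩ := small_ok x.ofLp hr0
     refine ⟨{z : Mink | z.ofLp ∈ Metric.ball x.ofLp r},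
       Metric.isOpen_ball.preimage (EuclideanSpace.equiv (Fin 4) ℝ).continuous,
       Metric.mem_ball_self hr0, fun G hG v => ?_⟩
     have hGc : H755.CS (fl G) := hMc G ⟨hG.1, Set.subset_univ _⟩
     have hGs : tsupport (fl G) ⊆ Metric.closedBall x.ofLp r := by
       rw [Vale.Agent.P352.tsupport_fl]
       intro z hz
       exact Metric.ball_subset_closedBall (hG.2 hz)
     have hkok := ok_anti hGs hk
     rw [phi_eq hok hce hGc hkok, phi_eq hok hce hGc hkok]
     have hbb : ∀ ρ, ρ ≤ 16 * r → Metric.closedBall x.ofLp ρ ⊆ cc (tsupport g) := by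
       intro ρ hρ
       refine (Metric.closedBall_subset_ball ?_).trans hball
       rw [hr] at hρ
       linarith
     refine com_loc ht hA hX hC hAC hGc.1 hg.1 ?_ hk.1 ?_ v
     · intro z hz y hy
       have h2 := hbb r (by linarith) (hGs hz) y hy
       rw [mdx] at h2 ⊢
       simp only [Pi.sub_apply] at h2
       linarith
     · intro z hz y hy
       have h2 := hbb (16 * r) le_rfl (hks hz) y hy
       rw [mdx] at h2 ⊢
       simp only [Pi.sub_apply] at h2
       linarith
  obtain ⟨U, hU, hKU, hUP⟩ := key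
  exact hUP F ⟨hF, hKU⟩ v

end Vale.Agent.P352.H846

end
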