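import Vale.Agent.P352.H846.T2
import Vale.Agent.P352.H246.Pl
import Vale.Agent.P352.H121.Vir
import Vale.Agent.P352.H755.R7

/-!
# The limits of the null plane charges of the conformal currents, given the trace condition
-/

set_option linter.all false

noncomputable section

open MeasureTheory Filter Topology Set
open scoped ContDiff ComplexConjugate

namespace Vale.Agent.P352.H846

open GF (Ix V Fn Fld bas eta o bar)
open H755 H496 H15 H246 H121

variable {D : Type*} [NormedAddCommGroup D] [InnerProductSpace ℂ D]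
variable {Q : GF.Theory D} {T : Ix → Ix → GF.Fld D} {J : Ix → GF.Fld D}
  {A : (V → V) → D → D} {K : V → D → D}

/-- plane limit for the similitudes -/
theorem pl_sim_tr (hT : Q.IsStress T) (hJ : IsVirial Q T J) (h : NullCharges Q T J A K)
    (ht : TrNull T) {a b : V} {κ : V → ℝ}
    {ψ : ℝ → ℝ} (had : Adm a b κ ψ) {r : ℝ} {X : V → V} (hX : IsSim r X) (v w : D) :
    Tendsto (fun R => inner ℂ w (sm T (fun m n x => eta m * a m * (eta n * X x n) *
      ctf a b κ 0 ψ R x) v)) atTop (𝓝 ((∫ u, (ψ u : ℂ)) * inner ℂ w (A X v) +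
        (r : ℂ) * ((∫ u, (ψ u : ℂ)) * inner ℂ w (Cop Q A K a b v)))) := by
  have t1 := h.gen a b κ 0 ψ r X v w had hX
  have t2 := (lim0 hT hJ h ht had v w).const_mul (r : ℂ)
  have t3 := t1.add t2
  refine t3.congr fun R => ?_
  unfold Ja
  rw [inner_sub_right]
  have e : inner ℂ w (∑ m, (r : ℂ) • J m (fun x => ((eta m * a m * ctf a b κ 0 ψ R x : ℝ) : ℂ)) v) =
      (r : ℂ) * inner ℂ w (∑ m, J m (fun x => ((eta m * a m * ctf a b κ 0 ψ R x : ℝ) : ℂ)) v) := by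
    rw [← Finset.smul_sum, inner_smul_right]
  rw [e]
  ring

/-- **plane limit for the conformal current** -/
theorem pl_cK_tr (hT : Q.IsStress T) (hJ : IsVirial Q T J) (h : NullCharges Q T J A K)
    (ht : TrNull T) {a b : V} {κ : V → ℝ} {ψ : ℝ → ℝ} (had : Adm a b κ ψ) (v w : D) :
    Tendsto (fun R => inner ℂ w (sm T (fun m n x => eta m * a m * (eta n * cK a x n) *
      ctf a b κ 0 ψ R x) v)) atTop (𝓝 ((∫ u, (ψ u : ℂ)) * inner ℂ w (K a v))) := by
  obtain ⟨ha, hb, hab, hκ, hκ1, hψ⟩ := had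
  have hp1 : ContDiff ℝ ∞ fun u : ℝ => 2 * u := by fun_prop
  have hp2 : ContDiff ℝ ∞ fun u : ℝ => 2 * u ^ 2 := by fun_prop
  have t2 := pl_sim_tr hT hJ h ht (ψ := fun u => 2 * u * ψ u)
    ⟨ha, hb, hab, hκ, hκ1, tst_pol hψ hp1⟩ (isSim_Xw a b) v w
  have t3 := pl_sim_tr hT hJ h ht (ψ := fun u => 2 * u ^ 2 * ψ u)
    ⟨ha, hb, hab, hκ, hκ1, tst_pol hψ hp2⟩ (isSim_const b) v w
  have t4 := h.mom a b κ 0 ψ v w ⟨ha, hb, hab, hκ, hκ1, hψ⟩
  have t5 := (t2.sub t3).add t4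
  set α : ℂ := inner ℂ w (A (Xw a b) v) with hα
  set β : ℂ := inner ℂ w (A (fun _ => b) v) with hβ
  set γ : ℂ := inner ℂ w (K a v) with hγ
  set δ : ℂ := inner ℂ w (Cop Q A K a b v) with hδ
  have hci : ∀ {g : ℝ → ℝ}, Tst g → ∀ z : ℂ, Integrable fun u : ℝ => (g u : ℂ) * z := by
    intro g hg z
    have h2 : HasCompactSupport fun u : ℝ => ((g u : ℝ) : ℂ) :=
      hg.2.comp_left (g := fun r : ℝ => (r : ℂ)) (by simp)
    exact ((Complex.continuous_ofReal.comp hg.1.continuous).mul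
      continuous_const).integrable_of_hasCompactSupport h2.mul_right
  have i1 := hci hψ γ
  have i2 := hci (tst_pol hψ hp1) (α + δ)
  have i3 := hci (tst_pol hψ hp2) β
  have e0 : ∀ u : ℝ, (ψ u : ℂ) * inner ℂ w
      (Q.U 1 GF.one (u • b) (K a (Q.U 1 GF.one (-(u • b)) v))) =
      (ψ u : ℂ) * γ - ((2 * u * ψ u : ℝ) : ℂ) * (α + δ) + ((2 * u ^ 2 * ψ u : ℝ) : ℂ) * β := by
    intro u
    rw [H121.K_shift hT hJ h ht ha hb hab, A_XXb h.toRep hb hab, inner_sub_right, inner_add_right,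
      inner_add_right, inner_smul_right, inner_smul_right, inner_smul_right]
    have e : GF.mdot a (u • b) = u := by
      rw [md_smul, hab, mul_one]
    have ex : H755.Xw a b = Xw a b := by
      funext x
      rfl
    rw [e, ex, ← hα, ← hβ, ← hγ, ← hδ]
    push_cast
    ring
  have e1 : ∫ u : ℝ, (ψ u : ℂ) * inner ℂ w
      (Q.U 1 GF.one (u • b) (K a (Q.U 1 GF.one (-(u • b)) v))) =
      (∫ u : ℝ, (ψ u : ℂ)) * γ - (∫ u : ℝ, ((2 * u * ψ u : ℝ) : ℂ)) * (α + δ) +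
        (∫ u : ℝ, ((2 * u ^ 2 * ψ u : ℝ) : ℂ)) * β := by
    simp only [e0]
    have k1 := integral_add (i1.sub i2) i3
    have k2 := integral_sub i1 i2
    simp only [Pi.sub_apply] at k1
    rw [k1, k2, integral_mul_const, integral_mul_const, integral_mul_const]
  rw [e1] at t5
  have e2 : (∫ u : ℝ, ((2 * u * ψ u : ℝ) : ℂ)) * α + ((1 : ℝ) : ℂ) *
        ((∫ u : ℝ, ((2 * u * ψ u : ℝ) : ℂ)) * δ) -
      ((∫ u : ℝ, ((2 * u ^ 2 * ψ u : ℝ) : ℂ)) * β + ((0 : ℝ) : ℂ) *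
        ((∫ u : ℝ, ((2 * u ^ 2 * ψ u : ℝ) : ℂ)) * δ)) +
      ((∫ u : ℝ, (ψ u : ℂ)) * γ - (∫ u : ℝ, ((2 * u * ψ u : ℝ) : ℂ)) * (α + δ) +
        (∫ u : ℝ, ((2 * u ^ 2 * ψ u : ℝ) : ℂ)) * β) = (∫ u : ℝ, (ψ u : ℂ)) * γ := by
    push_cast
    ring
  rw [e2] at t5
  refine t5.congr' ?_
  filter_upwards [eventually_ge_atTop (1:ℝ)] with R hR
  rw [H246D.sm_cK hT ha.1 hb.1 hab hκ hψ hR v, inner_add_right, inner_sub_right]

end Vale.Agent.P352.H846

end
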