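import Vale.Agent.P352.H846.Sw1
import Vale.Agent.P352.H755.ChE
import Mathlib.Analysis.SpecialFunctions.SmoothTransition

/-!
# Switch functions
-/

set_option linter.all false

noncomputable section

open MeasureTheory Filter Topology Set
open scoped ContDiff ComplexConjugate

namespace Vale.Agent.P352.H846

open GF (Ix V Fn bas eta o)
open H755 H496 H15

lemma bas_tends (m : Ix) (x : V) : Tendsto (fun t : ℝ => x + bas m t) (𝓝 0) (𝓝 x) := by
  have h1 : Continuous fun t : ℝ => x + bas m t := by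
    have : (fun t : ℝ => x + bas m t) = fun t : ℝ => x + t • bas m 1 := by
      funext t
      rw [bas_t]
    rw [this]
    fun_prop
  have h2 := h1.tendsto 0
  have h3 : x + bas m 0 = x := by
    rw [bas_t, zero_smul, add_zero]
  rwa [h3] at h2

lemma dr_eqon {f g : V → ℝ} {x : V} (h : f =ᶠ[𝓝 x] g) (m : Ix) : dr m f x = dr m g x :=
  Filter.EventuallyEq.deriv_eq ((bas_tends m x).eventually h)

lemma dr_eqnh {f g : V → ℝ} {x : V} (h : f =ᶠ[𝓝 x] g) (m : Ix) : dr m f =ᶠ[𝓝 x] dr m g := by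
  filter_upwards [h.eventually_nhds] with y hy
  exact dr_eqon hy m

lemma dr_const' (c : ℝ) (m : Ix) (x : V) : dr m (fun _ => c) x = 0 := by
  unfold dr
  simp

/-- the step down at `u0` -/
def Ps (u0 u : ℝ) : ℝ := Real.smoothTransition (u0 + 1 - u)

lemma Ps_cd (u0 : ℝ) : ContDiff ℝ ∞ (Ps u0) := by
  unfold Ps
  exact Real.smoothTransition.contDiff.comp (by fun_prop)

lemma Ps_one {u0 u : ℝ} (h : u ≤ u0) : Ps u0 u = 1 :=
  Real.smoothTransition.one_of_one_le (by linarith)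

lemma Ps_zero {u0 u : ℝ} (h : u0 + 1 ≤ u) : Ps u0 u = 0 :=
  Real.smoothTransition.zero_of_nonpos (by linarith)

lemma dPs_lt {u0 u : ℝ} (h : u < u0) : deriv (Ps u0) u = 0 := by
  have h1 : Ps u0 =ᶠ[𝓝 u] fun _ => (1:ℝ) := by
    filter_upwards [gt_mem_nhds h] with s hs
    exact Ps_one (le_of_lt hs)
  rw [h1.deriv_eq]
  simp

lemma dPs_gt {u0 u : ℝ} (h : u0 + 1 < u) : deriv (Ps u0) u = 0 := by
  have h1 : Ps u0 =ᶠ[𝓝 u] fun _ => (0:ℝ) := by
    filter_upwards [lt_mem_nhds h] with s hs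
    exact Ps_zero (le_of_lt hs)
  rw [h1.deriv_eq]
  simp

lemma dPs_tst (u0 : ℝ) : Tst (deriv (Ps u0)) := by
  refine ⟨(contDiff_infty_iff_deriv.1 (Ps_cd u0)).2, ?_⟩
  refine HasCompactSupport.intro (isCompact_Icc (a := u0) (b := u0 + 1)) fun u hu => ?_
  by_contra hne
  apply hu
  refine ⟨?_, ?_⟩
  · by_contra h
    exact hne (dPs_lt (not_le.1 h))
  · by_contra h
    exact hne (dPs_gt (not_le.1 h))

lemma dPs_int (u0 : ℝ) : ∫ u, deriv (Ps u0) u = -1 := by
  have h1 := integral_of_hasDerivAt_of_tendsto (f := Ps u0) (f' := deriv (Ps u0)) (m := 1) (n := 0)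
    (fun x => (((Ps_cd u0).differentiable (by simp)) x).hasDerivAt)
    ((dPs_tst u0).1.continuous.integrable_of_hasCompactSupport (dPs_tst u0).2) ?_ ?_
  · rw [h1]
    norm_num
  · refine tendsto_const_nhds.congr' ?_
    filter_upwards [eventually_le_atBot u0] with u hu
    exact (Ps_one hu).symm
  · refine tendsto_const_nhds.congr' ?_
    filter_upwards [eventually_ge_atTop (u0 + 1)] with u hu
    exact (Ps_zero hu).symm

/-- the cut off step -/
def pl (u0 l u : ℝ) : ℝ := Ps u0 u * Real.smoothTransition (u + l + 1)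

lemma pl_tst (u0 l : ℝ) : Tst (pl u0 l) := by
  refine ⟨(Ps_cd u0).mul (Real.smoothTransition.contDiff.comp (by fun_prop)), ?_⟩
  refine HasCompactSupport.intro (isCompact_Icc (a := -l - 1) (b := u0 + 1)) fun u hu => ?_
  by_contra hne
  apply hu
  refine ⟨?_, ?_⟩
  · by_contra h
    have h1 : Real.smoothTransition (u + l + 1) = 0 :=
      Real.smoothTransition.zero_of_nonpos (by linarith [not_le.1 h])
    exact hne (by rw [pl, h1, mul_zero])
  · by_contra h
    exact hne (by rw [pl, Ps_zero (not_le.1 h).le, zero_mul])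

lemma pl_eq {u0 l u : ℝ} (h : -l ≤ u) : pl u0 l u = Ps u0 u := by
  rw [pl, Real.smoothTransition.one_of_one_le (by linarith), mul_one]

/-- the step in time -/
def be (s : ℝ) : ℝ := Real.smoothTransition (s + 2)

lemma be_cd : ContDiff ℝ ∞ be := Real.smoothTransition.contDiff.comp (by fun_prop)

lemma be_one {s : ℝ} (h : -1 ≤ s) : be s = 1 := Real.smoothTransition.one_of_one_le (by linarith)

lemma be_zero {s : ℝ} (h : s ≤ -2) : be s = 0 := Real.smoothTransition.zero_of_nonpos (by linarith)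

/-- the selection of the boundary at infinity -/
def nuf (b : V) (κ : V → ℝ) (τ : ℝ) (z : V) : ℝ :=
  κ z * Real.smoothTransition ((GF.mdot b z - τ / 2) / (τ / 2))

lemma nuf_tst (b : V) {κ : V → ℝ} (hκ : Tst κ) (τ : ℝ) : Tst (nuf b κ τ) := by
  refine tst_mul hκ ?_
  have h1 := contDiff_mdot b
  exact Real.smoothTransition.contDiff.comp ((h1.sub contDiff_const).div_const _)

lemma nuf_zero {b : V} {κ : V → ℝ} {τ : ℝ} (hτ : 0 < τ) {z : V} (h : GF.mdot b z ≤ τ / 2) :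
    nuf b κ τ z = 0 := by
  rw [nuf, Real.smoothTransition.zero_of_nonpos, mul_zero]
  exact div_nonpos_of_nonpos_of_nonneg (by linarith) (by linarith)

lemma nuf_one {b : V} {κ : V → ℝ} {τ : ℝ} (hτ : 0 < τ) {z : V} (h : τ ≤ GF.mdot b z)
    (hz : κ z = 1) : nuf b κ τ z = 1 := by
  rw [nuf, hz, Real.smoothTransition.one_of_one_le, mul_one]
  rw [le_div_iff₀ (by linarith)]
  linarith

lemma nuf_near {b : V} {κ : V → ℝ} {τ : ℝ} (hτ : 0 < τ) : ∀ᶠ z in 𝓝 (0 : V), nuf b κ τ z = 0 := by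
  have h1 : Tendsto (fun z : V => GF.mdot b z) (𝓝 0) (𝓝 0) := by
    have := (contDiff_mdot b).continuous.tendsto 0
    have h0 : GF.mdot b (0 : V) = 0 := by
      rw [mdx]
      simp
    rwa [h0] at this
  filter_upwards [h1.eventually (gt_mem_nhds (by linarith : (0:ℝ) < τ / 2))] with z hz
  exact nuf_zero hτ (le_of_lt hz)

/-- the switch -/
def th (a b : V) (κ : V → ℝ) (u0 R : ℝ) (x : V) : ℝ :=
  1 + be (x 0) * (Ps u0 (GF.mdot a x) * cut a b κ R x - 1)

lemma th_cd (a b : V) {κ : V → ℝ} (hκ : Tst κ) (u0 R : ℝ) : ContDiff ℝ ∞ (th a b κ u0 R) := by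
  have h1 : ContDiff ℝ ∞ fun x : V => be (x 0) := be_cd.comp (contDiff_apply ℝ ℝ 0)
  have h2 : ContDiff ℝ ∞ fun x : V => Ps u0 (GF.mdot a x) := (Ps_cd u0).comp (contDiff_mdot a)
  have h3 : ContDiff ℝ ∞ fun x : V => cut a b κ R x := hκ.1.comp (contDiff_cv a b R)
  exact contDiff_const.add (h1.mul ((h2.mul h3).sub contDiff_const))

lemma th_pos {a b : V} {κ : V → ℝ} {u0 R : ℝ} {x : V} (h : -1 ≤ x 0) :
    th a b κ u0 R x = Ps u0 (GF.mdot a x) * cut a b κ R x := by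
  rw [th, be_one h]
  ring

/-- the switch is one in the past -/
lemma th_neg {a b : V} (ha : IsNull a) {κ : V → ℝ} (hκ1 : ∀ᶠ x in 𝓝 (0 : V), κ x = 1) {c : ℝ}
    (hc : 0 ≤ c) {u0 : ℝ} (hu0 : a 0 * c ≤ u0) :
    ∀ᶠ R in atTop, ∀ x ∈ Gc c, x 0 ≤ 0 → th a b κ u0 R x = 1 := by
  filter_upwards [cut_one a b hκ1 (c + 3)] with R hR x hx hx0
  rw [th]
  rcases le_or_gt (x 0) (-2) with h | h
  · rw [be_zero h]
    ring
  · rw [Ps_one ((gc_neg ha hc hx hx0).trans hu0), hR x]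
    · ring
    · rw [mem_ball_zero_iff]
      have h1 := gc_norm hc hx
      rw [abs_of_nonpos hx0] at h1
      linarith

/-- Where the cutoff is not locally constant, in the forward region. -/
lemma nu_dich {a b : V} (ha : IsNull a) (hb : IsNull b) (hab : GF.mdot a b = 1) {κ κ' : V → ℝ}
    (hκ1 : ∀ᶠ x in 𝓝 (0 : V), κ x = 1) (hκ' : ∀ x ∈ tsupport κ, κ' x = 1) {c : ℝ}
    (hc : 0 ≤ c) {u1 : ℝ} (hu1 : 0 ≤ u1) : ∃ τ > 0, ∀ᶠ R in atTop,
      (∀ x ∈ Gc c, x 0 ≤ 0 → cut a b (nuf b κ' τ) R x = 0) ∧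
      ∀ x ∈ Gc c, 0 ≤ x 0 → GF.mdot a x ≤ u1 → κ =ᶠ[𝓝 (cv a b R x)] (fun _ => (1:ℝ)) ∨
        κ =ᶠ[𝓝 (cv a b R x)] (fun _ => (0:ℝ)) ∨ cut a b (nuf b κ' τ) R x = 1 := by
  obtain ⟨ε, hε, hκε⟩ := Metric.eventually_nhds_iff_ball.1 hκ1
  obtain ⟨τ, hτ, h⟩ := small_cv ha hb hab hc hu1 hε
  refine ⟨τ, hτ, ?_⟩
  filter_upwards [h, eventually_gt_atTop (0:ℝ)] with R hR hR0
  obtain ⟨hR1, hR2⟩ := hR
  have hR2' : (0:ℝ) < R ^ 2 := by positivity
  refine ⟨fun x hx hx0 => ?_, fun x hx hx0 hxa => ?_⟩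
  · rw [cut_cv]
    apply nuf_zero hτ
    rw [mdot_cv hb.1 hab]
    have h1 := gc_neg hb hc hx hx0
    have h2 : GF.mdot b x / R ^ 2 ≤ b 0 * c / R ^ 2 := div_le_div_of_nonneg_right h1 hR2'.le
    linarith
  · rcases le_or_gt (GF.mdot b x / R ^ 2) τ with h1 | h1
    · left
      have h2 := hR2 x hx hx0 hxa h1
      have h3 : Metric.ball (0 : V) ε ∈ 𝓝 (cv a b R x) := by
        apply Metric.isOpen_ball.mem_nhds
        rwa [mem_ball_zero_iff]
      filter_upwards [h3] with z hz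
      exact hκε z hz
    · by_cases h2 : cv a b R x ∈ tsupport κ
      · right; right
        rw [cut_cv]
        apply nuf_one hτ _ (hκ' _ h2)
        rw [mdot_cv hb.1 hab]
        exact h1.le
      · right; left
        exact notMem_tsupport_iff_eventuallyEq.1 h2

end Vale.Agent.P352.H846

end
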