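import Vale.Agent.P352.H846.Sw2
import Vale.Agent.P352.H746.Loc
import Vale.Agent.P352.H755.R7e

/-!
# The derivative of the switch
-/

set_option linter.all false

noncomputable section

open MeasureTheory Filter Topology Set
open scoped ContDiff ComplexConjugate

namespace Vale.Agent.P352.H846

open GF (Ix V Fn bas eta o)
open H755 H496 H15

/-- the data of the switch -/
structure Swi (a b : V) (κ : V → ℝ) (c u0 l : ℝ) (ν : V → ℝ) (R : ℝ) : Prop where
  neg : ∀ x ∈ Gc c, x 0 < 0 → th a b κ u0 R =ᶠ[𝓝 x] fun _ => (1:ℝ)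
  neg2 : ∀ x ∈ Gc c, x 0 ≤ 0 → deriv (Ps u0) (GF.mdot a x) = 0 ∧ cut a b ν R x = 0
  pos : ∀ x : V, 0 ≤ x 0 → th a b κ u0 R =ᶠ[𝓝 x] fun y => Ps u0 (GF.mdot a y) * cut a b κ R y
  pos2 : ∀ x ∈ Gc c, 0 ≤ x 0 → Ps u0 (GF.mdot a x) = pl u0 l (GF.mdot a x)
  tri : ∀ x ∈ Gc c, 0 ≤ x 0 → u0 + 1 < GF.mdot a x ∨ κ =ᶠ[𝓝 (cv a b R x)] (fun _ => (1:ℝ)) ∨
    κ =ᶠ[𝓝 (cv a b R x)] (fun _ => (0:ℝ)) ∨ cut a b ν R x = 1

lemma th_nhds_pos (a b : V) (κ : V → ℝ) (u0 R : ℝ) {x : V} (h : 0 ≤ x 0) :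
    th a b κ u0 R =ᶠ[𝓝 x] fun y => Ps u0 (GF.mdot a y) * cut a b κ R y := by
  have h1 : ∀ᶠ y : V in 𝓝 x, (-1:ℝ) < y 0 :=
    (continuous_apply (0 : Ix)).continuousAt.eventually (lt_mem_nhds (by linarith : (-1:ℝ) < x 0))
  filter_upwards [h1] with y hy
  exact th_pos (le_of_lt hy)

lemma exists_swi {a b : V} (ha : IsNull a) (hb : IsNull b) (hab : GF.mdot a b = 1) {κ : V → ℝ}
    (hκ : Tst κ) (hκ1 : ∀ᶠ x in 𝓝 (0 : V), κ x = 1) {c : ℝ} (hc : 0 ≤ c) :
    ∃ (u0 l : ℝ) (ν : V → ℝ), Tst ν ∧ (∀ᶠ x in 𝓝 (0 : V), ν x = 0) ∧ a 0 * c ≤ u0 ∧ a 0 * c ≤ l ∧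
      ∀ᶠ R in atTop, Swi a b κ c u0 l ν R := by
  have ha0 : 0 < a 0 := ha.2
  obtain ⟨κ', hκ', hκ1'⟩ : ∃ κ' : V → ℝ, Tst κ' ∧ ∀ x ∈ tsupport κ, κ' x = 1 := by
    obtain ⟨ρ, hρ⟩ := hκ.2.isCompact.isBounded.subset_closedBall (0 : V)
    let f : ContDiffBump (0 : V) := ⟨|ρ| + 1, |ρ| + 2, by positivity, by linarith⟩
    refine ⟨f, ⟨f.contDiff, f.hasCompactSupport⟩, fun x hx => ?_⟩
    apply f.one_of_mem_closedBall
    have h1 := hρ hx
    rw [mem_closedBall_zero_iff] at h1 ⊢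
    show ‖x‖ ≤ |ρ| + 1
    linarith [le_abs_self ρ]
  have hu0 : a 0 * c < a 0 * (c + 1) := by nlinarith
  obtain ⟨τ, hτ, hev⟩ := nu_dich ha hb hab hκ1 hκ1' hc
    (u1 := a 0 * (c + 1) + 1) (by positivity)
  refine ⟨a 0 * (c + 1), a 0 * c, nuf b κ' τ, nuf_tst b hκ' τ, nuf_near hτ, hu0.le, le_rfl, ?_⟩
  have hth := th_neg ha (b := b) hκ1 (c := c + 1) (by linarith) (u0 := a 0 * (c + 1)) le_rfl
  filter_upwards [hev, hth] with R hR hR'
  obtain ⟨hR1, hR2⟩ := hR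
  refine ⟨fun x hx hx0 => ?_, fun x hx hx0 => ⟨?_, hR1 x hx hx0⟩, fun x hx0 =>
    th_nhds_pos a b κ _ R hx0, fun x hx hx0 => ?_, fun x hx hx0 => ?_⟩
  · have h1 : ∀ᶠ y : V in 𝓝 x, y 0 < 0 :=
      (continuous_apply (0 : Ix)).continuousAt.eventually (gt_mem_nhds hx0)
    filter_upwards [gc_nhds hc (by linarith : c < c + 1) hx, h1] with y hy hy0
    exact hR' y hy hy0.le
  · exact dPs_lt ((gc_neg ha hc hx hx0).trans_lt hu0)
  · exact (pl_eq (gc_pos ha hc hx hx0)).symm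
  · rcases le_or_gt (GF.mdot a x) (a 0 * (c + 1) + 1) with h | h
    · exact Or.inr (hR2 x hx hx0 h)
    · exact Or.inl h

/-- the product rule -/
lemma dr_prod {a b : V} {κ : V → ℝ} (hκ : Tst κ) {G : ℝ → ℝ} (hG : ContDiff ℝ ∞ G) (R : ℝ)
    (m : Ix) (x : V) : dr m (fun y => G (GF.mdot a y) * cut a b κ R y) x =
      deriv G (GF.mdot a x) * (eta m * a m) * cut a b κ R x +
        G (GF.mdot a x) * dr m (cut a b κ R) x := by
  have h1 : H746.HD m (fun y => G (GF.mdot a y)) (deriv G (GF.mdot a x) * (eta m * a m)) x :=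
    H746.HD.comp (hG.differentiable (by simp)) (H746.hd_mdot m a x)
  have hc : ContDiff ℝ ∞ (cut a b κ R) := hκ.1.comp (contDiff_cv a b R)
  have h2 : H746.HD m (cut a b κ R) (dr m (cut a b κ R) x) x := diff_line hc m x
  exact (h1.mul h2).dr

/-- local constancy -/
lemma cut_near {a b : V} {κ : V → ℝ} {R c : ℝ} {x : V}
    (h : κ =ᶠ[𝓝 (cv a b R x)] (fun _ => c)) : cut a b κ R =ᶠ[𝓝 x] fun _ => c :=
  (contDiff_cv a b R).continuous.continuousAt.eventually h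

lemma dr_cut_zero {a b : V} {κ : V → ℝ} {R c : ℝ} {x : V}
    (h : κ =ᶠ[𝓝 (cv a b R x)] (fun _ => c)) (m : Ix) : dr m (cut a b κ R) x = 0 := by
  rw [dr_eqon (cut_near h) m]
  exact dr_const' c m x

/-- the gradient of the switch -/
lemma swi_dr {a b : V} {κ ν : V → ℝ} (hκ : Tst κ) {c u0 l R : ℝ} (h : Swi a b κ c u0 l ν R)
    {x : V} (hx : x ∈ Gc c) (m : Ix) : dr m (th a b κ u0 R) x =
      eta m * a m * ctf a b κ 0 (deriv (Ps u0)) R x +
        dr m (cut a b κ R) x * cut a b ν R x * pl u0 l (GF.mdot a x) := by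
  have hc0 : ctf a b κ 0 (deriv (Ps u0)) R x = cut a b κ R x * deriv (Ps u0) (GF.mdot a x) := by
    rw [ctf, sub_zero]
  rw [hc0]
  rcases lt_or_ge (x 0) 0 with hx0 | hx0
  · rw [dr_eqon (h.neg x hx hx0) m, dr_const', (h.neg2 x hx hx0.le).1, (h.neg2 x hx hx0.le).2]
    ring
  · rw [dr_eqon (h.pos x hx0) m, dr_prod hκ (Ps_cd u0), ← h.pos2 x hx hx0]
    rcases h.tri x hx hx0 with h1 | h1 | h1 | h1
    · rw [Ps_zero h1.le]
      ring
    · rw [dr_cut_zero h1]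
      ring
    · rw [dr_cut_zero h1]
      ring
    · rw [h1]
      ring

/-- the gradient of a function of the time -/
lemma dr_time {F : ℝ → ℝ} (hF : ContDiff ℝ ∞ F) (m : Ix) (x : V) :
    dr m (fun y : V => F (y 0)) x = if m = o then deriv F (x 0) else 0 := by
  have h1 : H746.HD m (fun y : V => F (y 0)) (deriv F (x 0) * bas m 1 0) x :=
    H746.HD.comp (hF.differentiable (by simp)) (H746.hd_coord m 0 x)
  rw [h1.dr]
  have ho : (o : Ix) = 0 := rfl
  by_cases hm : m = o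
  · rw [hm]
    simp [bas, ho]
  · rw [if_neg hm]
    have : (bas m 1 : V) 0 = 0 := by
      unfold bas
      rw [if_neg]
      rw [ho] at hm
      exact fun h => hm h.symm
    rw [this, mul_zero]

/-- the difference of the two switches has compact support in the region -/
lemma swi_eta {a b : V} (ha : IsNull a) (hb : IsNull b) (hab : GF.mdot a b = 1) {κ ν : V → ℝ}
    (hκ : Tst κ) {c c' u0 l R : ℝ} (hc : 0 ≤ c) (hcc : c < c') (hR : 1 ≤ R)
    (h : Swi a b κ c' u0 l ν R) {α : ℝ → ℝ} (hα : Tst α) (hα1 : ∫ u, α u = 1) :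
    ∃ η : V → ℝ, Tst η ∧ ∀ x ∈ Gc c, ∀ m, (if m = o then α (x o) else 0) +
      dr m (th a b κ u0 R) x + dr m η x = 0 := by
  have hc' : 0 ≤ c' := hc.trans hcc.le
  have i1 : Integrable α := hα.1.continuous.integrable_of_hasCompactSupport hα.2
  have i2 : Integrable (deriv (Ps 0)) :=
    (dPs_tst 0).1.continuous.integrable_of_hasCompactSupport (dPs_tst 0).2
  have hψ : Tst fun u => α u + deriv (Ps 0) u := ⟨hα.1.add (dPs_tst 0).1, hα.2.add (dPs_tst 0).2⟩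
  obtain ⟨β, hβ, hβ'⟩ := prim_tst hψ (by rw [integral_add i1 i2, hα1, dPs_int]; norm_num)
  obtain ⟨M, hM, hM'⟩ := supp_bd hβ
  obtain ⟨F, hF⟩ : ∃ F : ℝ → ℝ, F = fun u => Ps 0 u - β u := ⟨_, rfl⟩
  have hFc : ContDiff ℝ ∞ F := by
    rw [hF]
    exact (Ps_cd 0).sub hβ.1
  have hFd : ∀ u, deriv F u = -α u := by
    intro u
    have h1 : deriv F u = deriv (Ps 0) u - deriv β u := by
      rw [hF]
      exact deriv_fun_sub (((Ps_cd 0).differentiable (by simp)) u)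
        ((hβ.1.differentiable (by simp)) u)
    rw [h1, hβ']
    ring
  obtain ⟨W, hW⟩ : ∃ W : V → ℝ, W = fun x => F (x 0) - th a b κ u0 R x := ⟨_, rfl⟩
  have hWc : ContDiff ℝ ∞ W := by
    rw [hW]
    exact (hFc.comp (contDiff_apply ℝ ℝ 0)).sub (th_cd a b hκ u0 R)
  obtain ⟨ρ1, hρ1⟩ := (cut_tst ha.1 hb.1 hab hκ (pl_tst u0 l) hR).2.isCompact.isBounded.subset_closedBall
    (0 : V)
  obtain ⟨ρ, hρ⟩ : ∃ ρ, ρ = |ρ1| + M + c' + 3 := ⟨_, rfl⟩
  have hρ0 : 0 < ρ := by rw [hρ]; positivity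
  have hWρ : ∀ x ∈ Gc c', ρ < ‖x‖ → W x = 0 := by
    intro x hx hxρ
    have hn := gc_norm hc' hx
    rw [hW]
    rcases le_or_gt (x 0) 0 with h0 | h0
    · have h1 : M + 2 < -x 0 := by
        rw [abs_of_nonpos h0] at hn
        linarith [abs_nonneg ρ1]
      have h2 : β (x 0) = 0 := by
        by_contra h3
        have h4 := hM' _ h3
        rw [abs_of_nonpos h0] at h4
        linarith
      have h3 : th a b κ u0 R x = 1 := by
        rw [th, be_zero (by linarith)]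
        ring
      simp only [hF]
      rw [h2, h3, Ps_one h0]
      ring
    · have h1 : M + 1 < x 0 := by
        rw [abs_of_pos h0] at hn
        linarith [abs_nonneg ρ1]
      have h2 : β (x 0) = 0 := by
        by_contra h3
        have h4 := hM' _ h3
        rw [abs_of_pos h0] at h4
        linarith
      have h3 : th a b κ u0 R x = 0 := by
        rw [th_pos (by linarith), h.pos2 x hx h0.le, mul_comm]
        by_contra hne
        have h4 := hρ1 (subset_tsupport _ (Function.mem_support.2 hne))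
        rw [mem_closedBall_zero_iff] at h4
        linarith [le_abs_self ρ1]
      simp only [hF]
      rw [h2, h3, Ps_zero (by linarith)]
      ring
  let f : ContDiffBump (0 : V) := ⟨ρ + 1, ρ + 2, by linarith, by linarith⟩
  refine ⟨fun x => f x * W x, ⟨f.contDiff.mul hWc, f.hasCompactSupport.mul_right⟩, ?_⟩
  intro x hx m
  have hloc : (fun y => f y * W y) =ᶠ[𝓝 x] W := by
    rcases lt_or_ge ‖x‖ (ρ + 1) with h1 | h1
    · have h2 : ∀ᶠ y in 𝓝 x, ‖y‖ < ρ + 1 := continuous_norm.continuousAt.eventually (gt_mem_nhds h1)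
      filter_upwards [h2] with y hy
      rw [f.one_of_mem_closedBall, one_mul]
      rw [mem_closedBall_zero_iff]
      exact le_of_lt hy
    · have h2 : ∀ᶠ y in 𝓝 x, ρ < ‖y‖ :=
        continuous_norm.continuousAt.eventually (lt_mem_nhds (by linarith))
      filter_upwards [h2, gc_nhds hc hcc hx] with y hy hy2
      rw [hWρ y hy2 hy, mul_zero]
  rw [dr_eqon hloc m]
  have h1 : dr m W x = dr m (fun y : V => F (y 0)) x - dr m (th a b κ u0 R) x := by
    rw [hW]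
    have h2 := (diff_line (hFc.comp (contDiff_apply ℝ ℝ 0)) m x).fun_sub
      (diff_line (th_cd a b hκ u0 R) m x)
    exact h2.deriv
  rw [h1, dr_time hFc, hFd]
  have ho : (o : Ix) = 0 := rfl
  rw [ho]
  split_ifs <;> ring

end Vale.Agent.P352.H846

end
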