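import Vale.Agent.P352.H846.Sw3
import Vale.Agent.P352.H148.BoxTh
import Vale.Agent.P352.H496.DDid

/-!
# The double divergence of the switched current
-/

set_option linter.all false

noncomputable section

open MeasureTheory Filter Topology Set
open scoped ContDiff ComplexConjugate

namespace Vale.Agent.P352.H846

open GF (Ix V Fn bas eta o)
open H755 H496 H15
open H148 (Da Lap)

/-- products of profiles -/
def pmul (ν μ : V → ℝ) (z : V) : ℝ := ν z * μ z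

lemma pmul_tst {ν μ : V → ℝ} (hν : Tst ν) (hμ : Tst μ) : Tst (pmul ν μ) :=
  ⟨hν.1.mul hμ.1, hν.2.mul_right⟩

lemma pmul_near {ν : V → ℝ} (μ : V → ℝ) (h : ∀ᶠ x in 𝓝 (0 : V), ν x = 0) :
    ∀ᶠ x in 𝓝 (0 : V), pmul ν μ x = 0 := by
  filter_upwards [h] with x hx
  rw [pmul, hx, zero_mul]

lemma cut_pmul (a b : V) (ν μ : V → ℝ) (R : ℝ) (x : V) :
    cut a b (pmul ν μ) R x = cut a b ν R x * cut a b μ R x := rfl

/-- the derivative in the direction `a` -/
lemma swi_a {a b : V} (haa : GF.mdot a a = 0) (hab : GF.mdot a b = 1) {κ ν : V → ℝ} (hκ : Tst κ)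
    {c u0 l R : ℝ} (h : Swi a b κ c u0 l ν R) {x : V} (hx : x ∈ Gc c) :
    ∑ m, a m * dr m (th a b κ u0 R) x =
      (R ^ 2)⁻¹ * (cut a b (pmul ν (Da a κ)) R x * pl u0 l (GF.mdot a x)) := by
  rw [cut_pmul]
  rcases lt_or_ge (x 0) 0 with hx0 | hx0
  · rw [(h.neg2 x hx hx0.le).2]
    simp only [dr_eqon (h.neg x hx hx0), dr_const']
    simp
  · simp only [dr_eqon (h.pos x hx0)]
    rw [H148.E1 haa hab (Ps_cd u0) hκ.1 R x, ← h.pos2 x hx hx0]
    have hz : ∀ {d : ℝ}, κ =ᶠ[𝓝 (cv a b R x)] (fun _ => d) → cut a b (Da a κ) R x = 0 := by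
      intro d h1
      rw [cut_cv]
      exact (H148.Da_const h1 a).self_of_nhds
    rcases h.tri x hx hx0 with h1 | h1 | h1 | h1
    · rw [Ps_zero h1.le]
      ring
    · rw [hz h1]
      ring
    · rw [hz h1]
      ring
    · rw [h1]
      ring

/-- the wave operator -/
lemma swi_box {a b : V} (haa : GF.mdot a a = 0) (hbb : GF.mdot b b = 0) (hab : GF.mdot a b = 1)
    {κ ν : V → ℝ} (hκ : Tst κ)
    {c u0 l R : ℝ} (h : Swi a b κ c u0 l ν R) {x : V} (hx : x ∈ Gc c) :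
    ∑ m, eta m * dr m (dr m (th a b κ u0 R)) x =
      (R ^ 2)⁻¹ * (2 * deriv (Ps u0) (GF.mdot a x) * cut a b (pmul ν (Da a κ)) R x +
        pl u0 l (GF.mdot a x) * cut a b (pmul ν (Lap a b κ)) R x) := by
  rw [cut_pmul, cut_pmul]
  rcases lt_or_ge (x 0) 0 with hx0 | hx0
  · rw [(h.neg2 x hx hx0.le).2]
    have h1 : ∀ m, dr m (dr m (th a b κ u0 R)) x = 0 := by
      intro m
      rw [dr_eqon (dr_eqnh (h.neg x hx hx0) m) m]
      have h2 : dr m (fun _ : V => (1:ℝ)) = fun _ => 0 := funext fun y => dr_const' 1 m y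
      rw [h2]
      exact dr_const' 0 m x
    simp only [h1]
    simp
  · have h1 : ∀ m, dr m (dr m (th a b κ u0 R)) x =
        dr m (dr m (fun y => Ps u0 (GF.mdot a y) * cut a b κ R y)) x := fun m =>
      dr_eqon (dr_eqnh (h.pos x hx0) m) m
    simp only [h1]
    rw [H148.E2 haa hbb hab (Ps_cd u0) hκ.1 R x, ← h.pos2 x hx hx0]
    have hz : ∀ {d : ℝ}, κ =ᶠ[𝓝 (cv a b R x)] (fun _ => d) → cut a b (Da a κ) R x = 0 := by
      intro d h1
      rw [cut_cv]
      exact (H148.Da_const h1 a).self_of_nhds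
    have hz' : ∀ {d : ℝ}, κ =ᶠ[𝓝 (cv a b R x)] (fun _ => d) → cut a b (Lap a b κ) R x = 0 := by
      intro d h1
      rw [cut_cv]
      exact (H148.Lap_const h1 a b).self_of_nhds
    rcases h.tri x hx hx0 with h1 | h1 | h1 | h1
    · rw [Ps_zero h1.le, dPs_gt h1]
      ring
    · rw [hz h1, hz' h1]
      ring
    · rw [hz h1, hz' h1]
      ring
    · rw [h1]
      ring

/-- the first profile -/
def psA (r s u0 l u : ℝ) : ℝ := 2 * (r + 2 * s * u) * deriv (Ps u0) u + 4 * s * pl u0 l u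

/-- the second profile -/
def psB (r s u0 l u : ℝ) : ℝ := (r + 2 * s * u) * pl u0 l u

lemma psA_tst (r s u0 l : ℝ) : Tst (psA r s u0 l) := by
  have h1 := dPs_tst u0
  have h2 := pl_tst u0 l
  have h3 : ContDiff ℝ ∞ fun u : ℝ => 2 * (r + 2 * s * u) := by fun_prop
  exact ⟨(h3.mul h1.1).add (contDiff_const.mul h2.1), h1.2.mul_left.add h2.2.mul_left⟩

lemma psB_tst (r s u0 l : ℝ) : Tst (psB r s u0 l) := by
  have h2 := pl_tst u0 l
  have h3 : ContDiff ℝ ∞ fun u : ℝ => r + 2 * s * u := by fun_prop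
  exact ⟨h3.mul h2.1, h2.2.mul_left⟩

/-- the source of the improvement field -/
def Nr (a b : V) (κ ν : V → ℝ) (r s u0 l R : ℝ) (x : V) : ℝ :=
  (R ^ 2)⁻¹ * cut a b (pmul ν (Da a κ)) R x * psA r s u0 l (GF.mdot a x) +
    (R ^ 2)⁻¹ * cut a b (pmul ν (Lap a b κ)) R x * psB r s u0 l (GF.mdot a x)

lemma prof_tst {a b : V} (haa : GF.mdot a a = 0) (hbb : GF.mdot b b = 0) (hab : GF.mdot a b = 1)
    {μ : V → ℝ} (hμ : Tst μ) {ψ : ℝ → ℝ} (hψ : Tst ψ) {R : ℝ} (hR : 1 ≤ R) :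
    Tst fun x => (R ^ 2)⁻¹ * cut a b μ R x * ψ (GF.mdot a x) := by
  have h := cut_tst haa hbb hab hμ hψ hR
  refine (congrArg Tst (funext fun x => ?_)).mp (tst_smul (contDiff_const (c := (R ^ 2)⁻¹)) h)
  ring

lemma Nr_tst {a b : V} (haa : GF.mdot a a = 0) (hbb : GF.mdot b b = 0) (hab : GF.mdot a b = 1)
    {κ ν : V → ℝ} (hκ : Tst κ) (hν : Tst ν) (r s u0 l : ℝ) {R : ℝ} (hR : 1 ≤ R) :
    Tst (Nr a b κ ν r s u0 l R) :=
  tst_add (prof_tst haa hbb hab (pmul_tst hν (H148.tst_Da hκ a)) (psA_tst r s u0 l) hR)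
    (prof_tst haa hbb hab (pmul_tst hν (H148.tst_Lap hκ a b)) (psB_tst r s u0 l) hR)

/-- **The double divergence.** -/
theorem swi_DD {a b : V} (haa : GF.mdot a a = 0) (hbb : GF.mdot b b = 0) (hab : GF.mdot a b = 1)
    {κ ν : V → ℝ} (hκ : Tst κ) {c c' u0 l R : ℝ} (hc : 0 ≤ c) (hcc : c < c')
    (h : Swi a b κ c' u0 l ν R) {X : V → V} {c0 k : V} {r s : ℝ} {w : Ix → V}
    (hw : ∀ m n, eta n * w m n = -(eta m * w n m))
    (hX : ∀ x n, X x n = c0 n + r * x n + ∑ m, x m * w m n + 2 * GF.mdot k x * x n -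
      GF.mdot x x * k n) (hk : k = s • a) {F : Ix → Ix → V → ℝ}
    (hF : ∀ m n, ∀ x ∈ Gc c', F m n x = eta n * X x n * dr m (th a b κ u0 R) x)
    {x : V} (hx : x ∈ Gc c) : DD F x = 3 * Nr a b κ ν r s u0 l R x := by
  have hx' : x ∈ Gc c' := gc_mono hc hcc.le hx
  have h1 : DD F x = DD (fun m n x => eta n * X x n * dr m (th a b κ u0 R) x) x := by
    refine dd_congr fun m n => ?_
    filter_upwards [gc_nhds hc hcc hx] with y hy
    exact hF m n y hy
  rw [h1, dd_grad hw hX (th_cd a b hκ u0 R) x, swi_box haa hbb hab hκ h hx']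
  have h2 : ∑ m, k m * dr m (th a b κ u0 R) x = s * ∑ m, a m * dr m (th a b κ u0 R) x := by
    rw [Finset.mul_sum, hk]
    exact Finset.sum_congr rfl fun m _ => by
      simp only [Pi.smul_apply, smul_eq_mul]
      ring
  have h3 : GF.mdot k x = s * GF.mdot a x := by
    rw [hk, mdl]
  rw [h2, swi_a haa hab hκ h hx', h3]
  unfold Nr psA psB
  ring

end Vale.Agent.P352.H846

end
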