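import Vale.Agent.P352.H846.Sw4
import Vale.Agent.P352.H846.CgDefs

/-!
# The commutator of the charge at finite `R`
-/

set_option linter.all false

noncomputable section

open MeasureTheory Filter Topology Set
open scoped ContDiff ComplexConjugate

namespace Vale.Agent.P352.H846

open GF (Ix V Fn Fld bas eta o improve)
open H755 H496 H15
open SubConf (IsKil IsAdj)

variable {D : Type*} [NormedAddCommGroup D] [InnerProductSpace ℂ D]
variable {Q Q' : GF.Theory D} {T : Ix → Ix → GF.Fld D} {L B : GF.Fld D}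
  {t : Ix → Ix → GF.Fld D}

/-- real functions that vanish in the region have spacelike support -/
lemma sep_gc {f : Fn} {M c : ℝ} (hM : 0 ≤ M) (hc : 3 * M + 1 ≤ c)
    (hfM : ∀ y ∈ tsupport f, ∀ i, |y i| ≤ M) {g : V → ℝ} (hg : ∀ x ∈ Gc c, g x = 0) :
    GF.Sep (fun x => (g x : ℂ)) f := by
  intro x hx y hy
  have h1 : tsupport (fun x => ((g x : ℝ) : ℂ)) ⊆ tsupport g := by
    refine closure_mono fun z hz => ?_
    rw [Function.mem_support] at hz ⊢
    intro h
    exact hz (by rw [h]; simp)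
  exact gc_sep hM hc hg (h1 hx) (hfM y hy)

lemma smt_loc (ht : IsT Q' t) (hB : Q'.fld B) {f : Fn} (hf : GF.IsTest f) {M c : ℝ} (hM : 0 ≤ M)
    (hc : 3 * M + 1 ≤ c) (hfM : ∀ y ∈ tsupport f, ∀ i, |y i| ≤ M) {H : Ix → Ix → V → ℝ}
    (hH : ∀ m n, Tst (H m n)) (hz : ∀ m n, ∀ x ∈ Gc c, H m n x = 0) (v : D) :
    smt t H (B f v) = B f (smt t H v) := by
  unfold smt
  rw [fsum hB hf]
  refine Finset.sum_congr rfl fun m _ => ?_
  rw [fsum hB hf]
  refine Finset.sum_congr rfl fun n _ => ?_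
  exact ht.loc m n B _ f v hB (tstIs (hH m n)) hf (sep_gc hM hc hfM (hz m n))

lemma l_loc (hL : Q'.bose L) (hB : Q'.fld B) {f : Fn} (hf : GF.IsTest f) {M c : ℝ} (hM : 0 ≤ M)
    (hc : 3 * M + 1 ≤ c) (hfM : ∀ y ∈ tsupport f, ∀ i, |y i| ≤ M) {h : V → ℝ}
    (hh : Tst h) (hz : ∀ x ∈ Gc c, h x = 0) (v : D) :
    L (fun x => (h x : ℂ)) (B f v) = B f (L (fun x => (h x : ℂ)) v) :=
  Q'.loc L B _ f v hL hB (tstIs hh) hf (sep_gc hM hc hfM hz)

lemma smt_time (ht : IsT Q' t) {h : Ix → V → ℝ} (v : D) :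
    smt t (fun m n x => if m = o then h n x else 0) v = ∑ n, t o n (fun x => (h n x : ℂ)) v := by
  unfold smt
  rw [Finset.sum_eq_single o]
  · refine Finset.sum_congr rfl fun n _ => ?_
    refine congrArg (fun f => t o n f v) ?_
    funext x
    simp
  · intro m _ hm
    refine Finset.sum_eq_zero fun n _ => ?_
    have e : (fun x => ((if m = o then h n x else 0 : ℝ) : ℂ)) = fun _ : V => ((0 : ℝ) : ℂ) := by
      funext x
      rw [if_neg hm]
    rw [e, t_zero ht]
  · intro hm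
    exact absurd (Finset.mem_univ _) hm

lemma smt_plus (ht : IsT Q' t) {F G : Ix → Ix → V → ℝ} (hF : ∀ m n, Tst (F m n))
    (hG : ∀ m n, Tst (G m n)) (v : D) :
    smt t (fun m n x => F m n x + G m n x) v = smt t F v + smt t G v := by
  have h := smt_add ht hF hG 1 v
  simp only [one_mul, Complex.ofReal_one, one_smul] at h
  exact h

/-- the plane term -/
def F1 (a b : V) (κ : V → ℝ) (X : V → V) (φ : ℝ → ℝ) (R : ℝ) : Ix → Ix → V → ℝ :=
  fun m n x => eta m * a m * (eta n * X x n) * ctf a b κ 0 φ R x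

/-- the boundary term -/
def F2 (a b : V) (κ ν : V → ℝ) (X : V → V) (ψ : ℝ → ℝ) (R : ℝ) : Ix → Ix → V → ℝ :=
  fun m n x => dr m (cut a b κ R) x * cut a b ν R x * ψ (GF.mdot a x) * (eta n * X x n)

lemma F1_tst {a b : V} (haa : GF.mdot a a = 0) (hbb : GF.mdot b b = 0) (hab : GF.mdot a b = 1)
    {κ : V → ℝ} (hκ : Tst κ) {X : V → V} (hX : ∀ n, ContDiff ℝ ∞ fun x => X x n) {φ : ℝ → ℝ}
    (hφ : Tst φ) {R : ℝ} (hR : 1 ≤ R) (m n : Ix) : Tst (F1 a b κ X φ R m n) := by
  have h1 : ContDiff ℝ ∞ fun x => eta m * a m * (eta n * X x n) :=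
    contDiff_const.mul (contDiff_const.mul (hX n))
  have h2 := tst_smul h1 (cut_tst haa hbb hab hκ hφ hR)
  refine (congrArg Tst (funext fun x => ?_)).mp h2
  rw [F1, ctf, sub_zero]

lemma F2_tst {a b : V} (haa : GF.mdot a a = 0) (hbb : GF.mdot b b = 0) (hab : GF.mdot a b = 1)
    {κ ν : V → ℝ} (hκ : Tst κ) (hν : Tst ν) {X : V → V} (hX : ∀ n, ContDiff ℝ ∞ fun x => X x n)
    {ψ : ℝ → ℝ} (hψ : Tst ψ) {R : ℝ} (hR : 1 ≤ R) (m n : Ix) : Tst (F2 a b κ ν X ψ R m n) := by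
  have h0 : ContDiff ℝ ∞ (cut a b κ R) := hκ.1.comp (contDiff_cv a b R)
  have h1 : ContDiff ℝ ∞ fun x => dr m (cut a b κ R) x * (eta n * X x n) :=
    (cd_dr h0 m).mul (contDiff_const.mul (hX n))
  have h2 := tst_smul h1 (cut_tst haa hbb hab hν hψ hR)
  refine (congrArg Tst (funext fun x => ?_)).mp h2
  rw [F2]
  ring

/-- **The commutator at finite `R`.** -/
theorem com_R (hT : Q.IsStress T) (hL : Q'.bose L) (ht : IsT Q' (improve T L)) (hB : Q'.fld B)
    {a b : V} (ha : IsNull a) (hb : IsNull b) (hab : GF.mdot a b = 1) {κ ν : V → ℝ}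
    (hκ : Tst κ) (hν : Tst ν) {X : V → V} {c0 k : V} {r s : ℝ} {w : Ix → V}
    (hw : ∀ m n, eta n * w m n = -(eta m * w n m))
    (hX : ∀ x n, X x n = c0 n + r * x n + ∑ m, x m * w m n + 2 * GF.mdot k x * x n -
      GF.mdot x x * k n) (hk : k = s • a) {f : Fn} (hf : H755.CS f) {M c c' : ℝ} (hM : 0 ≤ M)
    (hc : 3 * M + 1 ≤ c) (hcc : c < c') (hfM : ∀ y ∈ tsupport f, ∀ i, |y i| ≤ M) {α : ℝ → ℝ}
    (hα : Tst α) (hα1 : ∫ u, α u = 1) (hαM : ∀ u, α u ≠ 0 → |u| ≤ M) {u0 l R : ℝ} (hR : 1 ≤ R)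
    (h : Swi a b κ c' u0 l ν R) {g : V → ℝ} (hg : Ok (tsupport f) g) (v : D) :
    com (improve T L) (fun n x => X x n) g B f v =
      -((sm T (F1 a b κ X (deriv (Ps u0)) R) (B f v) -
          B f (sm T (F1 a b κ X (deriv (Ps u0)) R) v)) +
        (sm T (F2 a b κ ν X (pl u0 l) R) (B f v) - B f (sm T (F2 a b κ ν X (pl u0 l) R) v)) +
        (3 : ℂ) • (L (fun x => (Nr a b κ ν r s u0 l R x : ℂ)) (B f v) -
          B f (L (fun x => (Nr a b κ ν r s u0 l R x : ℂ)) v))) := by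
  have hc0 : 0 ≤ c := by linarith
  have hfld : Q'.fld L := Q'.bose_fld _ hL
  have hkil : IsKil (fun n x => X x n) := ⟨c0, k, r, w, hw, fun n x => hX x n⟩
  have hXc : ∀ n, ContDiff ℝ ∞ fun x => X x n := fun n => contDiff_kil hkil n
  -- the standard cutoff
  obtain ⟨g0, hg0⟩ : ∃ g0 : V → ℝ, g0 = fun x => α (x o) * chi (M + c) x := ⟨_, rfl⟩
  have hok : Ok (tsupport f) g0 := by
    rw [hg0]
    exact ok_prof hα hα1 hM (by linarith) hαM hfM
  have hg0t : Tst g0 := hok.1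
  rw [com_eq ht hB hkil hf subset_rfl hg hok]
  have hg0c : ∀ x ∈ Gc c, g0 x = α (x o) := by
    intro x hx
    simp only [hg0]
    by_cases h0 : α (x o) = 0
    · simp [h0]
    · have h1 := hαM _ h0
      have h2 := gc_norm hc0 hx
      have h3 : ‖sp x‖ ≤ ‖x‖ := by
        rw [pi_norm_le_iff_of_nonneg (norm_nonneg _)]
        intro i
        unfold sp
        by_cases hi : i = o
        · simp [hi]
        · simp only [hi, if_false]
          exact norm_le_pi_norm x i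
      have h4 : |x 0| ≤ M := h1
      rw [chi_one (by linarith : 0 < M + c) (by linarith), mul_one]
  obtain ⟨η, hη, hη1⟩ := swi_eta ha hb hab hκ hc0 hcc hR h hα hα1
  -- the total current
  obtain ⟨E0, hE0⟩ : ∃ E0 : Ix → Ix → V → ℝ, E0 = fun m n x =>
    if m = o then eta n * X x n * g0 x else 0 := ⟨_, rfl⟩
  obtain ⟨E1, hE1⟩ : ∃ E1, E1 = F1 a b κ X (deriv (Ps u0)) R := ⟨_, rfl⟩
  obtain ⟨E2, hE2⟩ : ∃ E2, E2 = F2 a b κ ν X (pl u0 l) R := ⟨_, rfl⟩
  obtain ⟨E3, hE3⟩ : ∃ E3 : Ix → Ix → V → ℝ, E3 = fun m n x => eta n * X x n * dr m η x :=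
    ⟨_, rfl⟩
  have t0 : ∀ m n, Tst (E0 m n) := by
    intro m n
    rw [hE0]
    by_cases hm : m = o
    · simp only [hm, if_true]
      exact kil_tst hkil hg0t n
    · simp only [hm, if_false]
      exact ⟨contDiff_const, HasCompactSupport.zero⟩
  have t1 : ∀ m n, Tst (E1 m n) := by
    intro m n
    rw [hE1]
    exact F1_tst ha.1 hb.1 hab hκ hXc (dPs_tst u0) hR m n
  have t2 : ∀ m n, Tst (E2 m n) := by
    intro m n
    rw [hE2]
    exact F2_tst ha.1 hb.1 hab hκ hν hXc (pl_tst u0 l) hR m n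
  have t3 : ∀ m n, Tst (E3 m n) := by
    intro m n
    rw [hE3]
    exact kil_tst hkil (tst_dr hη m) n
  have t12 : ∀ m n, Tst fun x => E1 m n x + E2 m n x := fun m n => tst_add (t1 m n) (t2 m n)
  have t03 : ∀ m n, Tst fun x => E0 m n x + E3 m n x := fun m n => tst_add (t0 m n) (t3 m n)
  have t0123 : ∀ m n, Tst fun x => (E0 m n x + E3 m n x) + (E1 m n x + E2 m n x) := fun m n =>
    tst_add (t03 m n) (t12 m n)
  have hgrad : ∀ m n, ∀ x ∈ Gc c', E1 m n x + E2 m n x =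
      eta n * X x n * dr m (th a b κ u0 R) x := by
    intro m n x hx
    rw [swi_dr hκ h hx m, hE1, hE2]
    unfold F1 F2
    ring
  have hz : ∀ m n, ∀ x ∈ Gc c, (E0 m n x + E3 m n x) + (E1 m n x + E2 m n x) = 0 := by
    intro m n x hx
    have h1 := hη1 x hx m
    rw [hgrad m n x (gc_mono hc0 hcc.le hx), hE0, hE3]
    have h2 : (if m = o then eta n * X x n * g0 x else 0) =
        eta n * X x n * (if m = o then α (x o) else 0) := by
      rw [hg0c x hx]
      split_ifs <;> ring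
    simp only
    rw [h2]
    linear_combination (eta n * X x n) * h1
  have key := fun v => smt_loc ht hB hf.1 hM hc hfM t0123 hz v
  have hE3z : ∀ v, smt (improve T L) E3 v = 0 := by
    intro v
    rw [hE3]
    exact kil_cons ht hkil hη v
  have hE0v : ∀ v, smt (improve T L) E0 v =
      ∑ n, improve T L o n (fun x => ((eta n * X x n * g0 x : ℝ) : ℂ)) v := by
    intro v
    rw [hE0]
    exact smt_time ht v
  have hsum : ∀ v, smt (improve T L) (fun m n x => (E0 m n x + E3 m n x) +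
      (E1 m n x + E2 m n x)) v = smt (improve T L) E0 v + (sm T E1 v + sm T E2 v +
        L (fun x => (DD (fun m n x => E1 m n x + E2 m n x) x : ℂ)) v) := by
    intro v
    rw [smt_plus ht t03 t12, smt_plus ht t0 t3, hE3z, add_zero, smt_improve hT hfld t12,
      sm_add hT t1 t2]
  -- the improvement term
  obtain ⟨N, hN⟩ : ∃ N, N = Nr a b κ ν r s u0 l R := ⟨_, rfl⟩
  have tN : Tst N := by
    rw [hN]
    exact Nr_tst ha.1 hb.1 hab hκ hν r s u0 l hR
  have tD : Tst (DD fun m n x => E1 m n x + E2 m n x) := tst_DD t12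
  have tN3 : Tst fun x => (-3 : ℝ) * N x := tst_smul contDiff_const tN
  have hDN : ∀ x ∈ Gc c, DD (fun m n x => E1 m n x + E2 m n x) x + (-3) * N x = 0 := by
    intro x hx
    rw [swi_DD ha.1 hb.1 hab hκ hc0 hcc h hw hX hk hgrad hx, hN]
    ring
  have keyL := fun v => l_loc hL hB hf.1 hM hc hfM (tst_add tD tN3) hDN v
  have hLs : ∀ v, L (fun x => ((DD (fun m n x => E1 m n x + E2 m n x) x + (-3) * N x : ℝ) : ℂ)) v =
      L (fun x => (DD (fun m n x => E1 m n x + E2 m n x) x : ℂ)) v -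
        (3 : ℂ) • L (fun x => (N x : ℂ)) v := by
    intro v
    rw [fld_add hfld tD tN3, fld_cmul hfld _ tN]
    push_cast
    module
  have hB1 : ∀ u v, B f (u + v) = B f u + B f v := fun u v => fadd hB hf.1 u v
  have hB2 : ∀ (d : ℂ) u, B f (d • u) = d • B f u := fun d u => fsmul hB hf.1 d u
  have hB3 : ∀ (d : ℂ) u v, B f (u - d • v) = B f u - d • B f v := by
    intro d u v
    rw [sub_eq_add_neg, ← neg_smul, hB1, hB2, neg_smul, ← sub_eq_add_neg]
  have k1 := key v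
  rw [hsum, hsum, hB1, hB1, hB1] at k1
  have k2 := keyL v
  rw [hLs, hLs, hB3] at k2
  have k3 : com (improve T L) (fun n x => X x n) g0 B f v =
      smt (improve T L) E0 (B f v) - B f (smt (improve T L) E0 v) := by
    rw [hE0v, hE0v]
    rfl
  rw [k3, ← hE1, ← hE2, ← hN]
  rw [← sub_eq_zero] at k1 k2 ⊢
  rw [← k1]
  have k4 := k2
  generalize smt (improve T L) E0 (B f v) = p0 at *
  generalize B f (smt (improve T L) E0 v) = p1 at *
  generalize sm T E1 (B f v) = p2 at *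
  generalize sm T E2 (B f v) = p3 at *
  generalize B f (sm T E1 v) = p4 at *
  generalize B f (sm T E2 v) = p5 at *
  generalize L (fun x => (N x : ℂ)) (B f v) = p6 at *
  generalize B f (L (fun x => (N x : ℂ)) v) = p7 at *
  generalize L (fun x => (DD (fun m n x => E1 m n x + E2 m n x) x : ℂ)) (B f v) = p8 at *
  generalize B f (L (fun x => (DD (fun m n x => E1 m n x + E2 m n x) x : ℂ)) v) = p9 at *
  have e1 : p8 - p9 = (3 : ℂ) • (p6 - p7) := by
    rw [← sub_eq_zero, ← k4]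
    module
  have e2 : p8 = p9 + (3 : ℂ) • (p6 - p7) := by
    rw [← e1]
    abel
  rw [e2]
  module

end Vale.Agent.P352.H846

end
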