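import Vale.Agent.P352.H846.T2
import Mathlib.Analysis.Calculus.BumpFunction.Normed

/-!
# The translation law of the second null moments
-/

set_option linter.all false

noncomputable section

open MeasureTheory Filter Topology Set
open scoped ContDiff ComplexConjugate

namespace Vale.Agent.P352.H846

open GF (Ix V Fn Fld bas eta o bar)
open H755 H496 H15 H246

variable {D : Type*} [NormedAddCommGroup D] [InnerProductSpace ℂ D]
variable {Q : GF.Theory D} {T : Ix → Ix → GF.Fld D} {J : Ix → GF.Fld D}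
  {A : (V → V) → D → D} {K : V → D → D}

lemma ctf_shift (a b : V) (κ : V → ℝ) (y0 : V) (ψ : ℝ → ℝ) (R : ℝ) (x y : V) :
    ctf a b κ y0 ψ R (x - y) = ctf a b κ (y0 + y) (fun u => ψ (u - GF.mdot a y)) R x := by
  unfold ctf
  have h1 : x - y - y0 = x - (y0 + y) := by abel
  have h2 : GF.mdot a (x - y) = GF.mdot a x - GF.mdot a y := by
    rw [mdx, mdx, mdx]
    simp only [Pi.sub_apply]
    ring
  rw [h1, h2]

lemma U1_fld {B : GF.Fld D} (hB : Q.fld B) {g : V → ℝ} (hg : Tst g) (y : V) (v : D) :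
    B (fun x => (g x : ℂ)) (Q.U 1 GF.one (-y) v) =
      Q.U 1 GF.one (-y) (B (fun x => (g (x - y) : ℂ)) v) := by
  rw [Q.transl B (-y) _ v hB hg.isTest]
  congr 2
  funext x
  congr 2
  rw [Vale.Agent.P352.sim_one]
  funext n
  simp only [Pi.neg_apply, Pi.sub_apply]
  ring

lemma U1_sum (y : V) (g : Ix → D) :
    Q.U 1 GF.one y (∑ m, g m) = ∑ m, Q.U 1 GF.one y (g m) := by
  simp only [Fin.sum_univ_four, Vale.Agent.P352.U_add one_pos Vale.Agent.P352.isLor_one]

lemma inner_U1 (y : V) (v w : D) :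
    inner ℂ (Q.U 1 GF.one (-y) w) v = inner ℂ w (Q.U 1 GF.one y v) := by
  have h1 := Q.U_inner 1 GF.one y (Q.U 1 GF.one (-y) w) v one_pos Vale.Agent.P352.isLor_one
  rw [H755.UU, add_neg_cancel, H755.U0] at h1
  exact h1.symm

lemma isSim_shift {r : ℝ} {X : V → V} (hX : IsSim r X) (y : V) : IsSim r fun z => X (z - y) := by
  obtain ⟨c, w, hw, hX⟩ := hX
  refine ⟨fun n => c n - r * y n - ∑ m, y m * w m n, w, hw, fun z n => ?_⟩
  have h1 := hX (z - y) n
  simp only [Pi.sub_apply, sub_mul, Finset.sum_sub_distrib] at h1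
  show X (z - y) n = (c n - r * y n - ∑ m, y m * w m n) + r * z n + ∑ m, z m * w m n
  rw [h1]
  ring

lemma cont_sim {r : ℝ} {X : V → V} (hX : IsSim r X) (n : Ix) : ContDiff ℝ ∞ fun x => X x n := by
  obtain ⟨c, w, hw, hX⟩ := hX
  have h1 : (fun x => X x n) = fun x => c n + r * x n + ∑ m, x m * w m n :=
    funext fun x => hX x n
  rw [h1]
  fun_prop

/-- Translations of the generators. -/
theorem conj_A (hT : Q.IsStress T) (hJ : IsVirial Q T J) (h : NullCharges Q T J A K) {r : ℝ}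
    {X : V → V} (hX : IsSim r X) {a : V} (ha : IsNull a) (y : V) (v : D) :
    Q.U 1 GF.one y (A X (Q.U 1 GF.one (-y) v)) = A (fun z => X (z - y)) v := by
  obtain ⟨b, hb, hab⟩ := exists_dual ha
  obtain ⟨κ, hκ, hκ1⟩ := exists_cutf
  let g : ContDiffBump (0 : ℝ) := ⟨1, 2, one_pos, one_lt_two⟩
  have hψ : Tst (g : ℝ → ℝ) := ⟨g.contDiff, g.hasCompactSupport⟩
  have hψ' : Tst fun u => g (u - GF.mdot a y) := by
    refine ⟨hψ.1.comp (contDiff_id.sub contDiff_const), ?_⟩
    have h1 := hψ.2.comp_homeomorph (Homeomorph.subRight (GF.mdot a y))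
    exact h1
  have hint : ∫ u : ℝ, (g (u - GF.mdot a y) : ℂ) = ∫ u : ℝ, (g u : ℂ) :=
    integral_sub_right_eq_self (μ := (volume : Measure ℝ)) (fun u : ℝ => (g u : ℂ)) _
  have hne : ∫ u : ℝ, (g u : ℂ) ≠ 0 := by
    have h1 : ∫ u : ℝ, (g u : ℂ) = ((∫ u : ℝ, g u : ℝ) : ℂ) := integral_ofReal
    rw [h1]
    exact_mod_cast (g.integral_pos (μ := (volume : Measure ℝ))).ne'
  refine ext_inner_left ℂ fun w => ?_
  have t1 := h.gen a b κ 0 g r X (Q.U 1 GF.one (-y) v) (Q.U 1 GF.one (-y) w)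
    ⟨ha, hb, hab, hκ, hκ1, hψ⟩ hX
  have t2 := h.gen a b κ y (fun u => g (u - GF.mdot a y)) r (fun z => X (z - y)) v w
    ⟨ha, hb, hab, hκ, hκ1, hψ'⟩ (isSim_shift hX y)
  have t3 := tendsto_nhds_unique t1 (t2.congr' (by
    filter_upwards [eventually_ge_atTop (1:ℝ)] with R hR
    have hF : ∀ m n, Tst fun x => eta m * a m * (eta n * X x n) * ctf a b κ 0 g R x := fun m n =>
      ctf_tst ha.1 hb.1 hab hκ hψ hR (contDiff_const.mul (contDiff_const.mul (cont_sim hX n)))
    have hF' : ∀ m, Tst fun x => eta m * a m * ctf a b κ 0 g R x := fun m =>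
      ctf_tst ha.1 hb.1 hab hκ hψ hR contDiff_const
    have e1 : sm T (fun m n x => eta m * a m * (eta n * X x n) * ctf a b κ 0 g R x)
        (Q.U 1 GF.one (-y) v) = Q.U 1 GF.one (-y) (sm T (fun m n x => eta m * a m *
          (eta n * X (x - y) n) * ctf a b κ y (fun u => g (u - GF.mdot a y)) R x) v) := by
      unfold sm
      rw [U1_sum]
      refine Finset.sum_congr rfl fun m _ => ?_
      rw [U1_sum]
      refine Finset.sum_congr rfl fun n _ => ?_
      rw [U1_fld (Q.bose_fld _ (hT.bose m n)) (hF m n)]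
      simp only [ctf_shift, zero_add]
    have e2 : ∑ m, (r : ℂ) • J m (fun x => (eta m * a m * ctf a b κ 0 g R x : ℝ))
        (Q.U 1 GF.one (-y) v) = Q.U 1 GF.one (-y) (∑ m, (r : ℂ) • J m (fun x =>
          (eta m * a m * ctf a b κ y (fun u => g (u - GF.mdot a y)) R x : ℝ)) v) := by
      rw [U1_sum]
      refine Finset.sum_congr rfl fun m _ => ?_
      rw [Vale.Agent.P352.U_smul one_pos Vale.Agent.P352.isLor_one,
        U1_fld (Q.bose_fld _ (hJ.bose m)) (hF' m)]
      simp only [ctf_shift, zero_add]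
    rw [e1, e2]
    have e3 : ∀ p q : D, Q.U 1 GF.one (-y) p - Q.U 1 GF.one (-y) q =
        Q.U 1 GF.one (-y) (p - q) := by
      intro p q
      have h1 := Vale.Agent.P352.U_add (Q := Q) one_pos Vale.Agent.P352.isLor_one (-y) (p - q) q
      rw [sub_add_cancel] at h1
      rw [h1, add_sub_cancel_right]
    rw [e3, inner_U1, H755.UU, add_neg_cancel, H755.U0]))
  rw [hint] at t3
  have h1 := mul_left_cancel₀ hne t3
  rw [inner_U1] at h1
  exact h1

/-- The translation law for all translations from the one along the null hyperplane. -/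
theorem tra_all (hT : Q.IsStress T) (hJ : IsVirial Q T J) (h : NullCharges Q T J A K)
    (ho : OnShell Q T J) {a : V} (ha : IsNull a)
    (htra : ∀ x v, GF.mdot a x = 0 → Q.U 1 GF.one x (K a (Q.U 1 GF.one (-x) v)) = K a v +
      A (fun z => -(2 * GF.mdot a x) • z + (2 * GF.mdot x z) • a - (2 * GF.mdot a z) • x +
        cK a x) v) (x : V) (v : D) :
    Q.U 1 GF.one x (K a (Q.U 1 GF.one (-x) v)) = K a v +
      A (fun z => -(2 * GF.mdot a x) • z + (2 * GF.mdot x z) • a - (2 * GF.mdot a z) • x +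
        cK a x) v := by
  obtain ⟨b, hb, hab⟩ := exists_dual ha
  set u : ℝ := GF.mdot a x with hu
  set x' : V := x - u • b with hx'
  have hax' : GF.mdot a x' = 0 := by
    have h1 : GF.mdot a x' = GF.mdot a x - u * GF.mdot a b := by
      rw [hx', mdx, mdx, mdx]
      simp only [Pi.sub_apply, Pi.smul_apply, smul_eq_mul]
      ring
    rw [h1, hab, ← hu]
    ring
  have hx : x = x' + u • b := by rw [hx']; abel
  have e1 : Q.U 1 GF.one x (K a (Q.U 1 GF.one (-x) v)) =
      Q.U 1 GF.one x' (Q.U 1 GF.one (u • b) (K a (Q.U 1 GF.one (-(u • b))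
        (Q.U 1 GF.one (-x') v)))) := by
    rw [H755.UU, H755.UU, ← hx]
    congr 3
    rw [hx]
    abel
  have e3 : ∀ (p q : D) , Q.U 1 GF.one x' (p - q) = Q.U 1 GF.one x' p - Q.U 1 GF.one x' q := by
    intro p q
    have h1 := Vale.Agent.P352.U_add (Q := Q) one_pos Vale.Agent.P352.isLor_one x' (p - q) q
    rw [sub_add_cancel] at h1
    rw [h1, add_sub_cancel_right]
  rw [e1, tra_b hT h ho ha hb hab,
    Vale.Agent.P352.U_add one_pos Vale.Agent.P352.isLor_one, e3,
    Vale.Agent.P352.U_smul one_pos Vale.Agent.P352.isLor_one,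
    Vale.Agent.P352.U_smul one_pos Vale.Agent.P352.isLor_one, htra x' v hax',
    conj_A hT hJ h (isSim_Xw a b) ha, conj_A hT hJ h (isSim_const b) ha]
  -- linear combination of the generators
  set X1 : V → V := fun z => -(2 * GF.mdot a x') • z + (2 * GF.mdot x' z) • a -
    (2 * GF.mdot a z) • x' + cK a x' with hX1
  have hs1 : IsSim 0 X1 := by
    refine ⟨cK a x', fun m n => 2 * eta m * (x' m * a n - a m * x' n), fun m n => ?_,
      fun z n => ?_⟩
    · ring
    · rw [hX1, hax']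
      simp only [Pi.add_apply, Pi.sub_apply, Pi.smul_apply, smul_eq_mul, GF.mdot,
        Fin.sum_univ_four]
      ring
  have hs2 : IsSim 1 fun z => Xw a b (z - x') := isSim_shift (isSim_Xw a b) x'
  have hs3 : IsSim (0 + (-2 * u) * 1) fun z => X1 z + (-2 * u) • (fun z => Xw a b (z - x')) z := by
    obtain ⟨c1, w1, hw1, h1⟩ := hs1
    obtain ⟨c2, w2, hw2, h2⟩ := hs2
    refine ⟨c1 + (-2 * u) • c2, fun m => w1 m + (-2 * u) • w2 m, fun m n => ?_, fun z n => ?_⟩
    · simp only [Pi.add_apply, Pi.smul_apply, smul_eq_mul]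
      linear_combination hw1 m n + (-2 * u) * hw2 m n
    · have h3 := h1 z n
      have h4 := h2 z n
      simp only [Pi.add_apply, Pi.smul_apply, smul_eq_mul] at h4 ⊢
      rw [h3, h4]
      simp only [mul_add, Finset.sum_add_distrib, Finset.mul_sum]
      have h5 : ∑ m, z m * (-2 * u * w2 m n) = ∑ m, -2 * u * (z m * w2 m n) :=
        Finset.sum_congr rfl fun m _ => by ring
      rw [h5]
      ring
  have e4 : (fun z => -(2 * u) • z + (2 * GF.mdot x z) • a - (2 * GF.mdot a z) • x + cK a x) =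
      fun z => (fun z => X1 z + (-2 * u) • (fun z => Xw a b (z - x')) z) z +
        (2 * u ^ 2) • (fun _ : V => b) z := by
    funext z n
    have hbb := hb.1
    rw [mdx] at hbb hab hax'
    simp only [hX1, hx, cK, Xw, Pi.add_apply, Pi.sub_apply, Pi.smul_apply, smul_eq_mul, mdx]
    have h1 := hax'
    have h2 := hab
    linear_combination (2 * z n) * h1 + (2 * u * x' n + 2 * u ^ 2 * b n) * h2 - u ^ 2 * a n * hbb
  rw [e4, h.add _ 0 (2 * u ^ 2) _ _ v hs3 (isSim_const b), h.add 0 1 (-2 * u) _ _ v hs1 hs2]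
  push_cast
  module

end Vale.Agent.P352.H846

end
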