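import Vale.Agent.P352.H846.T3
import Vale.Agent.P352.H496.T1

/-!
# The translation law of the second null moments
-/

set_option linter.all false

namespace Vale.Agent.P352.H846

open GF (Ix V Fn Fld bas eta o bar)
open H755 H496 H15 H246

variable {D : Type*} [NormedAddCommGroup D] [InnerProductSpace ℂ D]
variable {Q : GF.Theory D} {T : Ix → Ix → GF.Fld D} {J : Ix → GF.Fld D}
  {A : (V → V) → D → D} {K : V → D → D}

/-- The translation law of the second null moments. -/
theorem tra (hT : Q.IsStress T) (hJ : IsVirial Q T J) (h : NullCharges Q T J A K)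
    (ho : OnShell Q T J) {a : V} (ha : IsNull a) (x : V) (v : D) :
    Q.U 1 GF.one x (K a (Q.U 1 GF.one (-x) v)) = K a v +
      A (fun z => -(2 * GF.mdot a x) • z + (2 * GF.mdot x z) • a - (2 * GF.mdot a z) • x +
        cK a x) v :=
  tra_all hT hJ h ho ha (fun y v hy => H496.tra_a h hT ha hy v) x v

end Vale.Agent.P352.H846
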