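import Vale.Agent.P352.H846.Symm1
import Vale.Agent.P352.H846.TP2Defs

/-!
# Time ordered products with Ward identities up to a contact term
-/

set_option linter.all false

noncomputable section

open MeasureTheory Filter Topology
open scoped ComplexConjugate ContDiff

namespace Vale.Agent.P352.H846

open GF H246 H496 H755
open UniformSpace (Completion)

variable {D : Type*} [NormedAddCommGroup D] [InnerProductSpace ℂ D]

/-- if the contact terms vanish against `J m g Ω` then all properties hold for this vector -/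
theorem TProd2.x {Q : Theory D} {J : Ix → Fld D} {G : V → D → D} {κ : V → ℝ}
    {K : Ix → Ix → Fn → Completion D} {t : (Ix → V → ℝ) → (Ix → V → ℝ) → D → ℂ}
    {s : (Ix → Ix → V → ℝ) → (Ix → V → ℝ) → D → ℂ} (hT : TProd2 Q J G κ K t s) (m : Ix) {g : Fn}
    (hg : GF.IsTest g)
    (hK : ∀ i c f, GF.IsTest f → inner ℂ (K i c f) ((J m g Q.vac : D) : Completion D) = 0) :
    TPx Q J G κ t s (J m g Q.vac) where
  symm f h hf hh := hT.symm f h m g hf hh hg
  ward Y ψ h hY hψ hh := by
    have h1 := hT.ward Y ψ h m g hY hψ hh hg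
    rw [h1]
    have h2 : ∑ i, ∑ c, inner ℂ (K i c fun x => ((dr i ψ x * h c x : ℝ) : ℂ))
        ((J m g Q.vac : D) : Completion D) = 0 := by
      refine Finset.sum_eq_zero fun i _ => Finset.sum_eq_zero fun c _ => hK i c _ ?_
      have h3 : Tst fun x => dr i ψ x * h c x := tst_mul (hψ.dr i) (hh c).1
      obtain ⟨F, hF⟩ := h3.fl
      rw [← hF]
      exact isTest_fl F
    rw [h2, add_zero]
  light a b Φ h ha hb hab hΦ hh := hT.light a b Φ h m g ha hb hab hΦ hh hg
  joint a b φ σ ha hb hab hφ hσ := hT.joint a b φ σ m g ha hb hab hφ hσ hg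

end Vale.Agent.P352.H846

end
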