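import Vale.Agent.P352.H846.Tn3

/-!
# The stress tensor and the virial current are tensor fields
-/

set_option linter.all false

noncomputable section

open MeasureTheory SchwartzMap Filter Topology
open scoped SchwartzMap ComplexConjugate

namespace Vale.Agent.P352.H846

open GF (Ix V Fn Sch ev pd bar sim bas o IsLor eta)
open H246 H496 H755 H15 H121

variable {D : Type*} [NormedAddCommGroup D] [InnerProductSpace ℂ D]
variable {Q : GF.Theory D} {T : Ix → Ix → GF.Fld D} {J : Ix → GF.Fld D}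
  {A : (V → V) → D → D} {K : V → D → D}

lemma isTen_T (hT : Q.IsStress T) : IsTen Q 2 4 (fun μ => T (μ 0) (μ 1)) := by
  refine ⟨fun μ => hT.bose _ _, fun μ s L a f v hs hL hf => ?_⟩
  show T (μ 0) (μ 1) f (Q.U s L a v) = _
  rw [hT.cov _ _ s L a f v hs hL hf, ← Fintype.sum_prod_type']
  refine (Fintype.sum_equiv (finTwoArrowEquiv Ix) _ _ fun ν => ?_).symm
  show ((s ^ ((4:ℝ) - 4) * ∏ i, L (ν i) (μ i) : ℝ) : ℂ) •
    Q.U s L a (T (ν 0) (ν 1) (fun x => f (sim s L a x)) v) =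
    (L (ν 0) (μ 0) * L (ν 1) (μ 1) : ℂ) •
      Q.U s L a (T (ν 0) (ν 1) (fun x => f (sim s L a x)) v)
  rw [Fin.prod_univ_two, sub_self, Real.rpow_zero, one_mul]
  push_cast
  rfl

lemma isTen_J (hJ : IsVirial Q T J) : IsTen Q 1 3 (fun μ => J (μ 0)) := by
  refine ⟨fun μ => hJ.bose _, fun μ s L a f v hs hL hf => ?_⟩
  show J (μ 0) f (Q.U s L a v) = _
  rw [hJ.cov _ s L a f v hs hL hf]
  refine (Fintype.sum_equiv (Equiv.funUnique (Fin 1) Ix) _ _ fun ν => ?_).symm
  show ((s ^ ((4:ℝ) - 3) * ∏ i, L (ν i) (μ i) : ℝ) : ℂ) •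
    Q.U s L a (J (ν 0) (fun x => f (sim s L a x)) v) =
    (s * L (ν 0) (μ 0) : ℂ) • Q.U s L a (J (ν 0) (fun x => f (sim s L a x)) v)
  rw [Fin.prod_univ_one, show (4:ℝ) - 3 = 1 by norm_num, Real.rpow_one]
  push_cast
  rfl

/-- the charge commutes with the stress tensor -/
theorem cop_T (hT : Q.IsStress T) (hJ : IsVirial Q T J) (h : NullCharges Q T J A K)
    (ht : TrNull T) {a b : V} (ha : IsNull a) (hb : IsNull b) (hab : GF.mdot a b = 1)
    (key : ∀ p q Y, YB Q a p q Y → ∀ F, Cop Q A K a b (Y F) = 0) (m n : Ix) {f : Fn}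
    (hf : GF.IsTest f) (v : D) : Cop Q A K a b (T m n f v) = T m n f (Cop Q A K a b v) :=
  cop_ten hT hJ h ht ha hb hab key (isTen_T hT) ![m, n] hf v

/-- the charge commutes with the virial current -/
theorem cop_J (hT : Q.IsStress T) (hJ : IsVirial Q T J) (h : NullCharges Q T J A K)
    (ht : TrNull T) {a b : V} (ha : IsNull a) (hb : IsNull b) (hab : GF.mdot a b = 1)
    (key : ∀ p q Y, YB Q a p q Y → ∀ F, Cop Q A K a b (Y F) = 0) (m : Ix) {f : Fn}
    (hf : GF.IsTest f) (v : D) : Cop Q A K a b (J m f v) = J m f (Cop Q A K a b v) :=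
  cop_ten hT hJ h ht ha hb hab key (isTen_J hJ) ![m] hf v

end Vale.Agent.P352.H846

end
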