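import Vale.Agent.P352.H246.Asm2
import Vale.Agent.P352.H993.Sch
import Vale.Agent.P352.H731.Ctc
import Vale.Agent.P352.H846.TP2
import Vale.Agent.P352.H846.Symm0

/-!
# The null crossing theorem: on-shell limits, and Ward identities up to a contact term
-/

set_option linter.all false

noncomputable section

open MeasureTheory SchwartzMap Filter Topology Set
open Complex hiding eta
open scoped SchwartzMap ComplexConjugate ENNReal NNReal LineDeriv ContDiff

namespace Vale.Agent.P352.H846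

open GF (Ix V Fn Sch ev pd bar sim bas o eta)
open H246 H496 H746 H755
open UniformSpace (Completion)
open H246R (PC)

variable {D : Type*} [NormedAddCommGroup D] [InnerProductSpace ℂ D]
variable {Q : GF.Theory D}
variable {H : D → D} {alg : Set V → Set (D → D)} {S : V → ℝ → D → D} {G : V → D → D}

/-- the null crossing theorem from the equality of the two on-shell limits -/
theorem crossing0 {T : Ix → Ix → GF.Fld D} {J : Ix → GF.Fld D} {l : Fn → Completion D}
    (hT : Q.IsStress T) (N : CNet Q H alg S) (Gg : Gnr Q alg S G)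
    (hp : ∀ (a : V) (s : ℝ) (w : V) v, IsNull a → GF.mdot a w = 0 → S a s (Q.U 1 GF.one w v) =
      Q.U 1 GF.one w (S a s (Q.U 1 (nrt a (s • w)) (-(s * GF.mdot w w) • a) v)))
    (hJ : IsVirial Q T J) (hl : IsPot Q T l) {κ : V → ℝ} (hκ : Tst κ)
    (hκ1 : ∀ᶠ x in 𝓝 (0 : V), κ x = 1)
    (hO : ∀ (a b : V) (Φ Sig : ℝ → ℝ) (m : Ix) (g : 𝓢(Mink, ℂ)), IsNull a → IsNull b →
      GF.mdot a b = 1 → Tst Φ → Tst Sig → PC (mftS g) → ∃ c : ℂ,
      Tendsto (fun R => Inn Q J G a b Φ (J m (fl g) Q.vac) fun i => dr i fun x =>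
        cut b a κ R x * deriv Sig (GF.mdot b x)) atTop (𝓝 c) ∧
      Tendsto (fun R => Inn Q J G b a Sig (J m (fl g) Q.vac) fun i => dr i fun x =>
        cut a b κ R x * deriv Φ (GF.mdot a x)) atTop (𝓝 c)) :
    ∃ Λ, IsForm Q T l Λ := by
  refine H246R.crossing hT N Gg hJ hl
    (fun a ha s w hw => ptr_of ha hw fun v => hp a s w v ha hw)
    (fun m g hg => H993.hsch N hT hJ hl m g hg) ?_
  intro a b Phi Sig m g X ha hb hab hpa hpb hPhi hSig hg hX n0a n0b Am hAm Lm hLm Z Z' hZ hZ'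
  obtain ⟨c, hc, hc'⟩ := hO a b Phi Sig m g ha hb hab hPhi hSig hg
  rw [← hX] at hc hc'
  exact sid_symm0 N Gg hJ hl hκ hκ1 ha hb hab hpa hpb hPhi hSig hc hc' n0a n0b Am hAm Lm hLm Z Z'
    hZ hZ'

/-- the null crossing theorem with Ward identities up to a contact term -/
theorem crossing2 {T : Ix → Ix → GF.Fld D} {J : Ix → GF.Fld D} {l : Fn → Completion D}
    (hT : Q.IsStress T) (N : CNet Q H alg S) (Gg : Gnr Q alg S G)
    (hp : ∀ (a : V) (s : ℝ) (w : V) v, IsNull a → GF.mdot a w = 0 → S a s (Q.U 1 GF.one w v) =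
      Q.U 1 GF.one w (S a s (Q.U 1 (nrt a (s • w)) (-(s * GF.mdot w w) • a) v)))
    (hJ : IsVirial Q T J) (hl : IsPot Q T l) {κ : V → ℝ} (hκ : Tst κ)
    (hκ1 : ∀ᶠ x in 𝓝 (0 : V), κ x = 1) {K : Ix → Ix → Fn → Completion D} (hK : H731.Ctc Q K)
    {t : (Ix → V → ℝ) → (Ix → V → ℝ) → D → ℂ}
    {s : (Ix → Ix → V → ℝ) → (Ix → V → ℝ) → D → ℂ} (hTP : TProd2 Q J G κ K t s) :
    ∃ Λ, IsForm Q T l Λ := by
  refine H246R.crossing hT N Gg hJ hl
    (fun a ha s w hw => ptr_of ha hw fun v => hp a s w v ha hw)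
    (fun m g hg => H993.hsch N hT hJ hl m g hg) ?_
  intro a b Phi Sig m g X ha hb hab hpa hpb hPhi hSig hg hX n0a n0b Am hAm Lm hLm Z Z' hZ hZ'
  have hTx : TPx Q J G κ t s X := by
    rw [hX]
    exact hTP.x m (isTest_fl g) fun i c f hf => H731.ctc_zero hK hJ m g hg i c f hf
  exact sid_symm1 N Gg hJ hl hTx hκ hκ1 ha hb hab hpa hpb hPhi hSig n0a n0b Am hAm Lm hLm Z Z'
    hZ hZ'

end Vale.Agent.P352.H846

end
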