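import Vale.Agent.P352.H846.TvDefs
import Vale.Agent.P352.H846.BoxLim
import Vale.Agent.P352.H746.Nec3
import Vale.Agent.P352.H746.Flow3
import Vale.Agent.P352.H148.BoxTh
import Vale.Agent.P352.H755.Rel

/-!
# The generators of similitudes and the smeared trace
-/

set_option linter.all false

noncomputable section

open MeasureTheory SchwartzMap Filter Topology
open scoped SchwartzMap ComplexConjugate ContDiff

namespace Vale.Agent.P352.H846

open GF (Ix V Fn Fld bas eta o bar pd)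
open H755 H496 H15 H246
open H746 (kh kv TG vf)

variable {D : Type*} [NormedAddCommGroup D] [InnerProductSpace ℂ D]
variable {Q : GF.Theory D} {T : Ix → Ix → GF.Fld D} {J : Ix → GF.Fld D}
  {A : (V → V) → D → D} {K : V → D → D}

/-- the commutator of a Poincaré generator and the trace -/
theorem A_tr_w (h : Rep Q A) (hT : Q.IsStress T) {X : V → V} {c : V} {w : Ix → V}
    (hw : ∀ m n, eta n * w m n = -(eta m * w n m))
    (hX : ∀ z n, X z n = c n + 0 * z n + ∑ m, z m * w m n) {f : Fn} (hf : GF.IsTest f)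
    (v z : D) : inner ℂ (A X z) (GF.tr T f v) - inner ℂ z (GF.tr T f (A X v)) =
      Complex.I * inner ℂ z (GF.tr T (vf X f) v) := by
  have hs : IsSim 0 X := ⟨c, w, hw, hX⟩
  unfold GF.tr
  simp only [inner_sum, inner_smul_right]
  have e1 : ∀ m, inner ℂ (A X z) (T m m f v) = inner ℂ z (T m m f (A X v)) +
      Complex.I * (∑ k, (w k m : ℂ) * inner ℂ z (T k m f v) +
        ∑ l, (w l m : ℂ) * inner ℂ z (T m l f v) + inner ℂ z (T m m (vf X f) v)) := by
    intro m
    rw [H746.A_symm h hs, H746.A_T h hT hw hX hf m m v]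
    simp only [inner_add_right, inner_smul_right, inner_sum]
  simp only [e1]
  have e2 : ∑ m, (eta m : ℂ) * (∑ k, (w k m : ℂ) * inner ℂ z (T k m f v) +
      ∑ l, (w l m : ℂ) * inner ℂ z (T m l f v)) = 0 := by
    simp only [mul_add, Finset.mul_sum, Finset.sum_add_distrib]
    rw [Finset.sum_comm, ← Finset.sum_add_distrib]
    refine Finset.sum_eq_zero fun k _ => ?_
    rw [← Finset.sum_add_distrib]
    refine Finset.sum_eq_zero fun m _ => ?_
    have h1 : ((eta m * w k m : ℝ) : ℂ) = ((-(eta k * w m k) : ℝ) : ℂ) := by rw [hw k m]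
    push_cast at h1
    linear_combination (inner ℂ z (T k m f v)) * h1
  rw [Finset.mul_sum, ← Finset.sum_sub_distrib]
  have e3 : ∀ m, (eta m : ℂ) * (inner ℂ z (T m m f (A X v)) +
      Complex.I * (∑ k, (w k m : ℂ) * inner ℂ z (T k m f v) +
        ∑ l, (w l m : ℂ) * inner ℂ z (T m l f v) + inner ℂ z (T m m (vf X f) v))) -
      (eta m : ℂ) * inner ℂ z (T m m f (A X v)) =
      Complex.I * ((eta m : ℂ) * (∑ k, (w k m : ℂ) * inner ℂ z (T k m f v) +
        ∑ l, (w l m : ℂ) * inner ℂ z (T m l f v))) +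
      Complex.I * ((eta m : ℂ) * inner ℂ z (T m m (vf X f) v)) := by
    intro m
    ring
  simp only [e3]
  rw [Finset.sum_add_distrib, ← Finset.mul_sum, e2, mul_zero, zero_add]

/-- a vector field acting on a real test function -/
lemma vf_real {g : V → ℝ} (hg : Tst g) (X : V → V) :
    vf X (fun x => (g x : ℂ)) = fun x => ((fderiv ℝ g x (X x) : ℝ) : ℂ) := by
  funext x
  show ∑ n, (X x n : ℂ) * pd n (fun x => (g x : ℂ)) x = _
  have hd : Differentiable ℝ g := hg.1.differentiable (by simp)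
  have e : ∀ n, pd n (fun x => (g x : ℂ)) x = ((fderiv ℝ g x (bas n 1) : ℝ) : ℂ) := by
    intro n
    rw [pd_real hg]
    show ((dr n g x : ℝ) : ℂ) = _
    rw [dr_eq hd]
  simp only [e]
  have h1 : fderiv ℝ g x (X x) = ∑ n, X x n * fderiv ℝ g x (bas n 1) := by
    conv_lhs => rw [← bas_sum (X x)]
    rw [map_sum]
    refine Finset.sum_congr rfl fun n _ => ?_
    rw [map_smul, smul_eq_mul]
  rw [h1]
  push_cast
  rfl

lemma cv_line (a b : V) (R : ℝ) (x c : V) (s : ℝ) :
    cv a b R (x + s • c) = cv a b R x + s • cv a b R c := by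
  unfold cv
  simp only [md_add, md_smul]
  module

/-- directional derivatives of the cutoffs -/
lemma fd_ctf {a b : V} {κ : V → ℝ} (hκ : Tst κ) {ψ : ℝ → ℝ} (hψ : Tst ψ) (R : ℝ)
    (hd : Differentiable ℝ (ctf a b κ 0 ψ R)) (x c : V) :
    fderiv ℝ (ctf a b κ 0 ψ R) x c = fderiv ℝ κ (cv a b R x) (cv a b R c) * ψ (GF.mdot a x) +
      cut a b κ R x * (deriv ψ (GF.mdot a x) * GF.mdot a c) := by
  have h1 : HasDerivAt (fun s : ℝ => ctf a b κ 0 ψ R (x + s • c))
      (fderiv ℝ (ctf a b κ 0 ψ R) x c) 0 := (hd x).hasFDerivAt.hasLineDerivAt c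
  have h2 : (fun s : ℝ => ctf a b κ 0 ψ R (x + s • c)) = fun s : ℝ =>
      κ (cv a b R x + s • cv a b R c) * ψ (GF.mdot a x + s * GF.mdot a c) := by
    funext s
    show cut a b κ R (x + s • c - 0) * ψ (GF.mdot a (x + s • c)) = _
    rw [sub_zero, cut_cv, cv_line, md_add, md_smul]
  have h3 : HasDerivAt (fun s : ℝ => κ (cv a b R x + s • cv a b R c))
      (fderiv ℝ κ (cv a b R x) (cv a b R c)) 0 :=
    ((hκ.1.differentiable (by simp)) (cv a b R x)).hasFDerivAt.hasLineDerivAt (cv a b R c)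
  have h4 : HasDerivAt (fun s : ℝ => ψ (GF.mdot a x + s * GF.mdot a c))
      (deriv ψ (GF.mdot a x) * GF.mdot a c) 0 := by
    have h5 : HasDerivAt ψ (deriv ψ (GF.mdot a x)) (GF.mdot a x + 0 * GF.mdot a c) := by
      rw [zero_mul, add_zero]
      exact (H746.tdif hψ _).hasDerivAt
    have h6 : HasDerivAt (fun s : ℝ => GF.mdot a x + s * GF.mdot a c) (GF.mdot a c) 0 := by
      have := ((hasDerivAt_id (0:ℝ)).mul_const (GF.mdot a c)).const_add (GF.mdot a x)
      simpa using this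
    exact h5.comp 0 h6
  rw [h2] at h1
  have h7 := h1.unique (h3.mul h4)
  simp only [zero_smul, add_zero, zero_mul] at h7
  rw [h7]
  rfl

/-- the generator of boosts -/
def Nf (a b : V) (z : V) : V := GF.mdot a z • b - GF.mdot b z • a

/-- the function that the boosts produce from the cutoff function -/
def k1 (a b : V) (κ : V → ℝ) (z : V) : ℝ := GF.mdot b z * H148.Da a κ z

lemma k1_tst {κ : V → ℝ} (hκ : Tst κ) (a b : V) : Tst (k1 a b κ) := by
  have h1 := H148.tst_Da hκ a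
  exact ⟨(contDiff_mdot b).mul h1.1, h1.2.mul_left⟩

lemma k1_near {κ : V → ℝ} (h : ∀ᶠ x in 𝓝 (0 : V), κ x = 1) (a b : V) :
    ∀ᶠ x in 𝓝 (0 : V), k1 a b κ x = 0 := by
  filter_upwards [h.eventually_nhds] with x hx
  have h1 : fderiv ℝ κ x = 0 := by
    have h2 : κ =ᶠ[𝓝 x] fun _ => 1 := hx
    rw [h2.fderiv_eq]
    simp
  show GF.mdot b x * fderiv ℝ κ x a = 0
  rw [h1]
  simp

lemma vf_b {a b : V} {κ : V → ℝ} {ψ : ℝ → ℝ} (hA : Adm a b κ ψ) {R : ℝ} (hR : 1 ≤ R) :
    vf (fun _ => b) (fun x => (ctf a b κ 0 ψ R x : ℂ)) =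
      fun x => (ctf a b κ 0 (deriv ψ) R x : ℂ) := by
  have hg := H746.tg_tst hA hR
  have hb := hA.2.1.1
  have hab := hA.2.2.1
  rw [vf_real hg]
  funext x
  rw [fd_ctf hA.2.2.2.1 hA.2.2.2.2.2 R (hg.1.differentiable (by simp)) x b]
  have e : cv a b R b = 0 := by
    unfold cv
    rw [hb, hab]
    simp
  rw [e, map_zero, zero_mul, zero_add, hab, mul_one]
  show ((cut a b κ R x * deriv ψ (GF.mdot a x) : ℝ) : ℂ) =
    ((cut a b κ R (x - 0) * deriv ψ (GF.mdot a x) : ℝ) : ℂ)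
  rw [sub_zero]

lemma vf_N {a b : V} {κ : V → ℝ} {ψ : ℝ → ℝ} (hA : Adm a b κ ψ) {R : ℝ} (hR : 1 ≤ R) :
    vf (Nf a b) (fun x => (ctf a b κ 0 ψ R x : ℂ)) =
      fun x => (ctf a b κ 0 (fun u => u * deriv ψ u) R x : ℂ) +
        (-1 : ℂ) * (ctf a b (k1 a b κ) 0 ψ R x : ℂ) := by
  have hg := H746.tg_tst hA hR
  have ha := hA.1.1
  have hb := hA.2.1.1
  have hab := hA.2.2.1
  have hba : GF.mdot b a = 1 := by rw [md_comm]; exact hab
  rw [vf_real hg]
  funext x
  rw [fd_ctf hA.2.2.2.1 hA.2.2.2.2.2 R (hg.1.differentiable (by simp)) x (Nf a b x)]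
  have ebN : GF.mdot b (Nf a b x) = -GF.mdot b x := by
    unfold Nf
    rw [md_sub, md_smul, md_smul, hb, hba]
    ring
  have eaN : GF.mdot a (Nf a b x) = GF.mdot a x := by
    unfold Nf
    rw [md_sub, md_smul, md_smul, ha, hab]
    ring
  have e : cv a b R (Nf a b x) = (-(GF.mdot b x / R ^ 2)) • a := by
    unfold cv
    rw [ebN, eaN]
    have : Nf a b x - GF.mdot a x • b - -GF.mdot b x • a = 0 := by
      unfold Nf
      module
    rw [this, smul_zero, add_zero]
    congr 1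
    ring
  have e2 : GF.mdot b (cv a b R x) = GF.mdot b x / R ^ 2 := by
    unfold cv
    rw [md_add, md_smul, md_smul, md_sub, md_sub, md_smul, md_smul, hb, hba]
    ring
  rw [e, map_smul, eaN]
  have e3 : ctf a b (k1 a b κ) 0 ψ R x = GF.mdot b x / R ^ 2 *
      fderiv ℝ κ (cv a b R x) a * ψ (GF.mdot a x) := by
    show cut a b (k1 a b κ) R (x - 0) * ψ (GF.mdot a x) = _
    rw [sub_zero, cut_cv]
    show GF.mdot b (cv a b R x) * fderiv ℝ κ (cv a b R x) a * ψ (GF.mdot a x) = _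
    rw [e2]
  have e4 : ctf a b κ 0 (fun u => u * deriv ψ u) R x =
      cut a b κ R x * (GF.mdot a x * deriv ψ (GF.mdot a x)) := by
    show cut a b κ R (x - 0) * (GF.mdot a x * deriv ψ (GF.mdot a x)) = _
    rw [sub_zero]
  rw [e3, e4, smul_eq_mul]
  push_cast
  ring

end Vale.Agent.P352.H846

end
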