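import Vale.Agent.P352.H846.TvA
import Vale.Agent.P352.H846.TvSd

/-!
# The on-shell constraint from its values on the vectors created by the stress tensor
-/

set_option linter.all false

noncomputable section

open MeasureTheory SchwartzMap Filter Topology
open scoped SchwartzMap ComplexConjugate ContDiff

namespace Vale.Agent.P352.H846

open GF (Ix V Fn Fld bas eta o bar pd)
open H755 H496 H15 H246
open H746 (kh kv TG vf tg_lim)

variable {D : Type*} [NormedAddCommGroup D] [InnerProductSpace ℂ D]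
variable {Q : GF.Theory D} {T : Ix → Ix → GF.Fld D} {J : Ix → GF.Fld D}
  {A : (V → V) → D → D} {K : V → D → D}

/-- the second differences commute with the stress tensor below the null hyperplanes -/
def SdT (Q : GF.Theory D) (T : Ix → Ix → GF.Fld D) (A : (V → V) → D → D) (K : V → D → D)
    (a b : V) : Prop :=
  ∀ u t m n f, GF.IsTest f → HasCompactSupport f → (∀ y ∈ tsupport f, GF.mdot a y < u - |t|) →
    ∀ v, Sd Q A K a b u t (T m n f v) = T m n f (Sd Q A K a b u t v)

section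

variable (hT : Q.IsStress T) (h : NullCharges Q T J A K) {a b : V} (ha : IsNull a)
include hT h ha

lemma Sd_add (u t : ℝ) (v w : D) : Sd Q A K a b u t (v + w) =
    Sd Q A K a b u t v + Sd Q A K a b u t w := by
  refine ext_inner_left ℂ fun z => ?_
  rw [← Sd_symm hT h ha, inner_add_right, inner_add_right, Sd_symm hT h ha, Sd_symm hT h ha]

lemma Sd_zero (u t : ℝ) : Sd Q A K a b u t 0 = 0 := by
  refine ext_inner_left ℂ fun z => ?_
  rw [← Sd_symm hT h ha, inner_zero_right, inner_zero_right]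

lemma Sd_sum (u t : ℝ) {ι : Type*} (s : Finset ι) (x : ι → D) :
    Sd Q A K a b u t (∑ i ∈ s, x i) = ∑ i ∈ s, Sd Q A K a b u t (x i) := by
  classical
  induction s using Finset.induction_on with
  | empty => simpa using Sd_zero hT h ha u t
  | insert i s hi ih => rw [Finset.sum_insert hi, Finset.sum_insert hi, Sd_add hT h ha, ih]

lemma sd_sm (hs : SdT Q T A K a b) {u t : ℝ} {F : Ix → Ix → V → ℝ} (hF : ∀ m n, Tst (F m n))
    (hsp : ∀ m n, ∀ y ∈ tsupport (F m n), GF.mdot a y < u - |t|) (v : D) :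
    Sd Q A K a b u t (sm T F v) = sm T F (Sd Q A K a b u t v) := by
  unfold sm
  rw [Sd_sum hT h ha]
  refine Finset.sum_congr rfl fun m _ => ?_
  rw [Sd_sum hT h ha]
  refine Finset.sum_congr rfl fun n _ => ?_
  have hsub : tsupport (fun x => (F m n x : ℂ)) ⊆ tsupport (F m n) := by
    refine closure_mono fun x hx => ?_
    intro h0
    apply hx
    show ((F m n x : ℝ) : ℂ) = 0
    rw [h0, Complex.ofReal_zero]
  refine hs u t m n _ (hF m n).isTest ?_ (fun y hy => hsp m n y (hsub hy)) v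
  exact (hF m n).2.mono' (subset_trans subset_closure hsub)

/-- **The second differences commute with the Poincaré generators.** -/
theorem sd_A (hb : IsNull b) (hab : GF.mdot a b = 1) (hs : SdT Q T A K a b) {X : V → V}
    (hX : IsSim 0 X) (u t : ℝ) (v : D) :
    Sd Q A K a b u t (A X v) = A X (Sd Q A K a b u t v) := by
  obtain ⟨κ, hκ, hκ1⟩ := exists_kp
  let f : ContDiffBump (u - |t| - 3 : ℝ) := ⟨1, 2, one_pos, one_lt_two⟩
  have hφ : Tst (f.normed volume) := ⟨f.contDiff_normed, f.hasCompactSupport_normed⟩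
  have hφs : tsupport (f.normed volume) = Metric.closedBall (u - |t| - 3 : ℝ) 2 :=
    f.tsupport_normed_eq
  have hφ1 : ∫ x, ((f.normed volume x : ℝ) : ℂ) = 1 := by
    have h1 : ∫ u, ((f.normed volume u : ℝ) : ℂ) = ((∫ u, f.normed volume u : ℝ) : ℂ) :=
      integral_ofReal
    rw [h1, f.integral_normed, Complex.ofReal_one]
  set φ : ℝ → ℝ := f.normed volume with hφdef
  have hA : Adm a b κ φ := ⟨ha, hb, hab, hκ, hκ1, hφ⟩
  obtain ⟨c, w, hw, hXe⟩ := id hX
  have hcd : ∀ m n, ContDiff ℝ ∞ fun x => eta m * a m * (eta n * X x n) := by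
    intro m n
    have e : (fun x : V => eta m * a m * (eta n * X x n)) = fun x : V =>
        eta m * a m * (eta n * (c n + 0 * x n + ∑ m, x m * w m n)) := by
      funext x
      rw [hXe]
    rw [e]
    fun_prop
  have hF : ∀ R, 1 ≤ R → ∀ m n, Tst fun x => eta m * a m * (eta n * X x n) *
      ctf a b κ 0 φ R x := fun R hR m n =>
    H846.ctf_tst hA.1.1 hA.2.1.1 hA.2.2.1 hA.2.2.2.1 hA.2.2.2.2.2 hR (hcd m n)
  have hsp : ∀ R m n, ∀ y ∈ tsupport (fun x => eta m * a m * (eta n * X x n) *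
      ctf a b κ 0 φ R x), GF.mdot a y < u - |t| := by
    intro R m n y hy
    have h1 : IsClosed {x : V | GF.mdot a x ∈ Metric.closedBall (u - |t| - 3 : ℝ) 2} :=
      Metric.isClosed_closedBall.preimage (contDiff_mdot a).continuous
    have h2 : tsupport (fun x => eta m * a m * (eta n * X x n) * ctf a b κ 0 φ R x) ⊆
        {x : V | GF.mdot a x ∈ Metric.closedBall (u - |t| - 3 : ℝ) 2} := by
      refine closure_minimal (fun x hx => ?_) h1
      show GF.mdot a x ∈ Metric.closedBall (u - |t| - 3 : ℝ) 2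
      rw [← hφs]
      refine subset_closure fun h0 => hx ?_
      show eta m * a m * (eta n * X x n) * (cut a b κ R (x - 0) * φ (GF.mdot a x)) = 0
      rw [h0]
      ring
    have h3 : |GF.mdot a y - (u - |t| - 3)| ≤ 2 := by
      have := h2 hy
      rw [Set.mem_setOf_eq, Metric.mem_closedBall, Real.dist_eq] at this
      exact this
    have := (abs_le.1 h3).2
    linarith
  have lim : ∀ v z : D, Tendsto (fun R => inner ℂ z (sm T (fun m n x =>
      eta m * a m * (eta n * X x n) * ctf a b κ 0 φ R x) v)) atTop (𝓝 (inner ℂ z (A X v))) := by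
    intro v z
    have h1 := h.gen a b κ 0 φ 0 X v z hA hX
    simpa [hφ1] using h1
  refine ext_inner_left ℂ fun z => ?_
  have l1 := lim v (Sd Q A K a b u t z)
  have l2 := lim (Sd Q A K a b u t v) z
  rw [← Sd_symm hT h ha]
  refine tendsto_nhds_unique l1 (l2.congr' ?_)
  filter_upwards [eventually_ge_atTop (1 : ℝ)] with R hR
  rw [Sd_symm hT h ha, sd_sm hT h ha hs (hF R hR) (hsp R)]

end

/-- the vector fields of the Poincaré group annihilate the limit -/
lemma vf_lim (hT : Q.IsStress T) (hJ : IsVirial Q T J) (h : NullCharges Q T J A K) {a b : V}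
    (hs : SdT Q T A K a b) {X : V → V} {c : V} {w : Ix → V}
    (hw : ∀ m n, eta n * w m n = -(eta m * w n m))
    (hX : ∀ z n, X z n = c n + 0 * z n + ∑ m, z m * w m n) {κ : V → ℝ} {ψ : ℝ → ℝ}
    (hA : Adm a b κ ψ) (v z : D) : Tendsto (fun R => inner ℂ z
      (GF.tr T (vf X (fun x => (ctf a b κ 0 ψ R x : ℂ))) v)) atTop (𝓝 0) := by
  have hX0 : IsSim 0 X := ⟨c, w, hw, hX⟩
  have ha := hA.1
  have hb := hA.2.1
  have hab := hA.2.2.1
  have t1 := tg_lim hT hJ h hA v (A X z)
  have t2 := tg_lim hT hJ h hA (A X v) z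
  have c1 := H746.kh_cont h ha hb v (A X z)
  have c2 := H746.kh_cont h ha hb (A X v) z
  have e1 : (∫ u, ((deriv (deriv ψ) u : ℝ) : ℂ) * kh Q A K a b v (A X z) u) =
      ∫ u, ((deriv (deriv ψ) u : ℝ) : ℂ) * kh Q A K a b (A X v) z u := by
    have h1 := H746.int_affine hA.2.2.2.2.2 (c1.sub c2) (fun u t => by
      have h2 := inner_Sd (Q := Q) (A := A) (K := K) a b u t v (A X z)
      have h3 := inner_Sd (Q := Q) (A := A) (K := K) a b u t (A X v) z
      rw [sd_A hT h ha hb hab hs hX0, ← H746.A_symm h.toRep hX0] at h3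
      simp only [Pi.sub_apply]
      linear_combination h3 - h2)
    have ht := H746.tder (H746.tder hA.2.2.2.2.2)
    have i1 := H746.tst_intg ht c1
    have i2 := H746.tst_intg ht c2
    have h4 := integral_sub i1 i2
    have h5 : (∫ u, (((deriv (deriv ψ) u : ℝ) : ℂ) * kh Q A K a b v (A X z) u -
        ((deriv (deriv ψ) u : ℝ) : ℂ) * kh Q A K a b (A X v) z u)) = 0 := by
      rw [← h1]
      refine integral_congr_ae (Eventually.of_forall fun u => ?_)
      show _ = ((deriv (deriv ψ) u : ℝ) : ℂ) * (kh Q A K a b v (A X z) u -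
        kh Q A K a b (A X v) z u)
      ring
    rw [h5] at h4
    exact (sub_eq_zero.1 h4.symm)
  have t3 := t1.sub t2
  rw [e1, sub_self] at t3
  have t4 := t3.const_mul (-Complex.I)
  rw [mul_zero] at t4
  refine t4.congr' ?_
  filter_upwards [eventually_ge_atTop (1 : ℝ)] with R hR
  have h1 := A_tr_w h.toRep hT hw hX (H746.tg_tst hA hR).isTest v z
  show -Complex.I * (inner ℂ (A X z) (GF.tr T (fun x => ((ctf a b κ 0 ψ R x : ℝ) : ℂ)) v) -
    inner ℂ z (GF.tr T (fun x => ((ctf a b κ 0 ψ R x : ℝ) : ℂ)) (A X v))) = _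
  rw [h1, ← mul_assoc, neg_mul, Complex.I_mul_I, neg_neg, one_mul]

lemma tr_lin (hT : Q.IsStress T) {f g : Fn} (hf : GF.IsTest f) (hg : GF.IsTest g) (c : ℂ)
    (v : D) : GF.tr T (fun x => f x + c * g x) v = GF.tr T f v + c • GF.tr T g v := by
  unfold GF.tr
  rw [Finset.smul_sum, ← Finset.sum_add_distrib]
  refine Finset.sum_congr rfl fun m _ => ?_
  rw [Q.lin _ _ _ _ _ (Q.bose_fld _ (hT.bose m m)) hf hg, smul_add, smul_comm]

/-- cutoffs that vanish near the origin give zero -/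
lemma nu_lim (hT : Q.IsStress T) (hJ : IsVirial Q T J) (h : NullCharges Q T J A K) {a b : V}
    {κ ν : V → ℝ} {ψ : ℝ → ℝ} (hA : Adm a b κ ψ) (hν : Tst ν) (hν0 : ∀ᶠ x in 𝓝 0, ν x = 0)
    (v z : D) : Tendsto (fun R => inner ℂ z
      (GF.tr T (fun x => (ctf a b ν 0 ψ R x : ℂ)) v)) atTop (𝓝 0) := by
  have hκ' : Tst fun x => κ x + ν x := ⟨hA.2.2.2.1.1.add hν.1, hA.2.2.2.1.2.add hν.2⟩
  have hA' : Adm a b (fun x => κ x + ν x) ψ := ⟨hA.1, hA.2.1, hA.2.2.1, hκ', by
    filter_upwards [hA.2.2.2.2.1, hν0] with x h1 h2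
    rw [h1, h2, add_zero], hA.2.2.2.2.2⟩
  have t1 := tg_lim hT hJ h hA' v z
  have t2 := tg_lim hT hJ h hA v z
  have t3 := t1.sub t2
  rw [sub_self] at t3
  refine t3.congr' ?_
  filter_upwards [eventually_ge_atTop (1 : ℝ)] with R hR
  have g1 := (H746.tg_tst hA hR).isTest
  have g2 : Tst fun x => 1 * ctf a b ν 0 ψ R x :=
    H846.ctf_tst hA.1.1 hA.2.1.1 hA.2.2.1 hν hA.2.2.2.2.2 hR contDiff_const
  simp only [one_mul] at g2
  have e : (fun x => ((ctf a b (fun x => κ x + ν x) 0 ψ R x : ℝ) : ℂ)) = fun x =>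
      ((ctf a b κ 0 ψ R x : ℝ) : ℂ) + (1 : ℂ) * ((ctf a b ν 0 ψ R x : ℝ) : ℂ) := by
    funext x
    unfold ctf cut
    push_cast
    ring
  show inner ℂ z (GF.tr T (fun x => ((ctf a b (fun x => κ x + ν x) 0 ψ R x : ℝ) : ℂ)) v) -
    inner ℂ z (GF.tr T (fun x => ((ctf a b κ 0 ψ R x : ℝ) : ℂ)) v) = _
  rw [e, tr_lin hT g1 g2.isTest, one_smul, inner_add_right]
  ring

/-- **The trace integrated over null hyperplanes vanishes.** -/
theorem tg_zero (hT : Q.IsStress T) (hJ : IsVirial Q T J) (h : NullCharges Q T J A K) {a b : V}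
    (hs : SdT Q T A K a b) {κ : V → ℝ} {ψ : ℝ → ℝ} (hA : Adm a b κ ψ) (v z : D) :
    Tendsto (fun R => inner ℂ z (TG T a b κ ψ R v)) atTop (𝓝 0) := by
  have hψ := hA.2.2.2.2.2
  have hp : ContDiff ℝ ∞ fun u : ℝ => u := contDiff_id
  have t1 : Tst fun u => u * ψ u := tst_pol hψ hp
  have t2 : Tst fun u => u * deriv ψ u := tst_pol (H746.tder hψ) hp
  have hA1 := H746.adm_of hA t1
  have hA2 := H746.adm_of hA t2
  -- translations
  have l1 := vf_lim hT hJ h hs (X := fun _ => b) (c := b) (w := 0) (fun m n => by simp)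
    (fun z n => by simp) hA1 v z
  -- boosts
  have l2 := vf_lim hT hJ h hs (X := Nf a b) (c := 0)
    (w := fun m n => eta m * (a m * b n - b m * a n)) (fun m n => by ring) (fun z n => by
      show GF.mdot a z * b n - GF.mdot b z * a n = _
      simp only [GF.mdot, Fin.sum_univ_four, Pi.zero_apply]
      ring) hA v z
  have l3 := nu_lim hT hJ h hA (k1_tst hA.2.2.2.1 a b) (k1_near hA.2.2.2.2.1 a b) v z
  have l4 := (l1.sub l2).sub l3
  simp only [sub_zero] at l4
  refine l4.congr' ?_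
  filter_upwards [eventually_ge_atTop (1 : ℝ)] with R hR
  have g0 := (H746.tg_tst hA hR).isTest
  have g1 := (H746.tg_tst hA2 hR).isTest
  have g2 : Tst fun x => 1 * ctf a b (k1 a b κ) 0 ψ R x :=
    H846.ctf_tst hA.1.1 hA.2.1.1 hA.2.2.1 (k1_tst hA.2.2.2.1 a b) hψ hR contDiff_const
  simp only [one_mul] at g2
  rw [vf_b hA1 hR, vf_N hA hR, tr_lin hT g1 g2.isTest]
  have hd : deriv (fun u => u * ψ u) = fun u => ψ u + u * deriv ψ u := by
    funext u
    have h3 := (hasDerivAt_id u).mul (H746.tdif hψ u).hasDerivAt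
    have h4 : (fun u : ℝ => u * ψ u) = id * ψ := rfl
    rw [h4, h3.deriv]
    simp only [id]
    ring
  have e : (fun x => ((ctf a b κ 0 (deriv fun u => u * ψ u) R x : ℝ) : ℂ)) = fun x =>
      ((ctf a b κ 0 ψ R x : ℝ) : ℂ) + (1 : ℂ) *
        ((ctf a b κ 0 (fun u => u * deriv ψ u) R x : ℝ) : ℂ) := by
    funext x
    rw [hd]
    unfold ctf
    push_cast
    ring
  rw [e, tr_lin hT g0 g1, one_smul, neg_one_smul, inner_add_right, inner_add_right,
    inner_neg_right]
  show _ = inner ℂ z (GF.tr T (fun x => ((ctf a b κ 0 ψ R x : ℝ) : ℂ)) v)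
  ring

/-- **The on-shell constraint.** -/
theorem trNull_of_sd (hT : Q.IsStress T) (hJ : IsVirial Q T J) (h : NullCharges Q T J A K)
    (hs : ∀ a b, IsNull a → IsNull b → GF.mdot a b = 1 → SdT Q T A K a b) : H121.TrNull T := by
  intro a b κ y ψ v w hA
  have hsh : Tst fun u => ψ (u + GF.mdot a y) := H746.tst_shift hA.2.2.2.2.2 _
  have h1 := tg_zero hT hJ h (hs a b hA.1 hA.2.1 hA.2.2.1) (H746.adm_of hA hsh)
    (Q.U 1 GF.one (-y) v) (Q.U 1 GF.one (-y) w)
  refine h1.congr' ?_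
  filter_upwards [eventually_ge_atTop (1:ℝ)] with R hR
  exact H746.tgy hT hA y hR v w

end Vale.Agent.P352.H846

end
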