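import Vale.Agent.P352.H846.TvC
import Vale.Agent.P352.H746.V6

/-!
# The on-shell dilaton constraint and conformal invariance
-/

set_option linter.all false

noncomputable section

open MeasureTheory Filter Topology

namespace Vale.Agent.P352.H846

open GF (Ix V Fn Fld Theory eta tr improve IsTest)
open H246 H496 H755 H15
open H121 (TrNull)

variable {D : Type*} [NormedAddCommGroup D] [InnerProductSpace ℂ D]
variable {Q : GF.Theory D} {T : Ix → Ix → GF.Fld D} {J : Ix → GF.Fld D}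
  {A : (V → V) → D → D} {K : V → D → D}

/-- **The on-shell dilaton constraint and conformal invariance.** -/
theorem main_v7 (hT : Q.IsStress T) (hJ : IsVirial Q T J) :
    (NullCharges Q T J A K →
      (TrVac Q T ↔ TrNull T) ∧
      (TrNull T ↔ ∃ L : Fld D, ∀ Q₁ : Theory D, IsEnl Q Q₁ → ∃ Q₂ : Theory D, IsEnl Q₁ Q₂ ∧
        Q₂.IsScalar L 2 ∧ Q₂.IsStress (improve T L) ∧ IsImpr Q₂ T (improve T L) ∧
        ConfAct Q₂ (improve T L)) ∧
      (∀ (Q' : Theory D) (L : Fld D), IsEnl Q Q' → Q'.IsScalar L 2 →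
        (∀ f v, GF.IsTest f → tr (improve T L) f v = 0) → TrNull T) ∧
      (ConfGen Q A K ↔ OnShell Q T J) ∧ (TGen Q → (ConfGen Q A K ↔ TrNull T))) ∧
    (ConfGen Q A K → Mom Q T K ∨ Act Q J K →
      ∃ L : Fld D, ∀ Q₁ : Theory D, IsEnl Q Q₁ → ∃ Q₂ : Theory D, IsEnl Q₁ Q₂ ∧
        Q₂.IsScalar L 2 ∧ Q₂.IsStress (improve T L) ∧ IsImpr Q₂ T (improve T L) ∧
        ConfAct Q₂ (improve T L) ∧
        (NullCharges Q T J A K → NoFlux T J →
          (∀ r X, IsSim r X → Chg Q₂ (improve T L) X (A X)) ∧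
          ∀ a, IsNull a → Chg Q₂ (improve T L) (cK a) (K a))) :=
  ⟨fun h => ⟨trVac_iff hT hJ h, (H746.main_v6 hT hJ).1 h⟩, (H746.main_v6 hT hJ).2⟩

end Vale.Agent.P352.H846

end
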